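import Vale.Agent.P057T.Cfg.Bas
import Vale.Agent.P057T.CleanH88

/-!
Statement of the cleaning step of the lifting row.
-/

open MvPolynomial Finset
open scoped Real

namespace Vale.Agent.P057T.Cfg

open Vale.Agent.P057T.Eq

noncomputable section

variable {ι : Type} [Fintype ι] [DecidableEq ι]

/-- the normalised kernel of width `σ0` centred at the point `x` -/
def Kw (G : GT ι) (T : AT ι) (σ0 : ℝ) (x z : ι → ℤ) : ℝ :=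
  ww G T σ0 (fun a => σ0 * uv G T x a) z / (G.mn T.sg univ * (σ0 ^ Fintype.card ι)⁻¹)

/-- the remainder has small mean on all windows of small modulus -/
def KIL : Prop := ∀ (ι : Type) [Fintype ι] [DecidableEq ι] (G : GT ι) (T : AT ι)
  (B δ η σ σ0 Z' : ℝ) (n Q g : ℕ) (F : (ι → ℤ) → ℝ), T.U = univ → (∀ a, 0 < T.sg a) →
    0 < G.mn T.sg univ → 0 ≤ δ → δ ≤ η → η ≤ 1 / 10 → 0 < σ → 0 < σ0 →
    ((Fintype.card ι : ℝ) + 1) * σ ≤ η * σ0 → 2 * σ0 ≤ Real.exp Z' → 1 ≤ n → 1 ≤ g → g ≤ Q →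
    ((n * Q ^ 2 : ℕ) : ℝ) ≤ Real.exp Z' →
    (∀ (n' : ℕ) (σ' : ℝ), 1 ≤ n' → (n' : ℝ) ≤ Real.exp Z' → 0 < σ' → σ' ≤ Real.exp Z' →
      Cnt G T δ n' σ') → (∀ z, |F z| ≤ B) →
    ∀ (r : ι → ℤ) (c : ι → ℝ),
      |∑' z : ι → ℤ, ww G T σ c (r + (g : ℤ) • z) *
        H88.Rem (fun h => H88.Pk (Kw G T σ0) F h (r + (g : ℤ) • z)) (F (r + (g : ℤ) • z)) n Q| ≤
      100 * η * B * (Q : ℝ) ^ 2 * (G.mn T.sg univ * ((σ * g) ^ Fintype.card ι)⁻¹)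

open scoped BigOperators in
/-- a dense family has a dense part on which all remainders have small mean -/
def CLN : Prop := ∀ s : ℕ, ∃ c : ℕ, ∀ (ι : Type) [Fintype ι] [DecidableEq ι] (G : GT ι) (T : AT ι)
  (P Y Z B κ : ℝ) (m L ns : ℕ) (ω : (Option (Fin m) →₀ ℕ) → ℝ) (F : (ι → ℤ) → ℝ)
  (Fam : Finset (JI G.w (Option (Fin m)) → ℤ)) (σ0 Z' : ℝ), 1 ≤ s → G.Ok s → G.AOk T P →
    T.U = univ → 2 ≤ P → 1 ≤ Z → 0 ≤ Y → Y ≤ Z → (Fintype.card ι : ℝ) * (m + 2) ^ s ≤ P →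
    (∀ ν, Real.exp (-Z) ≤ ω ν ∧ ω ν ≤ Real.exp Z) → (L : ℝ) ≤ Real.exp Z → 0 < κ → κ ≤ B →
    Real.exp (4 * Y + 20) * (B / κ) ^ 2 ≤ L → 24 * s ≤ m → 1 ≤ ns →
    (ns : ℝ) ≤ Real.exp (Y + 3) → Real.exp (P ^ c * Z) ≤ σ0 → 2 * σ0 ≤ Real.exp Z' →
    0 < G.mn T.sg univ → 0 < bm G T ω →
    Cnts G T (4 * m + 4) (Real.exp (-Z')) Z' → (∀ z, |F z| ≤ B) →
    Real.exp (-Y) * bm G T ω ≤ ∑ β ∈ Fam, bw G T ω 1 0 β →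
    ∃ Fam' ⊆ Fam, Real.exp (-Y) / 2 * bm G T ω ≤ ∑ β ∈ Fam', bw G T ω 1 0 β ∧
      ∀ β ∈ Fam', ∀ n ∈ Finset.Icc 1 ns,
        |𝔼 t ∈ Fintype.piFinset (fun _ : Fin m => Finset.Ico (0 : ℤ) L),
          H88.Rem (fun h => H88.Pk (Kw G T σ0) F h (ev (pt t) β)) (F (ev (pt t) β)) n (L ^ s)| ≤
          κ / 8

end

end Vale.Agent.P057T.Cfg
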