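import Vale.Agent.P057T.Cfg.Cln0H88
import Vale.Agent.P057T.Cfg.Lift0

/-! The row `CLN`. -/

set_option linter.all false

open Finset
open scoped BigOperators Real

namespace Vale.Agent.P057T.Cfg

open Vale.Agent.P057T.Eq Vale.Agent.P057L

noncomputable section

namespace Cl

variable {ι : Type} [Fintype ι] [DecidableEq ι]

theorem cnt_mono {G : GT ι} {T : AT ι} {δ δ' σ : ℝ} {n : ℕ} (h0 : 0 < δ) (h1 : δ ≤ δ')
    (h : Cnt G T δ n σ) : Cnt G T δ' n σ := fun r c =>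
  ⟨(h r c).1, (h r c).2.trans (mul_le_mul_of_nonneg_right h1
    ((mul_nonneg_iff_of_pos_left h0).1 ((abs_nonneg _).trans (h r c).2)))⟩

theorem cnts_mono {G : GT ι} {T : AT ι} {δ δ' Z : ℝ} {M : ℕ} (h0 : 0 < δ) (h1 : δ ≤ δ')
    (h : Cnts G T M δ Z) : Cnts G T M δ' Z :=
  ⟨fun n σ a b c d => cnt_mono h0 h1 (h.1 n σ a b c d),
    fun V _ _ e ω Δ _ n σ a b c d f g i => cnt_mono h0 h1 (h.2 V e ω Δ n σ a b c d f g i)⟩

theorem one_le {Y B κ L : ℝ} (hY : 0 ≤ Y) (hκ : 0 < κ) (hB : κ ≤ B)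
    (hL' : Real.exp (4 * Y + 20) * (B / κ) ^ 2 ≤ L) : 1 ≤ L :=
  le_trans (one_le_mul_of_one_le_of_one_le (Real.one_le_exp (by linarith))
    (one_le_pow₀ ((one_le_div hκ).2 hB))) hL'

theorem num {Y Z B κ L ns : ℝ} {s m : ℕ} (hY : 0 ≤ Y) (hYZ : Y ≤ Z) (hZ : 1 ≤ Z) (hκ : 0 < κ)
    (hB : κ ≤ B) (hL : L ≤ Real.exp Z) (hL' : Real.exp (4 * Y + 20) * (B / κ) ^ 2 ≤ L)
    (hm : 24 * s ≤ m) (hs : 1 ≤ s) (hns : ns ≤ Real.exp (Y + 3)) :
    ns * ((3 * B * (L ^ s) ^ 2) ^ 2 * (350 * Real.exp (-((4 * s + 25) * Z))) +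
      (3 * B * (L ^ s) ^ 2) ^ 2 * (1 / L ^ m + 2 * (2 / (2 * L)) ^ (m - 1))) ≤
      (κ / 8) ^ 2 * (Real.exp (-Y) / 2 / 2) := by
  have L1 : 1 ≤ L := one_le hY hκ hB hL'
  have L0 : 0 < L := by linarith
  set E := Real.exp (-(4 * Y + 20)) with hE
  have E0 : 0 < E := Real.exp_pos _
  have E1 : E ≤ 1 := Real.exp_le_one_iff.2 (by linarith)
  have hBL : B ^ 2 ≤ κ ^ 2 * E * L := by
    have e : B ^ 2 = κ ^ 2 * E * (Real.exp (4 * Y + 20) * (B / κ) ^ 2) := by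
      rw [hE, Real.exp_neg]; field_simp
    rw [e]
    exact mul_le_mul_of_nonneg_left hL' (by positivity)
  have e1 : (3 * B * (L ^ s) ^ 2) ^ 2 = 9 * B ^ 2 * L ^ (4 * s) := by ring
  have t1 : (3 * B * (L ^ s) ^ 2) ^ 2 * (350 * Real.exp (-((4 * s + 25) * Z))) ≤
      3150 * (κ ^ 2 * E) := by
    have a1 : B ^ 2 ≤ κ ^ 2 * L :=
      hBL.trans (mul_le_mul_of_nonneg_right (mul_le_of_le_one_right (by positivity) E1) L0.le)
    have a2 : L ^ (4 * s + 1) * Real.exp (-((4 * s + 25) * Z)) ≤ E := by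
      refine (mul_le_mul_of_nonneg_right (pow_le_pow_left₀ L0.le hL _) (Real.exp_pos _).le).trans ?_
      rw [← Real.exp_nat_mul, ← Real.exp_add]
      refine Real.exp_le_exp.2 ?_
      push_cast
      linarith
    calc _ = 3150 * (B ^ 2 * (L ^ (4 * s) * Real.exp (-((4 * s + 25) * Z)))) := by rw [e1]; ring
      _ ≤ 3150 * (κ ^ 2 * L * (L ^ (4 * s) * Real.exp (-((4 * s + 25) * Z)))) := by gcongr
      _ = 3150 * (κ ^ 2 * (L ^ (4 * s + 1) * Real.exp (-((4 * s + 25) * Z)))) := by ring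
      _ ≤ _ := by gcongr
  have t2 : (3 * B * (L ^ s) ^ 2) ^ 2 * (1 / L ^ m + 2 * (2 / (2 * L)) ^ (m - 1)) ≤
      27 * (κ ^ 2 * E) := by
    have a1 : 1 / L ^ m ≤ 1 / L ^ (4 * s + 1) :=
      one_div_le_one_div_of_le (by positivity) (pow_le_pow_right₀ L1 (by omega))
    have a2 : (2 / (2 * L)) ^ (m - 1) ≤ 1 / L ^ (4 * s + 1) := by
      rw [show 2 / (2 * L) = 1 / L by field_simp, one_div_pow]
      exact one_div_le_one_div_of_le (by positivity) (pow_le_pow_right₀ L1 (by omega))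
    calc _ ≤ 9 * (κ ^ 2 * E * L) * L ^ (4 * s) * (3 * (1 / L ^ (4 * s + 1))) := by
          rw [e1]
          exact mul_le_mul (by gcongr) (by linarith) (by positivity) (by positivity)
      _ = _ := by field_simp; ring
  have t3 : (813312 : ℝ) ≤ Real.exp 17 := by
    have a1 : (2.7 : ℝ) ≤ Real.exp 1 := by linarith [Real.exp_one_gt_d9]
    have a2 := pow_le_pow_left₀ (by norm_num) a1 17
    rw [← Real.exp_nat_mul] at a2
    norm_num at a2
    linarith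
  have t4 : Real.exp (Y + 3) * E * 813312 ≤ Real.exp (-Y) := by
    refine (mul_le_mul_of_nonneg_left t3 (by positivity)).trans ?_
    rw [hE, ← Real.exp_add, ← Real.exp_add]
    exact Real.exp_le_exp.2 (by linarith)
  have B0 : 0 ≤ B := by linarith
  calc _ ≤ Real.exp (Y + 3) * (3177 * (κ ^ 2 * E)) :=
        mul_le_mul hns (by linarith) (by positivity) (by positivity)
    _ = κ ^ 2 / 256 * (Real.exp (Y + 3) * E * 813312) := by ring
    _ ≤ κ ^ 2 / 256 * Real.exp (-Y) := by gcongr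
    _ = _ := by ring

theorem big {P : ℝ} (hP : 2 ≤ P) (c k : ℕ) : P + P ^ c + k ≤ P ^ (c + 1 + (k + 2)) := by
  have a1 : (1 : ℝ) ≤ P ^ c := one_le_pow₀ (by linarith)
  have a2 : ((k : ℝ) + 2) ≤ P ^ (k + 2) := by
    have h1 : k + 2 ≤ 2 ^ (k + 2) := Nat.lt_two_pow_self.le
    have h2 : ((k + 2 : ℕ) : ℝ) ≤ ((2 ^ (k + 2) : ℕ) : ℝ) := by exact_mod_cast h1
    push_cast at h2
    exact h2.trans (pow_le_pow_left₀ (by norm_num) hP _)
  have k0 : (0 : ℝ) ≤ k := Nat.cast_nonneg _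
  rw [pow_add, pow_succ]
  have a3 : P ^ c ≤ P ^ c * P := by nlinarith
  have a4 : P ≤ P ^ c * P := by nlinarith
  have a5 : (k : ℝ) ≤ P ^ c * P * k := le_mul_of_one_le_left k0 (by linarith)
  nlinarith [mul_le_mul_of_nonneg_left a2 (by linarith : 0 ≤ P ^ c * P)]

theorem prm {P Y Z Z' σ0 L D ns : ℝ} {c1 s : ℕ} (hP : 2 ≤ P) (hZ : 1 ≤ Z) (hYZ : Y ≤ Z)
    (b1 : D ≤ P) (L0 : 0 ≤ L) (hL : L ≤ Real.exp Z) (hns : ns ≤ Real.exp (Y + 3))
    (hσ0 : Real.exp (P ^ (c1 + 1 + (4 * (4 * s + 25) + 2)) * Z) ≤ σ0)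
    (hZ' : 2 * σ0 ≤ Real.exp Z') {η : ℝ} (hη : η = Real.exp (-((4 * s + 25) * Z))) :
    ∃ σ : ℝ, 0 < σ ∧ η ≤ 1 / 10 ∧ Real.exp (-Z') ≤ η ^ 4 ∧ Real.exp (-Z') ≤ η ∧
      Real.exp (P ^ c1 * Z) ≤ η * σ ∧ σ ≤ Real.exp Z' ∧ (D + 1) * σ ≤ η * σ0 ∧
      ns * (L ^ s) ^ 2 ≤ Real.exp Z' ∧ Real.exp Z ≤ Real.exp Z' ∧ P ^ c1 * Z ≤ Z' := by
  have hb := big hP c1 (4 * (4 * s + 25))
  generalize P ^ (c1 + 1 + (4 * (4 * s + 25) + 2)) = H at hb hσ0
  push_cast at hb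
  have a1 : (1 : ℝ) ≤ P ^ c1 := one_le_pow₀ (by linarith)
  generalize P ^ c1 = a at hb a1
  have s0 : (0 : ℝ) ≤ s := Nat.cast_nonneg _
  have σ00 : 0 < σ0 := (Real.exp_pos _).trans_le hσ0
  have hH : H * Z ≤ Z' := Real.exp_le_exp.1 (by linarith)
  have hbZ := mul_le_mul_of_nonneg_right hb (by linarith : 0 ≤ Z)
  have p1 : P ≤ P * Z := le_mul_of_one_le_right (by linarith) hZ
  have p2 : Z ≤ a * Z := le_mul_of_one_le_left (by linarith) a1
  have p3 : 0 ≤ (s : ℝ) * Z := mul_nonneg s0 (by linarith)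
  have η0 : 0 < η := hη ▸ Real.exp_pos _
  have η1 : η ≤ 1 / 10 := by
    have b1 : η ≤ Real.exp (-9) := hη ▸ Real.exp_le_exp.2 (by linarith)
    have b2 : (10 : ℝ) ≤ Real.exp 9 := by linarith [Real.add_one_le_exp 9]
    rw [Real.exp_neg, ← one_div] at b1
    exact b1.trans (one_div_le_one_div_of_le (by norm_num) b2)
  have d1 : Real.exp (-Z') ≤ η ^ 4 := by
    rw [hη, ← Real.exp_nat_mul]
    refine Real.exp_le_exp.2 ?_
    push_cast
    linarith
  refine ⟨Real.exp ((a + (4 * s + 25)) * Z), Real.exp_pos _, η1, d1,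
    d1.trans (pow_le_of_le_one η0.le (by linarith) (by norm_num)), ?_,
    Real.exp_le_exp.2 (by linarith), ?_, ?_, Real.exp_le_exp.2 (by linarith), by linarith⟩
  · rw [hη, ← Real.exp_add]
    exact Real.exp_le_exp.2 (by linarith)
  · have b2 : D + 1 ≤ Real.exp (P * Z) := by
      have := Real.add_one_le_exp (P * Z)
      linarith
    refine (mul_le_mul_of_nonneg_right b2 (Real.exp_pos _).le).trans
      (le_trans ?_ (mul_le_mul_of_nonneg_left hσ0 η0.le))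
    rw [hη, ← Real.exp_add, ← Real.exp_add]
    exact Real.exp_le_exp.2 (by linarith)
  · rw [← pow_mul]
    refine (mul_le_mul hns (pow_le_pow_left₀ L0 hL _) (by positivity)
      (by positivity)).trans ?_
    rw [← Real.exp_nat_mul, ← Real.exp_add]
    refine Real.exp_le_exp.2 ?_
    push_cast
    linarith

end Cl

open Cl in
theorem cln (hK : KIL) (hCut : CUT) : CLN := by
  intro s
  obtain ⟨c1, hc⟩ := hCut s
  refine ⟨c1 + 1 + (4 * (4 * s + 25) + 2), ?_⟩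
  intro ι _ _ G T P Y Z B κ m L ns ω F Fam σ0 Z' hs ok ao hU hP hZ hY hYZ hcd hω hL hκ hB hL' hm
    hns1 hns hσ0 hZ' hmn hbm hC hF hFam
  have σ00 : 0 < σ0 := (Real.exp_pos _).trans_le hσ0
  have L1 : (1 : ℝ) ≤ L := one_le hY hκ hB hL'
  have L1' : 1 ≤ L := by exact_mod_cast L1
  have B0 : 0 < B := by linarith
  have hnum := num hY hYZ hZ hκ hB hL hL' hm hs hns
  obtain ⟨η, hη⟩ : ∃ η, η = Real.exp (-((4 * s + 25) * Z)) := ⟨_, rfl⟩
  have η0 : 0 < η := hη ▸ Real.exp_pos _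
  rw [← hη] at hnum
  obtain ⟨σ, σp, η1, d1, d2, d3, d4, d5, d6', ZZ, d7⟩ := prm (D := Fintype.card ι) hP hZ hYZ
    (le_trans (le_mul_of_one_le_right (Nat.cast_nonneg _)
      (one_le_pow₀ (by linarith [(Nat.cast_nonneg m : (0 : ℝ) ≤ m)]))) hcd)
    (by linarith) hL hns hσ0 hZ' hη
  clear hη hσ0 hL' hns
  have Q1 : 1 ≤ L ^ s := Nat.one_le_pow _ _ L1'
  have d6 : ∀ n ∈ Icc 1 ns, ((n * (L ^ s) ^ 2 : ℕ) : ℝ) ≤ Real.exp Z' := by
    intro n hn
    push_cast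
    exact le_trans (mul_le_mul_of_nonneg_right (by exact_mod_cast (mem_Icc.1 hn).2)
      (by positivity)) d6'
  have Z1 : 1 ≤ Real.exp Z' := (Real.one_le_exp (by linarith)).trans ZZ
  have hsg : ∀ a, 0 < T.sg a := fun a => (inv_pos.2 (by linarith)).trans_le (ao.s1 a)
  have hω' : ∀ ν, 0 < ω ν ∧ ω ν ≤ Real.exp Z := fun ν =>
    ⟨(Real.exp_pos _).trans_le (hω ν).1, (hω ν).2⟩
  -- total mass
  have hJ := H88.cc_of (G := jet G _ ω) (T := jat G T (e0 m) ω univ) (δ := Real.exp (-Z'))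
    (E := Real.exp Z') rfl (fun n σ' h1 h2 h3 h4 => by
      have := hC.2 (Option (Fin m)) (e0 m) ω (fun _ => True) n σ' (by simp; omega)
        (fun _ _ _ _ => trivial) (fun ν => ⟨(hω' ν).1, (hω' ν).2.trans ZZ⟩) h1 h2 h3 h4
      rwa [UD_true] at this) 1 1 le_rfl (by simpa using Z1) one_pos Z1 0 0
  have sw : Summable (bw G T ω 1 0) := hJ.1
  have tw : ∑' β, bw G T ω 1 0 β ≤ 2 * bm G T ω := by
    have b1 := (abs_le.1 hJ.2).2
    simp only [H88.Ac, H88.cl_one, Nat.cast_one, one_pow, one_mul, mul_one, inv_one] at b1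
    have b2 : ∑' β, bw G T ω 1 0 β - bm G T ω ≤ Real.exp (-Z') * bm G T ω := b1
    have b3 := mul_le_mul_of_nonneg_right (d2.trans η1) hbm.le
    linarith
  -- the remainder
  obtain ⟨B1, hB1⟩ : ∃ B1 : ℝ, B1 = 3 * B * ((L : ℝ) ^ s) ^ 2 := ⟨_, rfl⟩
  rw [← hB1] at hnum
  have Q1' : (1 : ℝ) ≤ ((L : ℝ) ^ s) ^ 2 := one_le_pow₀ (one_le_pow₀ L1)
  have B10 : 0 < B1 := by rw [hB1]; positivity
  let R : ℕ → (ι → ℤ) → ℝ := fun n x =>
    H88.Rem (fun h => H88.Pk (Kw G T σ0) F h x) (F x) n (L ^ s)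
  have hR : ∀ n ∈ Icc 1 ns, ∀ x, |R n x| ≤ B1 := by
    intro n hn x
    have b1 := H88.abs_rem' (fun h => H88.Pk (Kw G T σ0) F h x) (F x) B (2 * B) n (L ^ s)
      (mem_Icc.1 hn).1 (by positivity) (hF x) (fun h h1 h2 =>
        H88.pk_le (H88.cc_of hU hC.1) hmn σ00 (by linarith) (by linarith) hF h1
          (le_trans (by exact_mod_cast h2.trans (Nat.mul_le_mul_left n (Nat.le_self_pow two_ne_zero _)))
            (d6 n hn)) x)
    push_cast at b1
    refine b1.trans ?_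
    rw [hB1]
    linarith [mul_le_mul_of_nonneg_left Q1' B0.le]
  have key := H88.clean (fun β => bw G T ω 1 0 β / (2 * bm G T ω))
    (fun β => div_nonneg (H88.ww_pos _ _ _ _ _).le (by positivity)) (sw.div_const _)
    (by rw [tsum_div_const, div_le_one (by positivity)]; exact tw) m L (2 * L) ns (by omega) L1'
    (by omega) (fun n t β => R n (ev (pt t) β)) B1 (B1 ^ 2 * (350 * η)) (κ / 8)
    (Real.exp (-Y) / 2) (by positivity) (by positivity) (fun n hn t β => hR n hn _) ?_ Fam ?_ ?_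
  · obtain ⟨F', h1, h2, h3⟩ := key
    refine ⟨F', h1, ?_, h3⟩
    rw [← sum_div, le_div_iff₀ (by positivity)] at h2
    linarith
  · intro n hn t ht x hx g1 _
    obtain ⟨l, hl⟩ : ∃ l, x l ≠ t l := by
      by_contra hc
      push Not at hc
      have g0 : H88.gv (x - t) = 0 :=
        Finset.gcd_eq_zero_iff.2 fun l _ => by simp [hc l]
      omega
    simp only [bz, rg, Fintype.mem_piFinset, mem_Ico] at hx ht
    have ab : ∀ y : Fin m → ℤ, (∀ i, 0 ≤ y i ∧ y i < L) → ∀ i, |(y i : ℝ)| ≤ Real.exp Z := by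
      intro y hy i
      refine le_trans ?_ hL
      have : |y i| ≤ L := abs_le.2 ⟨by linarith [(hy i).1], (hy i).2.le⟩
      exact_mod_cast this
    have g2 : 1 ≤ (x l - t l).natAbs ^ s := Nat.one_le_pow _ _ (by omega)
    have g3 : (x l - t l).natAbs ^ s ≤ L ^ s := by
      refine Nat.pow_le_pow_left ?_ _
      have := hx l
      have := ht l
      omega
    have hF1 : ∀ z, |R n z / B1| ≤ 1 := fun z => by
      rw [abs_div, abs_of_pos B10, div_le_one B10]; exact hR n hn z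
    have k := hc ι G T P Z η (100 / 3 * η) σ m ω t x l (fun z => R n z / B1) (fun z => R n z / B1)
      ok ao hU hP hZ hcd hω' (fun i => ⟨ab t ht i, ab x hx i⟩) hl η0 (by linarith) (by positivity)
      d3 Z' d7 d4 (cnts_mono (Real.exp_pos _) d1 hC) hF1 hF1 (fun r c => by
        have k1 := hK ι G T B (Real.exp (-Z')) η σ σ0 Z' n (L ^ s) _ F hU hsg hmn
          (Real.exp_pos _).le d2 η1 σp σ00 d5 hZ' (mem_Icc.1 hn).1 g2 g3 (d6 n hn) hC.1 hF r c
        simp only [← mul_div_assoc]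
        rw [tsum_div_const, abs_div, abs_of_pos B10, div_le_iff₀ B10]
        refine k1.trans (le_of_eq ?_)
        rw [hB1]
        push_cast
        ring)
    have e : ∀ β, bw G T ω 1 0 β / (2 * bm G T ω) * (R n (ev (pt t) β) * R n (ev (pt x) β)) =
        B1 ^ 2 / (2 * bm G T ω) *
          (bw G T ω 1 0 β * (R n (ev (pt t) β) / B1 * (R n (ev (pt x) β) / B1))) := by
      intro β
      field_simp
    simp only [e]
    rw [tsum_mul_left]
    refine (mul_le_mul_of_nonneg_left ((le_abs_self _).trans k) (by positivity)).trans ?_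
    have e2 : B1 ^ 2 / (2 * bm G T ω) * (20 * (100 / 3 * η + η) * bm G T ω) =
        B1 ^ 2 * (1030 / 3 * η) := by
      field_simp
      ring
    rw [e2]
    exact mul_le_mul_of_nonneg_left (by linarith) (by positivity)
  · rw [← sum_div, le_div_iff₀ (by positivity)]
    linarith
  · push_cast
    exact hnum

end

end Vale.Agent.P057T.Cfg
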