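import Vale.Agent.P057T.Cfg.Cln0H88
import Vale.Agent.P057T.Cfg.Lift0

/-! The row `KIL`. -/

set_option linter.all false

open Finset

namespace Vale.Agent.P057T.H88

open Vale.Agent.P057T.Eq Vale.Agent.P057T.Cfg

theorem kil : KIL := by
  intro ι _ _ G T B δ η σ s0 Z' n Q g F hU _ hm hδ0 hδ hη hσ hs hx hE hn hg hgQ hL hC hF r c
  have hB : 0 ≤ B := (abs_nonneg _).trans (hF 0)
  have D0 : (0 : ℝ) ≤ Fintype.card ι := Nat.cast_nonneg _
  have η0 : 0 ≤ η := hδ0.trans hδ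
  have a0 : η * s0 ≤ s0 := by nlinarith
  have a1 : σ ≤ s0 := by nlinarith
  have a2 : (1 + σ / s0) ^ Fintype.card ι ≤ 1 + 2 * η := by
    have b1 : (Fintype.card ι : ℝ) * (σ / s0) ≤ η := by
      rw [← mul_div_assoc, div_le_iff₀ hs]; nlinarith
    have b2 : (1 + σ / s0) ^ Fintype.card ι ≤ Real.exp η := by
      refine (pow_le_pow_left₀ (by positivity) (by
        linarith [Real.add_one_le_exp (σ / s0)] : 1 + σ / s0 ≤ Real.exp (σ / s0)) _).trans ?_
      rw [← Real.exp_nat_mul]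
      exact Real.exp_le_exp.2 b1
    have b3 := abs_le.1 (Real.abs_exp_sub_one_le (x := η) (by rw [abs_of_nonneg η0]; linarith))
    rw [abs_of_nonneg η0] at b3
    linarith [b3.2]
  have h := win (cc_of hU hC) hm hσ a1 hE hδ0 (by linarith) (by positivity) a2 hF hg hgQ hn hL r c
  rw [Ac, tsum_cl _ hg, abs_mul] at h
  have g0 : (0 : ℝ) < (g : ℝ) ^ Fintype.card ι := by positivity
  rw [abs_of_pos g0] at h
  refine le_of_mul_le_mul_left (h.trans ?_) g0
  have e : (g : ℝ) ^ Fintype.card ι * (100 * η * B * (Q : ℝ) ^ 2 *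
      (G.mn T.sg univ * ((σ * g) ^ Fintype.card ι)⁻¹)) =
      100 * η * B * (Q : ℝ) ^ 2 * (G.mn T.sg univ * (σ ^ Fintype.card ι)⁻¹) := by
    rw [mul_pow]; field_simp
  rw [e]
  refine mul_le_mul_of_nonneg_right ?_ (by positivity)
  have : 0 ≤ (Q : ℝ) ^ 2 * B := by positivity
  nlinarith [mul_le_mul_of_nonneg_left hδ this, mul_nonneg this η0]

end Vale.Agent.P057T.H88
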