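import Vale.Agent.P057T.Cfg.Defs
import Vale.Agent.P057T.Eq.Mono

/-! Counting in windows of regular towers and of their jet towers. -/

set_option linter.all false

open MvPolynomial Finset
open scoped Real

namespace Vale.Agent.P057T.Cfg

open Vale.Agent.P057T.Eq

variable {ι : Type} [Fintype ι] [DecidableEq ι] {G : GT ι} {WW : ℕ → ℝ} {c Y : ℝ} {s : ℕ}

theorem Rs.rg (h : Rs G WW c Y s) (hW : ∀ g, 0 ≤ WW g) (hc : 1 ≤ c) (hY : 1 ≤ Y) :
    G.Rg WW c Y s := fun g hg => by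
  refine ⟨(h g hg).1, (h g hg).2.mono ?_⟩
  have h1 : 1 ≤ c * (Y + WW g) := one_le_mul_of_one_le_of_one_le hc (by linarith [hW g])
  have h2 : 0 ≤ c * (Y + WW (g + 1)) := mul_nonneg (by linarith) (by linarith [hW (g + 1)])
  exact le_min (mul_le_of_le_one_right (Real.exp_pos _).le (inv_le_one_of_one_le₀ h1))
    (mul_le_of_le_one_left (inv_nonneg.2 (by linarith)) (Real.exp_le_one_iff.2 (by linarith)))

theorem Rs.mono {c' Y' : ℝ} (h : Rs G WW c' Y' s) (hW : ∀ g, 0 ≤ WW g) (hc0 : 0 < c) (hY0 : 0 < Y)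
    (hc : c ≤ c') (hY : Y ≤ Y') : Rs G WW c Y s := fun g hg => by
  have h1 : ∀ g, c * (Y + WW g) ≤ c' * (Y' + WW g) := fun g =>
    mul_le_mul hc (by linarith) (by linarith [hW g]) (by linarith)
  have h2 : 0 < c * (Y + WW g) := mul_pos hc0 (by linarith [hW g])
  refine ⟨(h g hg).1.mono (Real.exp_le_exp.2 (h1 g)), (h g hg).2.mono ?_⟩
  exact mul_le_mul (Real.exp_le_exp.2 (neg_le_neg (h1 _))) (inv_anti₀ h2 (h1 g))
    (inv_nonneg.2 (h2.le.trans (h1 g))) (Real.exp_pos _).le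

theorem card_JI {V : Type} [Fintype V] [DecidableEq V] {w : ι → ℕ} (hw : ∀ a, w a ≤ s) {M : ℕ}
    (hM : Fintype.card V ≤ M) : Fintype.card (JI w V) ≤ Fintype.card ι * (M + 1) ^ s := by
  rw [Fintype.card_coe]
  refine card_biUnion_le.trans ((sum_le_card_nsmul _ _ ((M + 1) ^ s) fun a _ => ?_).trans_eq
    (by rw [card_univ, smul_eq_mul]))
  refine card_image_le.trans ?_
  rw [card_finsuppAntidiag_nat_eq_choose, card_univ]
  have h1 := Nat.ascFactorial_le_factorial_mul_pow (Fintype.card V) (w a)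
  rw [Nat.ascFactorial_eq_factorial_mul_choose'] at h1
  exact (Nat.le_of_mul_le_mul_left h1 (Nat.factorial_pos _)).trans
    ((Nat.pow_le_pow_left (by omega) _).trans (Nat.pow_le_pow_right (Nat.succ_pos M) (hw a)))

theorem count1 (hD : DIL) (hS : SUMM) (hM : ∀ s, MASS s s s) : COUNT1 := by
  intro s
  obtain ⟨c, hM⟩ := hM s
  refine ⟨c, fun ι _ _ G T WW P Y Z σ n hG hW hP hT Z0 n1 n2 σ0 σ1 hR r c' => ?_⟩
  obtain ⟨d1, d2, d3, d4, d5⟩ := hD s ι G n σ hG n1 σ0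
  obtain ⟨d6, d7⟩ := d4 T P r c' hT
  have P2 := hP.P2
  have w1 := d3 WW (2 * Z) hW (by linarith) (by
    rw [two_mul, Real.exp_add]
    exact mul_le_mul σ1 n2 (Nat.cast_nonneg n) (Real.exp_pos _).le)
  have c1 := one_le_pw P2 c
  have r1 := (d5 WW (P ^ c) Y Z hW c1 hP.Y1 Z0 n2 σ1 hR).rg w1.nn c1 hP.Y1
  have h1 := hS s ι _ _ P d1 (by linarith) d6
  have h2 := hM ι _ _ _ P Y s d1 w1 hP d6 le_rfl r1 (fun a _ _ => d1.ws a)
    ((card_le_card (t := range s) fun g hg => by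
      obtain ⟨a, -, rfl⟩ := mem_image.1 hg
      exact mem_range.2 (d1.gs a)).trans_eq (card_range s)) fun a _ => d1.gs a
  have e : (dil G n σ).mn (dat G T r n σ c').sg (dat G T r n σ c').U =
      G.mn T.sg T.U * ((σ * n) ^ T.U.card)⁻¹ := by
    rw [GT.mn, d2, GT.mn]
    show G.dv T.U * ((σ * n) ^ T.U.card)⁻¹ * ∏ a ∈ T.U, (T.sg a)⁻¹ = _
    ring
  rw [e, GT.ms] at h2
  simp only [d7] at h1 h2
  exact ⟨h1, h2⟩

theorem count (hJ : JOK) (hC : CFG) (h1 : COUNT1) : COUNT := by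
  intro s
  obtain ⟨c, h1⟩ := h1 s
  refine ⟨c, fun ι _ _ G T WW P Y Z M hG hW hP hT hU Z0 hM hR => ?_⟩
  have P2 := hP.P2
  have Y1 := hP.Y1
  have c1 := one_le_pw P2 c
  have s0 : (0 : ℝ) ≤ s := Nat.cast_nonneg s
  have a1 : 0 ≤ (s : ℝ) * Z := mul_nonneg s0 Z0
  have a2 : 0 ≤ (s : ℝ) ^ 3 * M := by positivity
  refine ⟨fun n σ n1 n2 σ0 σ1 => h1 ι G T WW P Y Z σ n hG hW hP hT Z0 n1 n2 σ0 σ1
    (hR.mono hW.nn (by linarith) (by nlinarith) le_rfl (by nlinarith)),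
    fun V _ _ e ω Δ _ n σ hV hΔ hω n1 n2 σ0 σ1 => ?_⟩
  obtain ⟨j1, -, j2, j3⟩ := hJ s ι V G ω hG fun ν => (hω ν).1
  have a3 : (s : ℝ) ^ 3 * Fintype.card V ≤ (s : ℝ) ^ 3 * M :=
    mul_le_mul_of_nonneg_left (by exact_mod_cast hV) (by positivity)
  have a4 : 0 ≤ (s : ℝ) ^ 3 * Fintype.card V := by positivity
  refine h1 _ _ _ _ P Y Z σ n j1 (j2 WW Z hW Z0 fun ν => (hω ν).2) ⟨le_trans ?_ hM, P2, Y1⟩
    (j3 T P e Δ hT hU hΔ) Z0 n1 n2 σ0 σ1
    (hC s ι V G ω WW _ _ Z hG hW c1 (by nlinarith) Z0 hω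
      (hR.mono hW.nn (by linarith) (by nlinarith) le_rfl (by nlinarith)))
  exact_mod_cast card_JI hG.ws hV

end Vale.Agent.P057T.Cfg
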