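import Vale.Agent.P057T.Cfg.Lift3
import Vale.Agent.P057T.Cfg.Count

/-!
The lifting row from the cleaning step.
-/

set_option linter.all false

open Finset
open scoped Real BigOperators

namespace Vale.Agent.P057T.Cfg

open Vale.Agent.P057T.Eq

noncomputable section

namespace Lf

theorem n1 {X δ σ a e : ℝ} (hX : 7 ≤ X) (hδ : δ * X ^ 10 ≤ 1) (hσ : X ^ 12 ≤ σ) (ha0 : 0 ≤ a)
    (ha : a ≤ X) (he : 1 ≤ e * X) : (2 * δ + (σ ^ 2)⁻¹ * a) / (e / 2 / 16) + 4 * (e / 2 / 16) <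
      e / 2 / 2 := by
  have hX0 : 0 < X := by linarith
  have he0 : 0 < e := by
    by_contra h
    nlinarith
  have h1 : (σ ^ 2)⁻¹ * a * X ^ 10 ≤ 1 := by
    have h2 : X ^ 12 ≤ σ ^ 2 := by
      have : 1 ≤ X ^ 12 := one_le_pow₀ (by linarith)
      nlinarith
    have h3 : a * X ^ 10 ≤ X ^ 12 := by
      have : a ≤ X ^ 2 := by nlinarith
      calc a * X ^ 10 ≤ X ^ 2 * X ^ 10 := by gcongr
        _ = X ^ 12 := by ring
    rw [mul_assoc, inv_mul_le_iff₀ (lt_of_lt_of_le (by positivity) h2)]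
    linarith
  have h4 : (2 * δ + (σ ^ 2)⁻¹ * a) * X ^ 10 ≤ 3 := by linarith
  have h5 : 1 ≤ e ^ 2 * X ^ 2 := by nlinarith
  have h6 : (7 : ℝ) ^ 8 ≤ X ^ 8 := pow_le_pow_left₀ (by norm_num) hX 8
  have h7 : 2 * δ + (σ ^ 2)⁻¹ * a < e ^ 2 / 256 := by
    by_contra h
    push Not at h
    have h8 : e ^ 2 / 256 * X ^ 10 ≤ 3 := (mul_le_mul_of_nonneg_right h (by positivity)).trans h4
    have h9 : e ^ 2 / 256 * X ^ 10 = (e ^ 2 * X ^ 2) * X ^ 8 / 256 := by ring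
    have h10 : 1 * 7 ^ 8 ≤ (e ^ 2 * X ^ 2) * X ^ 8 := mul_le_mul h5 h6 (by norm_num) (by positivity)
    norm_num at h10
    linarith
  have h11 : (2 * δ + (σ ^ 2)⁻¹ * a) / (e / 2 / 16) < e / 8 := by
    rw [div_lt_iff₀ (by positivity)]
    linarith
  linarith

theorem two_pow_le (K : ℕ) : (2 : ℝ) ^ K ≤ Real.exp K := by
  rw [← Real.exp_one_pow]
  exact pow_le_pow_left₀ (by norm_num) (by linarith [Real.add_one_le_exp 1]) K

theorem n2 (K : ℕ) {Y : ℝ} (hY : 0 ≤ Y) :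
    2 * 2 ^ K * Real.exp (-(2 * (K + Y + 5))) ≤ Real.exp (-Y) / 2 / 16 := by
  have h1 := two_pow_le K
  have h2 := two_pow_le 6
  have hK : (0 : ℝ) ≤ K := Nat.cast_nonneg K
  have h3 : Real.exp K * Real.exp (6 : ℕ) * Real.exp (-(2 * (K + Y + 5))) ≤ Real.exp (-Y) := by
    rw [← Real.exp_add, ← Real.exp_add, Real.exp_le_exp]
    push_cast
    linarith
  have h4 : 2 ^ K * 2 ^ 6 * Real.exp (-(2 * (K + Y + 5))) ≤
      Real.exp K * Real.exp (6 : ℕ) * Real.exp (-(2 * (K + Y + 5))) := by gcongr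
  linarith

theorem n3 {X δ B κ Q D K P E ρ σ0 : ℝ} {s : ℕ} (hX : 7 ≤ X) (hδ : δ * X ^ (4 * s + 12) ≤ 1)
    (hδ0 : 0 ≤ δ) (hκ : 0 < κ) (hκB : κ ≤ B) (hB : B ≤ κ * X) (hQ1 : 1 ≤ Q) (hQ : Q ≤ X ^ s)
    (hD0 : 0 ≤ D) (hD : D ≤ X) (hK0 : 0 ≤ K) (hK : K ≤ X) (hP0 : 0 ≤ P) (hP : P ≤ X) (hE0 : 0 ≤ E)
    (hE : E ≤ X) (hρ0 : 0 ≤ ρ) (hρ : ρ + 1 ≤ X ^ 2) (hσ : 0 < σ0) :
    Q ^ 2 * (B * ((2 * δ + D * (σ0 * P * (K * (E * (2 * P * (ρ + 1) / (σ0 * X ^ (3 * s + 12))) *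
      E ^ s))) ^ 2) / (κ / (128 * B * Q ^ 2)) + 4 * (κ / (128 * B * Q ^ 2)))) ≤ κ / 16 := by
  have hX0 : 0 < X := by linarith
  have hB0 : 0 < B := by linarith
  have hQ0 : 0 < Q := by linarith
  have h2 : (2 : ℝ) ≤ X := by linarith
  set q := D * (σ0 * P * (K * (E * (2 * P * (ρ + 1) / (σ0 * X ^ (3 * s + 12))) * E ^ s))) ^ 2
    with hq
  have hq1 : q * X ^ (4 * s + 9) ≤ 1 := by
    have e1 : σ0 * P * (K * (E * (2 * P * (ρ + 1) / (σ0 * X ^ (3 * s + 12))) * E ^ s)) =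
        P * K * E * 2 * P * (ρ + 1) * E ^ s / X ^ (3 * s + 12) := by
      field_simp
    have e2 : P * K * E * 2 * P * (ρ + 1) * E ^ s ≤ X * X * X * X * X * X ^ 2 * X ^ s := by gcongr
    have e3 : q ≤ X * (X * X * X * X * X * X ^ 2 * X ^ s / X ^ (3 * s + 12)) ^ 2 := by
      rw [hq, e1]
      gcongr
    refine (mul_le_mul_of_nonneg_right e3 (by positivity)).trans (le_of_eq ?_)
    field_simp
    ring
  have hδ1 : δ * X ^ (4 * s + 9) ≤ 1 :=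
    (mul_le_mul_of_nonneg_left (pow_le_pow_right₀ (by linarith) (by omega)) hδ0).trans hδ
  have h3 : (2 * δ + q) * X ^ (4 * s + 9) ≤ 3 := by linarith
  have h6 : (7 : ℝ) ^ 7 ≤ X ^ 7 := pow_le_pow_left₀ (by norm_num) hX 7
  have h7 : B ^ 2 * Q ^ 4 ≤ (κ * X) ^ 2 * (X ^ s) ^ 4 := by gcongr
  have hq0 : 0 ≤ 2 * δ + q := by positivity
  have h8 : (2 * δ + q) * (B ^ 2 * Q ^ 4) * X ^ 7 ≤ 3 * κ ^ 2 := by
    calc _ ≤ (2 * δ + q) * ((κ * X) ^ 2 * (X ^ s) ^ 4) * X ^ 7 := by gcongr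
      _ = ((2 * δ + q) * X ^ (4 * s + 9)) * κ ^ 2 := by ring
      _ ≤ _ := mul_le_mul_of_nonneg_right h3 (by positivity)
  have h9 : (2 * δ + q) * (B ^ 2 * Q ^ 4) * 7 ^ 7 ≤ 3 * κ ^ 2 :=
    (mul_le_mul_of_nonneg_left h6 (by positivity)).trans h8
  have e4 : Q ^ 2 * (B * ((2 * δ + q) / (κ / (128 * B * Q ^ 2)) + 4 * (κ / (128 * B * Q ^ 2)))) =
      128 * ((2 * δ + q) * (B ^ 2 * Q ^ 4)) / κ + κ / 32 := by
    field_simp
    ring
  rw [e4]
  have h10 : 128 * ((2 * δ + q) * (B ^ 2 * Q ^ 4)) / κ ≤ κ / 32 := by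
    rw [div_le_iff₀ hκ]
    norm_num at h9
    nlinarith [sq_nonneg κ]
  linarith

theorem n4 {Y : ℝ} (hY : 0 ≤ Y) {r : ℕ} (hr : 3 ≤ r) : 1 ≤ ⌊Real.exp (Y + 3)⌋₊ ∧
    2 < Real.exp (-Y) / 2 / 16 * (⌊Real.exp (Y + 3)⌋₊ : ℝ) ^ r := by
  have h1 := two_pow_le 3
  have h2 : 1 ≤ Real.exp Y := Real.one_le_exp hY
  have h3 : 8 * Real.exp Y ≤ Real.exp (Y + 3) := by
    rw [Real.exp_add]
    push_cast at h1
    nlinarith
  have h4 := Nat.lt_floor_add_one (Real.exp (Y + 3))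
  set n : ℝ := (⌊Real.exp (Y + 3)⌋₊ : ℝ) with hn
  have h5 : 7 * Real.exp Y ≤ n := by linarith
  have h6 : 7 ≤ n := by linarith
  refine ⟨by
    have : (1 : ℝ) ≤ n := by linarith
    rw [hn] at this
    exact_mod_cast this, ?_⟩
  have h7 : n ^ 3 ≤ n ^ r := pow_le_pow_right₀ (by linarith) hr
  have h8 : 49 * (7 * Real.exp Y) ≤ n ^ 3 := by
    calc _ ≤ (n * n) * n := mul_le_mul (by nlinarith) h5 (by positivity) (by positivity)
      _ = n ^ 3 := by ring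
  have h9 : Real.exp (-Y) * Real.exp Y = 1 := by rw [← Real.exp_add]; simp
  have h10 := mul_le_mul_of_nonneg_left (h8.trans h7) (Real.exp_pos (-Y)).le
  nlinarith

theorem n5 {P Z : ℝ} (hP : 2 ≤ P) (hZ : 1 ≤ Z) (a j : ℕ) :
    Real.exp (P ^ a * Z) * Real.exp (P * Z) ^ j ≤ Real.exp (P ^ (a + j + 2) * Z) := by
  rw [← Real.exp_nat_mul, ← Real.exp_add, Real.exp_le_exp]
  have h1 : (1 : ℝ) ≤ P := by linarith
  have h2 : (j : ℝ) ≤ P ^ j := by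
    have : (j : ℝ) ≤ 2 ^ j := by exact_mod_cast Nat.lt_two_pow_self.le
    exact this.trans (pow_le_pow_left₀ (by norm_num) hP j)
  have h3 : P ^ a ≤ P ^ (a + j + 1) := pow_le_pow_right₀ h1 (by omega)
  have h4 : j * P ≤ P ^ (a + j + 1) :=
    calc j * P ≤ P ^ j * P := by gcongr
      _ = P ^ (j + 1) := by ring
      _ ≤ _ := pow_le_pow_right₀ h1 (by omega)
  have h5 : 2 * P ^ (a + j + 1) ≤ P ^ (a + j + 2) := by
    rw [pow_succ P (a + j + 1), mul_comm]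
    gcongr
  have h6 : P ^ a + j * P ≤ P ^ (a + j + 2) := by linarith
  calc _ = (P ^ a + j * P) * Z := by ring
    _ ≤ _ := by gcongr

end Lf

open Lf

set_option maxHeartbeats 1600000 in
theorem lift (hC : CLN) (hJ : JOK) : LIFT := by
  intro s
  obtain ⟨c1, hc⟩ := hC s
  refine ⟨c1 + (4 * s + 12) + 2, ?_⟩
  intro ι _ _ G T P Y Z B κ m L r ω F Fam hs hG hT hU hP hZ hY hYZ hcard hω hL hκ hκB hLb hr hm hBr
    hcn hF hmass hmean
  have hbig := n5 hP hZ c1 (4 * s + 12)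
  obtain ⟨hns1, hns2⟩ := n4 hY hr
  have hns3 : (⌊Real.exp (Y + 3)⌋₊ : ℝ) ≤ Real.exp (Y + 3) := Nat.floor_le (Real.exp_pos _).le
  generalize ⌊Real.exp (Y + 3)⌋₊ = ns at hns1 hns2 hns3
  have hσ1 : 1 ≤ Real.exp (P ^ c1 * Z) := Real.one_le_exp (by positivity)
  have hX7 : 7 ≤ Real.exp (P * Z) := by
    have h1 : Real.exp 2 ≤ Real.exp (P * Z) := Real.exp_le_exp.2 (by nlinarith)
    have h2 : Real.exp 2 = Real.exp 1 * Real.exp 1 := by rw [← Real.exp_add]; norm_num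
    have h3 := Real.exp_one_gt_d9
    nlinarith
  have hPX : Real.exp P ≤ Real.exp (P * Z) := Real.exp_le_exp.2 (by nlinarith)
  have hEX : Real.exp Z ≤ Real.exp (P * Z) := Real.exp_le_exp.2 (by nlinarith)
  have h3X : Real.exp (Y + 3) ≤ Real.exp (P * Z) ^ 3 := by
    rw [← Real.exp_nat_mul, Real.exp_le_exp]
    push_cast
    nlinarith
  have heX : 1 ≤ Real.exp (-Y) * Real.exp (P * Z) := by
    rw [← Real.exp_add]
    exact Real.one_le_exp (by nlinarith)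
  have hYX : Y ≤ Real.exp (P * Z) := by linarith [Real.add_one_le_exp Z]
  have hδe : Real.exp (-(P ^ (c1 + (4 * s + 12) + 2) * Z)) *
      Real.exp (P ^ (c1 + (4 * s + 12) + 2) * Z) = 1 := by rw [← Real.exp_add]; simp
  have hcl := hc ι G T P Y Z B κ m L ns ω F Fam (Real.exp (P ^ c1 * Z))
    (P ^ (c1 + (4 * s + 12) + 2) * Z) hs hG hT hU hP hZ hY hYZ hcard hω hL hκ hκB hLb
    (by nlinarith) hns1 hns3 le_rfl
  have hδ0 := (Real.exp_pos (-(P ^ (c1 + (4 * s + 12) + 2) * Z))).le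
  generalize P ^ (c1 + (4 * s + 12) + 2) * Z = Z' at hbig hδe hcl hcn hδ0 ⊢
  generalize Real.exp (P ^ c1 * Z) = σ0 at hbig hσ1 hcl
  generalize Real.exp (P * Z) = X at hbig hX7 hPX hEX h3X heX hYX
  have hX1 : 1 ≤ X := by linarith
  have hXj : ∀ j, j ≤ 4 * s + 12 → σ0 * X ^ j ≤ Real.exp Z' := fun j hj =>
    (mul_le_mul_of_nonneg_left (pow_le_pow_right₀ hX1 hj) (by linarith)).trans hbig
  have hXj' : ∀ j, j ≤ 4 * s + 12 → X ^ j ≤ Real.exp Z' := fun j hj =>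
    (le_mul_of_one_le_left (by positivity) hσ1).trans (hXj j hj)
  have hδX : ∀ j, j ≤ 4 * s + 12 → Real.exp (-Z') * X ^ j ≤ 1 := fun j hj =>
    (mul_le_mul_of_nonneg_left (hXj' j hj) hδ0).trans hδe.le
  have hδ4 : Real.exp (-Z') ≤ 1 / 4 := by
    have := hδX 1 (by omega)
    nlinarith
  have hPX' : P ≤ X := by linarith [Real.add_one_le_exp P]
  have hK : (Fintype.card (JI G.w (Option (Fin m))) : ℝ) ≤ P := by
    refine le_trans ?_ hcard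
    have := card_JI (V := Option (Fin m)) (w := G.w) hG.ws (M := m + 1) (by simp)
    have h2 : ((Fintype.card ι * (m + 1 + 1) ^ s : ℕ) : ℝ) = Fintype.card ι * ((m : ℝ) + 2) ^ s := by
      push_cast; ring
    rw [← h2]
    exact_mod_cast this
  have hD : (Fintype.card ι : ℝ) ≤ P :=
    (le_mul_of_one_le_right (Nat.cast_nonneg _) (one_le_pow₀ (by
      linarith [Nat.cast_nonneg (α := ℝ) m]))).trans hcard
  have hBk : 1 ≤ B / κ := (one_le_div hκ).2 hκB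
  have he20 : 21 ≤ Real.exp (4 * Y + 20) := by linarith [Real.add_one_le_exp (4 * Y + 20)]
  have hL3 : 21 * (B / κ) ≤ L := by
    refine le_trans ?_ hLb
    exact mul_le_mul he20 (by nlinarith) (by linarith) (by linarith)
  have hL4 : 3 ≤ L := by
    have : (3 : ℝ) ≤ L := by linarith
    exact_mod_cast this
  have hBX : B ≤ κ * X := by
    have : B / κ ≤ X := by linarith
    rwa [div_le_iff₀ hκ, mul_comm] at this
  have hQX : ((L ^ s : ℕ) : ℝ) ≤ X ^ s := by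
    push_cast
    exact pow_le_pow_left₀ (Nat.cast_nonneg _) (hL.trans hEX) s
  have hQ1 : (1 : ℝ) ≤ ((L ^ s : ℕ) : ℝ) := by exact_mod_cast Nat.one_le_pow _ _ (by omega)
  have hN : ∀ n : ℕ, n ≤ ns * L ^ s → (n : ℝ) ≤ Real.exp Z' := fun n hn => by
    have h1 : (n : ℝ) ≤ ns * ((L ^ s : ℕ) : ℝ) := by exact_mod_cast hn
    refine h1.trans (le_trans ?_ (hXj' (3 + s) (by omega)))
    rw [pow_add]
    exact mul_le_mul (hns3.trans h3X) hQX (by linarith) (by positivity)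
  have hZ1 : 1 ≤ Real.exp Z' := by simpa using hXj' 0 (by omega)
  have hσZ : 2 * σ0 ≤ Real.exp Z' := by
    have := hXj 1 (by omega)
    nlinarith
  have hωe : ∀ ν, 0 < ω ν ∧ ω ν ≤ Real.exp Z' := fun ν => ⟨(Real.exp_pos _).trans_le (hω ν).1,
    (hω ν).2.trans (hEX.trans (by simpa using hXj' 1 (by omega)))⟩
  have gh : ∀ (n : ℕ) (σ : ℝ), 1 ≤ n → (n : ℝ) ≤ Real.exp Z' → 0 < σ → σ ≤ Real.exp Z' →
      GC T.sg (uv G T) (G.mn T.sg univ) (Real.exp (-Z')) n σ := fun n σ a b c d =>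
    cnt_gc hU (hcn.1 n σ a b c d)
  have gj : ∀ (n : ℕ) (σ : ℝ), 1 ≤ n → (n : ℝ) ≤ Real.exp Z' → 0 < σ → σ ≤ Real.exp Z' →
      GC (fun x : JI G.w (Option (Fin m)) => T.sg x.1.1) (uv (jet G _ ω) (jat G T (e0 m) ω univ))
        (bm G T ω) (Real.exp (-Z')) n σ := fun n σ a b c d => by
    have := hcn.2 (Option (Fin m)) (e0 m) ω (fun _ => True) n σ (by simp; omega)
      (fun _ _ _ _ => trivial) hωe a b c d
    rw [UD_true] at this
    exact cnt_gc rfl this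
  have hM := (gh 1 1 le_rfl (by simpa using hZ1) one_pos hZ1).pos hδ0
  have gj1 := gj 1 1 le_rfl (by simpa using hZ1) one_pos hZ1
  obtain ⟨Fam', hsub, hm2, hrem⟩ := hcl hσZ hM (gj1.pos hδ0) hcn hF hmass
  have hσ2 : X ^ 12 ≤ σ0 * X ^ (3 * s + 12) :=
    (pow_le_pow_right₀ hX1 (by omega)).trans (le_mul_of_one_le_left (by positivity) hσ1)
  have hσ3 : 1 ≤ σ0 * X ^ (3 * s + 12) := (one_le_pow₀ hX1).trans hσ2
  have hσ4 := hXj (3 * s + 12) (by omega)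
  have hK0 : (0 : ℝ) ≤ Fintype.card (JI G.w (Option (Fin m))) := Nat.cast_nonneg _
  have hK2 : (2 : ℝ) ^ Fintype.card (JI G.w (Option (Fin m))) ≤ X :=
    (two_pow_le _).trans ((Real.exp_le_exp.2 hK).trans hPX)
  have hρ : (Fintype.card (JI G.w (Option (Fin m))) : ℝ) + Y + 5 + 1 ≤ X ^ 2 := by
    generalize (Fintype.card (JI G.w (Option (Fin m))) : ℝ) = K at hK
    clear * - hK hPX' hYX hX7
    nlinarith
  have hB0 : 0 < B := hκ.trans_le hκB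
  have hfin := mid hJ hG hT hU (by linarith) (E := Real.exp Z) (ε := Real.exp (-Y) / 2) (σ0 := σ0)
    (σ2 := σ0 * X ^ (3 * s + 12)) (ρ := Fintype.card (JI G.w (Option (Fin m))) + Y + 5)
    (θ1 := Real.exp (-Y) / 2 / 16) (θ2 := κ / (128 * B * ((L ^ s : ℕ) : ℝ) ^ 2)) (Fam := Fam')
    hs (Real.one_le_exp (by linarith)) (fun ν => by rw [← Real.exp_neg]; exact (hω ν).1) hL4 hL hκ
    hr hm hBr hF hδ0 hδ4 (by positivity) (by linarith) hσ3 (by positivity) (by positivity)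
    (by positivity) hns1 hns2 hM
    (fun n h1 h2 => gh n σ0 h1 (hN n h2) (by linarith) (by linarith)) gj1
    (gj 1 _ le_rfl (by simpa using hZ1) (by linarith) (by linarith))
    (fun n h1 h2 => gj n _ h1 (hN n h2) (by linarith) hσ4)
    (n1 hX7 (hδX 10 (by omega)) hσ2 (by positivity) hK2 heX) (n2 _ hY)
    (n3 hX7 (hδX _ le_rfl) hδ0 hκ hκB hBX hQ1 hQX (Nat.cast_nonneg _) (hD.trans hPX') hK0
      (hK.trans hPX') (by linarith) hPX' (Real.exp_pos _).le hEX (by positivity) hρ (by linarith))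
    hm2 (fun β hβ => hmean β (hsub hβ)) hrem
  obtain ⟨n, y, c', h1, h2, h3⟩ := hfin
  refine ⟨n, σ0, y, c', h1, le_trans ?_ hns3, hσ1, by linarith, h3⟩
  exact_mod_cast h2

end

end Vale.Agent.P057T.Cfg
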