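import Vale.Agent.P057T.Cfg.Cut0

/-!
Row MULT: multiplicativity of the expected masses.
-/

open MvPolynomial Finset
open scoped Real

namespace Vale.Agent.P057T.Cfg

open Vale.Agent.P057T.Eq

noncomputable section

set_option linter.unusedSectionVars false
set_option linter.unusedVariables false

namespace MultP

variable {ι V V' : Type} [Fintype ι] [DecidableEq ι] [Fintype V] [DecidableEq V]
  [Fintype V'] [DecidableEq V']

theorem mn_image {α β : Type} [Fintype α] [DecidableEq α] [Fintype β] [DecidableEq β]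
    (G : GT α) (G' : GT β) (σ : α → ℝ) (σ' : β → ℝ) (φ : α → β) (hφ : Function.Injective φ)
    (hB : ∀ x y, G'.B (φ x) (φ y) = G.B x y) (hσ : ∀ x, σ' (φ x) = σ x) (U : Finset α) :
    G'.mn σ' (U.image φ) = G.mn σ U := by
  unfold GT.mn GT.dv
  rw [Finset.prod_image fun x _ y _ h => hφ h]
  simp only [hσ]
  let e : U ≃ (U.image φ) := Equiv.ofBijective
    (fun x => ⟨φ x.1, Finset.mem_image_of_mem φ x.2⟩) ⟨fun x y h =>
      Subtype.ext (hφ (congrArg Subtype.val h)), fun y => by
        obtain ⟨x, hx, h⟩ := Finset.mem_image.1 y.2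
        exact ⟨⟨x, hx⟩, Subtype.ext h⟩⟩
  rw [← Matrix.det_submatrix_equiv_self e]
  have : (G'.B.submatrix (Subtype.val : U.image φ → β) (Subtype.val : U.image φ → β)).submatrix
      e e = G.B.submatrix (Subtype.val : U → α) (Subtype.val : U → α) := by
    ext x y
    exact hB x.1 y.1
  rw [this]

theorem bk_mo (G : GT ι) (ω : (V →₀ ℕ) → ℝ) {U : Finset (JI G.w V)} (h : Mo U) :
    (jet G V ω).Bk U := by
  intro x y hxy
  have e : x.1.2 = y.1.2 := by
    by_contra hne
    rcases hxy with h1 | h1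
    · exact h1 (if_neg hne)
    · exact h1 (if_neg hne)
  exact ⟨h x y e, h y x e.symm⟩

end MultP

open MultP in
theorem mult (hJ : JOK) (hD : DET) : MULT := by
  intro s ι V V' _ _ _ _ _ _ G T σ n hG hsg hσ hn
  have hn0 : (0 : ℝ) < n := by exact_mod_cast hn
  obtain ⟨j1, -⟩ := hJ s ι V G (fun _ => 1) hG fun _ => one_pos
  obtain ⟨d1, d2, d3, -⟩ := hD s _ _ j1
  refine ⟨fun U hU => ?_, ?_, fun U U' hU hU' hd => ?_, fun f U hf => ?_, fun v => ?_⟩
  · unfold mu GT.mn
    exact mul_pos (mul_pos (d1 U (bk_mo G _ hU)) (Finset.prod_pos fun x _ => inv_pos.2 (hsg _)))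
      (inv_pos.2 (pow_pos (mul_pos hσ hn0) _))
  · unfold mu GT.mn
    rw [d2]
    simp
  · have hu : Mo (U ∪ U') := fun x y h hx => by
      rw [Finset.mem_union] at hx ⊢
      exact hx.imp (hU x y h) (hU' x y h)
    have h1 := d3 (U ∪ U') U (bk_mo G _ hu) (bk_mo G _ hU) Finset.subset_union_left
    rw [Finset.union_sdiff_cancel_left hd] at h1
    unfold mu GT.mn
    rw [h1, Finset.prod_union hd, Finset.card_union_of_disjoint hd, pow_add, mul_inv]
    ring
  · have hi : Function.Injective (jm G.w f) := by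
      intro x y h
      have h1 : (x.1.1, x.1.2.mapDomain f) = (y.1.1, y.1.2.mapDomain f) := congrArg Subtype.val h
      rw [Prod.mk.injEq] at h1
      exact Subtype.ext (Prod.ext h1.1 (Finsupp.mapDomain_injective hf h1.2))
    unfold mu
    rw [Finset.card_image_of_injective _ hi,
      mn_image (jet G V fun _ => 1) (jet G V' fun _ => 1) (fun x => T.sg x.1.1)
        (fun x => T.sg x.1.1) (jm G.w f) hi (fun x y => ?_) (fun x => rfl)]
    show (if x.1.2.mapDomain f = y.1.2.mapDomain f then (1 : ℝ)⁻¹ * G.B x.1.1 y.1.1 else 0) =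
      if x.1.2 = y.1.2 then (1 : ℝ)⁻¹ * G.B x.1.1 y.1.1 else 0
    by_cases h : x.1.2 = y.1.2
    · rw [if_pos h, if_pos (by rw [h])]
    · rw [if_neg h, if_neg fun h1 => h (Finsupp.mapDomain_injective hf h1)]
  · have hi : Function.Injective (pu G.w v) := by
      intro a b h
      exact congrArg (fun x : JI G.w V => x.1.1) h
    unfold mu
    rw [Finset.card_image_of_injective _ hi, Finset.card_univ,
      mn_image G (jet G V fun _ => 1) T.sg (fun x => T.sg x.1.1) (pu G.w v) hi (fun a b => ?_)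
        (fun x => rfl)]
    show (if Finsupp.single v (G.w a) = Finsupp.single v (G.w b) then (1 : ℝ)⁻¹ * G.B a b else 0) =
      G.B a b
    by_cases h : G.B a b = 0
    · rw [h, mul_zero, ite_self]
    · rw [if_pos (by rw [(hG.blk a b (Or.inr h)).2]), inv_one, one_mul]

end

end Vale.Agent.P057T.Cfg
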