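import Vale.Agent.P057T.Cfg.Cut0
import Vale.Agent.P057T.L1

/-! Barycentric coordinates for two parameters of a box. -/

set_option linter.all false

open MvPolynomial Finset

namespace Vale.Agent.P057T.Cfg

open Vale.Agent.P057T.Eq Vale.Agent.P057T.L1

namespace Subs

variable {V V' : Type} [Fintype V] [DecidableEq V] [Fintype V'] [DecidableEq V']
  {R : Type} [CommRing R]

theorem le_add (e e' : V → ℤ) : le R (e + e') = le R e + le R e' := by
  simp [le, add_mul, sum_add_distrib]

theorem le_sub (e e' : V → ℤ) : le R (e - e') = le R e - le R e' := by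
  simp [le, sub_mul, sum_sub_distrib]

theorem le_smul (c : ℤ) (e : V → ℤ) : le R (c • e) = C (c : R) * le R e := by
  simp [le, mul_sum, mul_assoc]

theorem le_zero : le R (0 : V → ℤ) = 0 := by simp [le]

theorem le_single (v : V) : le R (Pi.single v 1) = X v := by
  unfold le
  rw [sum_eq_single v]
  · simp
  · intro b _ hb; simp [Pi.single_eq_of_ne hb]
  · simp

theorem sb_X (S : V → V' → ℤ) (v : V) : sb R S (X v) = le R (S v) := by simp [sb]

theorem sb_C (S : V → V' → ℤ) (c : R) : sb R S (C c) = C c := algHom_C _ _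

theorem scale (φ : MvPolynomial V R →ₐ[R] MvPolynomial V R) (D : R)
    (h : ∀ v, φ (X v) = C D * X v) {Q : MvPolynomial V R} {n : ℕ} (hQ : Q.IsHomogeneous n) :
    φ Q = C (D ^ n) * Q := by
  conv_lhs => rw [Q.as_sum, map_sum]
  conv_rhs => rw [Q.as_sum, mul_sum]
  refine sum_congr rfl fun m hm => ?_
  have hd : ∑ i ∈ m.support, m i = n := by
    have := hQ (mem_support_iff.1 hm)
    rw [← this, Finsupp.weight_apply, Finsupp.sum]; simp
  rw [monomial_eq, map_mul, algHom_C, Finsupp.prod, map_prod]
  simp only [map_pow, h, mul_pow, prod_mul_distrib, prod_pow_eq_pow_sum, hd]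
  rw [MvPolynomial.algebraMap_eq]
  ring

theorem coeff_pure {Q : MvPolynomial V R} {n : ℕ} (hQ : Q.IsHomogeneous n) (v : V) :
    coeff (Finsupp.single v n) Q = eval (Pi.single v (1 : R)) Q := by
  rw [eval_eq, sum_eq_single (Finsupp.single v n)]
  · rw [prod_eq_one, mul_one]
    intro i hi
    have := Finsupp.support_single_subset hi
    rw [mem_singleton] at this
    subst this; simp
  · intro m hm hne
    by_cases h : ∀ i ∈ m.support, i = v
    · exfalso
      apply hne
      have hs : m.support ⊆ {v} := fun i hi => mem_singleton.2 (h i hi)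
      have hd : ∑ i ∈ m.support, m i = n := by
        have := hQ (mem_support_iff.1 hm)
        rw [← this, Finsupp.weight_apply, Finsupp.sum]; simp
      rw [sum_subset hs (fun x _ hx => Finsupp.notMem_support_iff.1 hx), sum_singleton] at hd
      rw [← hd]
      exact Finsupp.support_subset_singleton.1 hs
    · push Not at h
      obtain ⟨i, hi, hiv⟩ := h
      rw [prod_eq_zero hi, mul_zero]
      rw [Pi.single_eq_of_ne hiv, zero_pow (Finsupp.mem_support_iff.1 hi)]
  · intro h; rw [notMem_support_iff.1 h, zero_mul]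

theorem eval_sb (S : V → V' → ℤ) (u : V') (Q : MvPolynomial V R) :
    eval (Pi.single u (1 : R)) (sb R S Q) = eval (fun v => (S v u : R)) Q := by
  induction Q using MvPolynomial.induction_on with
  | C a => rw [sb_C]; simp
  | add p q hp hq => simp only [map_add, hp, hq]
  | mul_X p v hp =>
    rw [map_mul, map_mul, map_mul, hp, sb_X, eval_X]
    congr 1
    unfold le
    rw [map_sum, sum_eq_single u]
    · simp
    · intro b _ hb; simp [Pi.single_eq_of_ne hb]
    · simp

variable {m : ℕ} (t t' : Fin m → ℤ) (l : Fin m)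

def dl (v : Option (Fin m)) : Option (Fin m) → ℤ := Pi.single v 1

def S : Option (Fin m) → Option (Fin m) → ℤ
  | none => dl none + dl (some l)
  | some i => t i • dl none + t' i • dl (some l) + (if i = l then 0 else dl (some i))

def S0 : Option (Fin m) → Option (Fin m) → ℤ
  | none => t' l • dl none - dl (some l)
  | some i => if i = l then dl (some l) - t l • dl none else
      (t' l - t l) • dl (some i) - ((t' l - t l) * t i) • dl none -
        (t' i - t i) • (dl (some l) - t l • dl none)

def S' (v : Option (Fin m)) : Option (Fin m) → ℤ := (t' l - t l).sign • S0 t t' l v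

theorem le_dl (v : Option (Fin m)) : le R (dl v) = X v := le_single v

theorem le_S_none : le R (S t t' l none) = X none + X (some l) := by
  simp only [S, le_add, le_dl]

theorem le_S_l : le R (S t t' l (some l)) = C (t l : R) * X none + C (t' l : R) * X (some l) := by
  simp only [S, if_true, le_add, le_smul, le_dl, le_zero, add_zero]

theorem le_S_i {i : Fin m} (h : i ≠ l) : le R (S t t' l (some i)) =
    C (t i : R) * X none + C (t' i : R) * X (some l) + X (some i) := by
  simp only [S, if_neg h, le_add, le_smul, le_dl]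

theorem le_S0_none : le R (S0 t t' l none) = C (t' l : R) * X none - X (some l) := by
  simp only [S0, le_sub, le_smul, le_dl]

theorem le_S0_l : le R (S0 t t' l (some l)) = X (some l) - C (t l : R) * X none := by
  simp only [S0, if_true, le_sub, le_smul, le_dl]

theorem le_S0_i {i : Fin m} (h : i ≠ l) : le R (S0 t t' l (some i)) =
    C ((t' l - t l : ℤ) : R) * X (some i) - C (((t' l - t l) * t i : ℤ) : R) * X none -
      C ((t' i - t i : ℤ) : R) * (X (some l) - C (t l : R) * X none) := by
  simp only [S0, if_neg h, le_sub, le_smul, le_dl]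

theorem le_S' (v : Option (Fin m)) :
    le R (S' t t' l v) = C (((t' l - t l).sign : ℤ) : R) * le R (S0 t t' l v) := le_smul _ _

theorem sg_mul : (C (((t' l - t l).natAbs : ℕ) : R) : MvPolynomial (Option (Fin m)) R) =
    C (((t' l - t l).sign : ℤ) : R) * (C (t' l : R) - C (t l : R)) := by
  rw [← map_sub, ← map_mul, ← Int.cast_sub, ← Int.cast_mul, Int.sign_mul_self_eq_natAbs]
  simp

theorem comp1 (v : Option (Fin m)) : sb R (S t t' l) (sb R (S' t t' l) (X v)) =
    C (((t' l - t l).natAbs : ℕ) : R) * X v := by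
  rw [sb_X, le_S', sg_mul, map_mul, sb_C, mul_assoc]
  congr 1
  rcases v with _ | i
  · rw [le_S0_none]
    simp only [map_sub, map_mul, sb_C, sb_X, le_S_none, le_S_l]; ring
  · by_cases h : i = l
    · subst h
      rw [le_S0_l]
      simp only [map_sub, map_mul, sb_C, sb_X, le_S_none, le_S_l]; ring
    · rw [le_S0_i t t' l h]
      simp only [map_sub, map_mul, sb_C, sb_X, le_S_none, le_S_l, le_S_i t t' l h, Int.cast_sub,
        Int.cast_mul]
      ring

theorem comp2 (v : Option (Fin m)) : sb R (S' t t' l) (sb R (S t t' l) (X v)) =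
    C (((t' l - t l).natAbs : ℕ) : R) * X v := by
  rw [sb_X, sg_mul]
  rcases v with _ | i
  · rw [le_S_none]
    simp only [map_add, sb_X, le_S', le_S0_none, le_S0_l]; ring
  · by_cases h : i = l
    · subst h
      rw [le_S_l]
      simp only [map_add, map_mul, sb_C, sb_X, le_S', le_S0_none, le_S0_l]; ring
    · rw [le_S_i t t' l h]
      simp only [map_add, map_mul, sb_C, sb_X, le_S', le_S0_none, le_S0_l, le_S0_i t t' l h,
        Int.cast_sub, Int.cast_mul, map_sub]
      ring

variable {ι : Type} [Fintype ι] [DecidableEq ι] {w : ι → ℕ}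

theorem ph1 (y : JI w (Option (Fin m)) → R) (x : JI w (Option (Fin m))) :
    Ph (S t t' l) (Ph (S' t t' l) y) x = (((t' l - t l).natAbs : ℕ) : R) ^ w x.1.1 * y x := by
  have := scale ((sb R (S t t' l)).comp (sb R (S' t t' l))) _ (comp1 t t' l) (pl_hom y x.1.1)
  rw [AlgHom.comp_apply] at this
  unfold Ph
  rw [show pl (fun y_1 : JI w (Option (Fin m)) => coeff y_1.1.2 (sb R (S' t t' l) (pl y y_1.1.1)))
    x.1.1 = sb R (S' t t' l) (pl y x.1.1) from pl_Ph _ y _, this, coeff_C_mul, coeff_pl]

theorem ph2 (y : JI w (Option (Fin m)) → R) (x : JI w (Option (Fin m))) :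
    coeff x.1.2 (sb R (S' t t' l) (pl (Ph (S t t' l) y) x.1.1)) =
      (((t' l - t l).natAbs : ℕ) : R) ^ w x.1.1 * y x := by
  have := scale ((sb R (S' t t' l)).comp (sb R (S t t' l))) _ (comp2 t t' l) (pl_hom y x.1.1)
  rw [AlgHom.comp_apply] at this
  rw [pl_Ph, this, coeff_C_mul, coeff_pl]

theorem nrm_pl (y : JI w V → ℝ) (a : ι) : nrm (pl y a) ≤ ∑ x, |y x| := by
  unfold pl
  refine (nrm_sum_le _ _).trans (sum_le_sum fun x _ => ?_)
  split_ifs
  · rw [nrm_monomial]
  · rw [nrm_zero]; exact abs_nonneg _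

theorem nrm_CX (c : ℝ) (v : V) : nrm (C c * X v : MvPolynomial V ℝ) = |c| := by
  rw [nrm_C_mul, nrm_X, mul_one]

theorem nrm_S' {E : ℝ} (hE : 1 ≤ E) (ht : ∀ i, |(t i : ℝ)| ≤ E ∧ |(t' i : ℝ)| ≤ E)
    (v : Option (Fin m)) : nrm (le ℝ (S' t t' l v)) ≤ 8 * E ^ 2 := by
  have h0 : nrm (le ℝ (S0 t t' l v)) ≤ 8 * E ^ 2 := by
    have hl : nrm (X (some l) - C (t l : ℝ) * X none : MvPolynomial (Option (Fin m)) ℝ) ≤
        1 + E := by
      refine (nrm_sub_le _ _).trans ?_
      rw [nrm_X, nrm_CX]; linarith [(ht l).1]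
    have hd : ∀ i, |((t' i - t i : ℤ) : ℝ)| ≤ 2 * E := fun i => by
      rw [Int.cast_sub]
      linarith [abs_sub (t' i : ℝ) (t i), (ht i).1, (ht i).2]
    rcases v with _ | i
    · rw [le_S0_none]
      refine (nrm_sub_le _ _).trans ?_
      rw [nrm_X, nrm_CX]; nlinarith [(ht l).2]
    · by_cases h : i = l
      · subst h
        rw [le_S0_l]; nlinarith
      · rw [le_S0_i t t' l h]
        refine (nrm_sub_le _ _).trans ((add_le_add (nrm_sub_le _ _) le_rfl).trans ?_)
        rw [nrm_CX, nrm_CX, nrm_C_mul, Int.cast_mul, abs_mul]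
        have h1 := mul_le_mul (hd l) (ht i).1 (abs_nonneg _) (by linarith)
        have h2 := mul_le_mul (hd i) hl (nrm_nonneg _) (by linarith)
        have h3 := hd l
        nlinarith
  rw [le_S', nrm_C_mul]
  have h1 : |(((t' l - t l).sign : ℤ) : ℝ)| ≤ 1 := by
    rcases Int.sign_trichotomy (t' l - t l) with h | h | h <;> rw [h] <;> simp
  have := nrm_nonneg (le ℝ (S0 t t' l v))
  nlinarith [abs_nonneg (((t' l - t l).sign : ℤ) : ℝ)]

theorem S_none (v : Option (Fin m)) : S t t' l v none = pt t v := by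
  rcases v with _ | i
  · simp [S, dl, pt]
  · by_cases h : i = l <;> simp [S, dl, pt, h]

theorem S_l (v : Option (Fin m)) : S t t' l v (some l) = pt t' v := by
  rcases v with _ | i
  · simp [S, dl, pt]
  · by_cases h : i = l
    · simp [S, dl, pt, h]
    · have h' : l ≠ i := fun e => h e.symm
      simp [S, dl, pt, h, h']

theorem ph_pu (β : JI w (Option (Fin m)) → ℤ) (a : ι) (u : Option (Fin m)) :
    Ph (S t t' l) β (pu w u a) = ev (fun v => S t t' l v u) β a := by
  have := coeff_pure (sb_hom (R := ℤ) (S t t' l) (pl_hom β a)) u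
  rw [eval_sb] at this
  exact this

end Subs

open Subs in
theorem subs : SUBS := by
  intro s m ι _ _ w t t' l E hw hne hE ht
  have hD : (t' l - t l).natAbs ≠ 0 := Int.natAbs_ne_zero.2 (sub_ne_zero.2 hne)
  refine ⟨S t t' l, ?_, fun β a => ⟨?_, ?_⟩, ?_, fun u x => ?_⟩
  · have e1' : e0 m = dl none := by
      funext v; rcases v with _ | i <;> simp [e0, dl]
    have e2 : e1 l = S t t' l none := by
      funext v
      rcases v with _ | i
      · simp [e1, S, dl]
      · by_cases h : i = l <;> simp [e1, S, dl, h]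
    rw [e1', le_dl, sb_X, e2]
  · rw [ph_pu, funext (S_none t t' l)]
  · rw [ph_pu, funext (S_l t t' l)]
  · let Ψ : (JI w (Option (Fin m)) → ℤ) →+ (JI w (Option (Fin m)) → ℤ) :=
      AddMonoidHom.mk' (fun z => Ph (S' t t' l)
        fun x => (((t' l - t l).natAbs : ℕ) : ℤ) ^ (s - w x.1.1) * z x) fun z z' => by
          rw [← Ph_add]; congr 1; funext x; simp [mul_add]
    have h1 : ∀ z, Ph (S t t' l) (Ψ z) = (((t' l - t l).natAbs ^ s : ℕ) : ℤ) • z := by
      intro z
      funext x
      simp only [Ψ, AddMonoidHom.mk'_apply]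
      rw [ph1, ← mul_assoc, ← pow_add, Nat.add_sub_cancel' (hw _)]
      simp
    refine ⟨Ψ, fun z z' h => ?_, h1⟩
    have h2 := h1 z
    rw [h, h1 z'] at h2
    exact (smul_right_injective _ (by exact_mod_cast pow_ne_zero s hD) h2).symm
  · have h1 := ph2 t t' l u x
    have hM : (1 : ℝ) ≤ 8 * E ^ 2 := by nlinarith
    have h2 := nrm_aeval_le hM (nrm_S' t t' l hE ht)
      (((pl_hom (Ph (S t t' l) u) x.1.1).totalDegree_le).trans (hw _))
    have h3 := abs_coeff_le (sb ℝ (S' t t' l) (pl (Ph (S t t' l) u) x.1.1)) x.1.2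
    rw [h1, abs_mul] at h3
    have h4 : (1 : ℝ) ≤ |(((t' l - t l).natAbs : ℕ) : ℝ) ^ w x.1.1| := by
      rw [abs_of_nonneg (by positivity)]
      exact one_le_pow₀ (by exact_mod_cast Nat.one_le_iff_ne_zero.2 hD)
    have h5 := nrm_pl (Ph (S t t' l) u) x.1.1
    have h6 : nrm (sb ℝ (S' t t' l) (pl (Ph (S t t' l) u) x.1.1)) ≤
        (∑ y, |Ph (S t t' l) u y|) * (8 * E ^ 2) ^ s :=
      h2.trans (mul_le_mul_of_nonneg_right h5 (by positivity))
    rw [mul_comm]
    nlinarith [abs_nonneg (u x)]

end Vale.Agent.P057T.Cfg
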