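import Vale.Agent.P057T.Cfg.Defs
import Vale.Agent.P057T.Eq.Bdw
import Vale.Agent.P057T.Eq.Mono

/-! The jet tower of a regular tower is regular. -/

set_option linter.all false

open MvPolynomial Finset

namespace Vale.Agent.P057T.Cfg.H88

open Vale.Agent.P057T.Eq

noncomputable section

variable {ι V : Type} [Fintype ι] [DecidableEq ι] [Fintype V] [DecidableEq V]

theorem mem_js {w : ι → ℕ} {x : ι × (V →₀ ℕ)} : x ∈ JS w V ↔ x.2.sum (fun _ m => m) = w x.1 := by
  obtain ⟨a, ν⟩ := x
  simp only [JS, mem_biUnion, mem_univ, true_and, mem_image, mem_finsuppAntidiag', subset_univ,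
    and_true, Prod.mk.injEq]
  constructor
  · rintro ⟨b, μ, h, rfl, rfl⟩; exact h
  · intro h; exact ⟨a, ν, h, rfl, rfl⟩

theorem cpl {R : Type} [CommRing R] {w : ι → ℕ} (z : JI w V → R) (x : JI w V) :
    coeff x.1.2 (pl z x.1.1) = z x := by
  rw [pl, coeff_sum, sum_eq_single x]
  · simp
  · intro y _ hy
    split_ifs with h
    · rw [coeff_monomial, if_neg]
      intro h'
      exact hy (Subtype.ext (Prod.ext h h'))
    · simp
  · simp

theorem cpl0 {R : Type} [CommRing R] {w : ι → ℕ} (z : JI w V → R) (a : ι) (ν : V →₀ ℕ)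
    (h : ν.sum (fun _ m => m) ≠ w a) : coeff ν (pl z a) = 0 := by
  rw [pl, coeff_sum]
  refine sum_eq_zero fun y _ => ?_
  split_ifs with h1
  · rw [coeff_monomial, if_neg]
    intro h'
    exact h (by rw [← h', ← h1]; exact mem_js.1 y.2)
  · simp

theorem map_pl {R S : Type} [CommRing R] [CommRing S] (f : R →+* S) {w : ι → ℕ} (z : JI w V → R)
    (a : ι) : map f (pl z a) = pl (fun x => f (z x)) a := by
  simp only [pl, map_sum]
  refine sum_congr rfl fun x _ => ?_
  split_ifs <;> simp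

/-- the linear form -/
def lam (c : V → ℝ) : MvPolynomial V ℝ := ∑ v, c v • X v

theorem co_lam (c : V → ℝ) (ν : V →₀ ℕ) (n : ℕ) : coeff ν (lam c ^ n) =
    if ν.sum (fun _ m => m) = n then ν.multinomial * ν.prod (fun r m => c r ^ m) else 0 :=
  coeff_linearCombination_X_pow_of_fintype c ν n

/-- the pull back -/
def pb (w : ι → ℕ) (c : V → ℝ) : MvPolynomial (JI w V) ℝ →ₐ[ℝ] MvPolynomial ι ℝ :=
  aeval fun x => C (coeff x.1.2 (lam c ^ w x.1.1)) * X x.1.1

theorem scale {S : Type} [CommRing S] [Algebra ℝ S] {w : ι → ℕ} (L : S) (f : ι → S) {n : ℕ}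
    {F : MvPolynomial ι ℝ} (hF : F.IsWeightedHomogeneous w n) :
    aeval (fun b => L ^ w b * f b) F = L ^ n * aeval f F := by
  rw [F.as_sum, map_sum, map_sum, mul_sum]
  refine sum_congr rfl fun m hm => ?_
  rw [aeval_monomial, aeval_monomial, ← hF (mem_support_iff.1 hm), Finsupp.weight_apply]
  simp only [Finsupp.prod, Finsupp.sum, mul_pow, prod_mul_distrib, ← pow_mul, smul_eq_mul,
    prod_pow_eq_pow_sum]
  simp only [mul_comm (w _)]
  ring

theorem map_aeval' {R S : Type} [CommRing R] [CommRing S] [Algebra ℝ R] [Algebra ℝ S]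
    (f : R →ₐ[ℝ] S) (z : ι → MvPolynomial V R) (F : MvPolynomial ι ℝ) :
    map (f : R →+* S) (aeval z F) = aeval (fun b => map (f : R →+* S) (z b)) F := by
  induction F using MvPolynomial.induction_on with
  | C a => simp [MvPolynomial.algebraMap_apply]
  | add p q hp hq => simp only [map_add, hp, hq]
  | mul_X p i hp => simp only [map_mul, hp, aeval_X]

theorem aeval_CX (F : MvPolynomial ι ℝ) :
    aeval (fun b : ι => (C (X b) : MvPolynomial V (MvPolynomial ι ℝ))) F = C F := by
  induction F using MvPolynomial.induction_on with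
  | C a => simp [MvPolynomial.algebraMap_apply]
  | add p q hp hq => simp only [map_add, hp, hq]
  | mul_X p i hp => simp only [map_mul, hp, aeval_X]

theorem pb_gen {w : ι → ℕ} {R : Type} [CommRing R] [Algebra ℝ R] (f : R →ₐ[ℝ] MvPolynomial ι ℝ)
    (z : JI w V → R) (c : V → ℝ)
    (hz : ∀ x, f (z x) = C (coeff x.1.2 (lam c ^ w x.1.1)) * X x.1.1) {n : ℕ}
    {F : MvPolynomial ι ℝ} (hF : F.IsWeightedHomogeneous w n) (ν : V →₀ ℕ) :
    f (coeff ν (aeval (pl z) F)) = C (coeff ν (lam c ^ n)) * F := by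
  obtain ⟨L, hL⟩ : ∃ L : MvPolynomial V (MvPolynomial ι ℝ),
    L = map (C : ℝ →+* MvPolynomial ι ℝ) (lam c) := ⟨_, rfl⟩
  have h1 : ∀ b, map (f : R →+* MvPolynomial ι ℝ) (pl z b) = L ^ w b * C (X b) := by
    intro b
    ext1 μ
    rw [mul_comm, coeff_C_mul, hL, ← map_pow, coeff_map (C : ℝ →+* MvPolynomial ι ℝ), map_pl]
    by_cases hμ : μ.sum (fun _ m => m) = w b
    · have := cpl (fun x : JI w V => (f : R →+* MvPolynomial ι ℝ) (z x)) ⟨(b, μ), mem_js.2 hμ⟩
      exact this.trans ((hz _).trans (mul_comm _ _))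
    · rw [cpl0 _ _ _ hμ, co_lam, if_neg hμ]; simp
  have h2 := map_aeval' f (pl z) F
  simp only [h1] at h2
  rw [scale L _ hF, aeval_CX] at h2
  have h3 := congrArg (coeff ν) h2
  rw [mul_comm, coeff_C_mul, hL, ← map_pow, coeff_map, coeff_map] at h3
  exact h3.trans (mul_comm _ _)

theorem pb_coeff (w : ι → ℕ) (c : V → ℝ) {n : ℕ} {F : MvPolynomial ι ℝ}
    (hF : F.IsWeightedHomogeneous w n) (ν : V →₀ ℕ) :
    pb w c (coeff ν (aeval (pl (X : JI w V → MvPolynomial (JI w V) ℝ)) F)) =
      C (coeff ν (lam c ^ n)) * F :=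
  pb_gen (pb w c) X c (fun x => aeval_X _ _) hF ν

theorem pick {w : ι → ℕ} {s : ℕ} (k : JI w V → ℤ) (x0 : JI w V) (hs : w x0.1.1 ≤ s) (h0 : k x0 ≠ 0) :
    ∃ c : V → ℕ, (∀ v, c v ≤ s) ∧
      ∑ x : JI w V, (if x.1.1 = x0.1.1 then
        (k x : ℝ) * coeff x.1.2 (lam (fun v => (c v : ℝ)) ^ w x.1.1) else 0) ≠ 0 := by
  set p : MvPolynomial V ℝ := pl (fun x : JI w V => (k x : ℝ) * x.1.2.multinomial) x0.1.1 with hp
  have hp0 : p ≠ 0 := by
    intro h
    have := cpl (fun x : JI w V => (k x : ℝ) * x.1.2.multinomial) x0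
    rw [← hp, h, coeff_zero] at this
    have a1 : (k x0 : ℝ) ≠ 0 := by exact_mod_cast h0
    have a2 : (x0.1.2.multinomial : ℝ) ≠ 0 := by
      have := Nat.multinomial_pos x0.1.2.support x0.1.2
      rw [← Finsupp.multinomial_eq] at this
      exact_mod_cast this.ne'
    exact mul_ne_zero a1 a2 this.symm
  by_contra hc
  push Not at hc
  refine hp0 (eq_zero_of_eval_zero_at_prod_finset p
    (fun _ => (range (s + 1)).image (Nat.cast : ℕ → ℝ)) (fun i => ?_) fun x hx => ?_)
  · rw [card_image_of_injective _ Nat.cast_injective, card_range, Nat.lt_succ_iff, degreeOf_le_iff]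
    intro m hm
    have h1 : m.sum (fun _ m => m) = w x0.1.1 := by
      by_contra h
      exact mem_support_iff.1 hm (cpl0 _ _ _ h)
    refine le_trans ?_ (h1.le.trans hs)
    by_cases hi : i ∈ m.support
    · exact single_le_sum (f := fun j => m j) (fun _ _ => Nat.zero_le _) hi
    · rw [Finsupp.notMem_support_iff.1 hi]; exact Nat.zero_le _
  · choose c hc1 hc2 using fun i => mem_image.1 (hx i)
    have := hc c fun v => Nat.lt_succ_iff.1 (mem_range.1 (hc1 v))
    rw [← this, hp, pl, map_sum]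
    refine sum_congr rfl fun y _ => ?_
    split_ifs with h
    · rw [eval_monomial, co_lam, if_pos (mem_js.1 y.2), mul_assoc]
      simp only [hc2]
    · simp

theorem lam_int (c : V → ℕ) : L1.IsInt (lam fun v => (c v : ℝ)) :=
  L1.isInt_sum fun v _ => (L1.isInt_X v).nsmul (c v)

theorem lam_le {s n : ℕ} (c : V → ℕ) (hc : ∀ v, c v ≤ s) (hn : n ≤ s) (ν : V →₀ ℕ) :
    |coeff ν (lam (fun v => (c v : ℝ)) ^ n)| ≤ Real.exp (s ^ 2 * Fintype.card V) := by
  have h1 : L1.nrm (lam fun v => (c v : ℝ)) ≤ Real.exp (s * Fintype.card V) := by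
    refine (L1.nrm_sum_le _ _).trans ?_
    calc _ ≤ ∑ _v : V, (s : ℝ) := sum_le_sum fun v _ => by
            rw [L1.nrm_smul, L1.nrm_X, mul_one, Nat.abs_cast]; exact_mod_cast hc v
      _ = s * Fintype.card V := by simp [mul_comm]
      _ ≤ _ := by linarith [Real.add_one_le_exp ((s : ℝ) * Fintype.card V)]
  refine (L1.abs_coeff_le _ _).trans ((L1.nrm_pow_le _ _).trans ?_)
  refine (pow_le_pow_left₀ (L1.nrm_nonneg _) h1 n).trans ?_
  rw [← Real.exp_nat_mul, Real.exp_le_exp]
  have : (n : ℝ) ≤ s := by exact_mod_cast hn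
  have h2 : (0 : ℝ) ≤ s * Fintype.card V := by positivity
  nlinarith

theorem lin_hm {G : GT ι} {e : ℕ} {k : ι → ℝ} (h : ∀ a, k a ≠ 0 → G.w a = e) : G.Hm e (lin k) :=
  Chart.lin_hom (A := fun (_ : Unit) a => k a) (i := ()) h

theorem big_jet (hJ : JOK) {s g : ℕ} {G : GT ι} {ω : (V →₀ ℕ) → ℝ} {Z H : ℝ} (hG : G.Ok s)
    (hZ : 0 ≤ Z) (hω : ∀ ν, 0 < ω ν ∧ ω ν ≤ Real.exp Z)
    (hB : G.Big g (H * Real.exp (s * Z + s ^ 3 * Fintype.card V))) : (jet G V ω).Big g H := by
  obtain ⟨hO, hth, -⟩ := hJ s ι V G ω hG fun ν => (hω ν).1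
  intro e k I hk hI hl hh hb x0 h0
  obtain ⟨c, hc, hne⟩ := pick k x0 (hG.ws _) h0
  set cr : V → ℝ := fun v => (c v : ℝ) with hcr
  have hes : e ≤ s := (hk x0 h0).2 ▸ hO.ws x0
  choose co hco using fun x : JI G.w V => (lam_int c).pow (G.w x.1.1) x.1.2
  set k' : ι → ℤ := fun a => ∑ x : JI G.w V, if x.1.1 = a then k x * co x else 0 with hk'
  have hk1 : ∀ a, (k' a : ℝ) = ∑ x : JI G.w V, (if x.1.1 = a then
      (k x : ℝ) * coeff x.1.2 (lam cr ^ G.w x.1.1) else 0) := by
    intro a
    simp only [hk', Int.cast_sum]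
    refine sum_congr rfl fun x _ => ?_
    split_ifs
    · rw [hco]; push_cast; rfl
    · simp
  have hk2 : ∀ a, k' a ≠ 0 → G.g a = g ∧ G.w a = e := by
    intro a ha
    obtain ⟨x, -, hx⟩ := exists_ne_zero_of_sum_ne_zero ha
    split_ifs at hx with h
    · exact h ▸ hk x (left_ne_zero_of_mul hx)
    · exact absurd rfl hx
  have hlin : pb G.w cr (lin (cz k)) = lin (cz k') := by
    simp only [lin, cz, hk1, map_sum, map_mul, sum_mul]
    rw [sum_comm]
    refine sum_congr rfl fun x _ => ?_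
    rw [sum_eq_single x.1.1]
    · simp [pb, mul_assoc]
    · intro a _ ha; simp [if_neg ha.symm]
    · simp
  have hx0 : k' x0.1.1 ≠ 0 := by
    intro h
    exact hne (by rw [← hk1, h, Int.cast_zero])
  have hex : x0.1.1 ∈ G.ex := by
    refine hB e k' (pb G.w cr I) hk2 ?_ ?_ ?_ ?_ _ hx0
    · refine L1.IsInt.aeval hI fun x => ?_
      rw [hco]; exact (L1.isInt_C _).mul (L1.isInt_X _)
    · exact Chart.vars_aeval fun x hx =>
        Chart.vars_mul' (Chart.vars_C' _) (Chart.vars_X' (hl x hx))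
    · exact Chart.hom_aeval hh fun x => (isWeightedHomogeneous_X _ _ _).C_mul _
    · have hH := hb.nonneg
      obtain ⟨b, hb1, hb2⟩ := hb
      have hbh : (jet G V ω).Hm e b := (hm_iff hO e b).2 (by
        rw [hb1]
        exact (lin_hm fun a ha => (hk a (by simpa [cz] using ha)).2).add hh)
      refine ⟨aeval (fun x : JI G.w V =>
        C (ω x.1.2 * coeff x.1.2 (lam cr ^ G.w x.1.1)) * X x.1.1) b, ?_, ?_⟩
      · rw [← hlin, ← map_add, ← hb1, Chart.aeval_aeval, ← AlgHom.comp_apply, comp_aeval]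
        congr 2
        funext x
        rw [hth, map_mul (pb G.w cr), pb_coeff _ _ (th_hm hG _)]
        simp [pb, mul_assoc]
      · have hM : 1 ≤ Real.exp (Z + s ^ 2 * Fintype.card V) := Real.one_le_exp (by positivity)
        refine (L1.nrm_aeval_le hM (fun x => ?_)
          ((Chart.totalDegree_le_of_hom hO.w1 hbh).trans hes)).trans ?_
        · rw [L1.nrm_C_mul, L1.nrm_X, mul_one, abs_mul, Real.exp_add, abs_of_pos (hω _).1]
          exact mul_le_mul (hω _).2 (lam_le c hc (hG.ws _) _) (abs_nonneg _) (Real.exp_pos _).le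
        · rw [← Real.exp_nat_mul]
          refine mul_le_mul hb2 (le_of_eq ?_) (Real.exp_pos _).le hH
          congr 1; ring
  simpa [jet] using hex

theorem small_jet {g : ℕ} {G : GT ι} {ω : (V →₀ ℕ) → ℝ} {K η : ℝ} (hη : 0 ≤ η) (hK : 0 ≤ K)
    (hω : ∀ ν, 0 < ω ν ∧ ω ν ≤ K) (hS : G.Small g η) : (jet G V ω).Small g (K * η) := by
  intro j hj hg
  have hj' : j.1.1 ∈ G.ex := by simpa [jet] using hj
  obtain ⟨v, h1, h2, h3⟩ := hS j.1.1 hj' hg
  refine ⟨fun x => if x.1.2 = j.1.2 then v x.1.1 else 0, fun i hi => ?_, fun i hi => ?_,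
    fun x => ?_⟩
  · have hi' : i.1.1 ∈ G.ex := by simpa [jet] using hi
    by_cases h : i = j
    · subst h; simp [h1 _ hi']
    · rw [if_neg h]
      beta_reduce
      split_ifs with h'
      · rw [h1 _ hi', if_neg]
        intro h''
        exact h (Subtype.ext (Prod.ext h'' h'))
      · rfl
  · beta_reduce at hi
    split_ifs at hi with h
    · exact h2 _ hi
    · exact absurd rfl hi
  · by_cases hx : x.1.2 = j.1.2
    · have e : ∑ y : JI G.w V, (jet G V ω).A x y * (if y.1.2 = j.1.2 then v y.1.1 else 0) =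
          ω x.1.2 * ∑ b, G.A x.1.1 b * v b := by
        rw [mul_sum]
        have e1 : ∀ b, ω x.1.2 * (G.A x.1.1 b * v b) = ∑ y : JI G.w V, if y.1.1 = b then
            (jet G V ω).A x y * (if y.1.2 = j.1.2 then v y.1.1 else 0) else 0 := by
          intro b
          by_cases hb : G.w b = G.w j.1.1
          · rw [sum_eq_single ⟨(b, j.1.2), mem_js.2 ((mem_js.1 j.2).trans hb.symm)⟩]
            · simp [jet, hx, mul_assoc]
            · intro y _ hy
              split_ifs with a1 a2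
              · exact (hy (Subtype.ext (Prod.ext a1 a2))).elim
              · simp
              · rfl
            · simp
          · have hv : v b = 0 := by
              by_contra hv
              exact hb (h2 b hv).2
            rw [hv, mul_zero, mul_zero]
            refine (sum_eq_zero fun y _ => ?_).symm
            split_ifs with a1 a2
            · rw [a1, hv, mul_zero]
            · simp
            · rfl
        simp only [e1]
        rw [sum_comm]
        simp
      rw [e, abs_mul, abs_of_pos (hω _).1]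
      exact mul_le_mul (hω _).2 (h3 _) (abs_nonneg _) hK
    · rw [sum_eq_zero, abs_zero]
      · positivity
      · intro y _
        beta_reduce
        split_ifs with a1
        · have : ¬ x.1.2 = y.1.2 := fun h => hx (h.trans a1)
          simp [jet, this]
        · simp

end

end Vale.Agent.P057T.Cfg.H88

namespace Vale.Agent.P057T.Cfg

open Vale.Agent.P057T.Eq

theorem cfg (hJ : JOK) : CFG := by
  intro s ι V _ _ _ _ G ω WW c Y Z hG hW hc hY hZ hω hR g hg
  obtain ⟨h1, h2⟩ := hR g hg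
  have a1 := hW.nn g
  have a2 := hW.nn (g + 1)
  have a3 : (0 : ℝ) ≤ s * Z := by positivity
  have a4 : (0 : ℝ) ≤ s ^ 3 * Fintype.card V := by positivity
  have c0 : 0 ≤ c - 1 := by linarith
  have a5 := mul_nonneg c0 a3
  have a6 := mul_nonneg c0 a4
  have a7 := mul_nonneg c0 hZ
  refine ⟨H88.big_jet hJ hG hZ hω (h1.mono ?_),
    (H88.small_jet (by positivity) (Real.exp_pos Z).le hω h2).mono ?_⟩
  · rw [← Real.exp_add, Real.exp_le_exp]
    nlinarith
  · rw [← mul_assoc, ← Real.exp_add]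
    refine mul_le_mul (Real.exp_le_exp.2 (by nlinarith)) (inv_anti₀ (by positivity) (by nlinarith))
      (by positivity) (Real.exp_pos _).le

end Vale.Agent.P057T.Cfg
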