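import Vale.Agent.P057T.Cfg.Defs
import Vale.Agent.P057T.Eq.Mono

/-!
Rows COUNT1 and COUNT.
-/

open MvPolynomial Finset
open scoped Real

namespace Vale.Agent.P057T.Cfg.H98

open Vale.Agent.P057T.Eq

noncomputable section

set_option linter.unusedSectionVars false
set_option linter.unusedVariables false

variable {ι : Type} [Fintype ι] [DecidableEq ι]

theorem rs_rg {G : GT ι} {WW : ℕ → ℝ} {c Y : ℝ} {s : ℕ} (h : Rs G WW c Y s) (hW : ∀ g, 0 ≤ WW g)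
    (hc : 1 ≤ c) (hY : 1 ≤ Y) : G.Rg WW c Y s := by
  intro g hg
  refine ⟨(h g hg).1, (h g hg).2.mono (le_min ?_ ?_)⟩
  · have h1 : 1 ≤ c * (Y + WW g) := one_le_mul_of_one_le_of_one_le hc (by linarith [hW g])
    exact mul_le_of_le_one_right (Real.exp_pos _).le (inv_le_one_of_one_le₀ h1)
  · have h1 : 0 ≤ c * (Y + WW g) := mul_nonneg (by linarith) (by linarith [hW g])
    refine mul_le_of_le_one_left (inv_nonneg.2 h1) (Real.exp_le_one_iff.2 ?_)
    have : 0 ≤ c * (Y + WW (g + 1)) := mul_nonneg (by linarith) (by linarith [hW (g + 1)])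
    linarith

theorem rs_mono {G : GT ι} {WW : ℕ → ℝ} {c Y Y' : ℝ} {s : ℕ} (h : Rs G WW c Y' s)
    (hW : ∀ g, 0 ≤ WW g) (hc : 0 < c) (hY0 : 0 < Y) (hY : Y ≤ Y') : Rs G WW c Y s := by
  intro g hg
  have h1 : ∀ g, c * (Y + WW g) ≤ c * (Y' + WW g) := fun g =>
    mul_le_mul_of_nonneg_left (by linarith) hc.le
  have h2 : 0 < c * (Y + WW g) := mul_pos hc (by linarith [hW g])
  refine ⟨(h g hg).1.mono (Real.exp_le_exp.2 (h1 g)), (h g hg).2.mono ?_⟩
  refine mul_le_mul (Real.exp_le_exp.2 (by linarith [h1 (g + 1)])) (inv_anti₀ h2 (h1 g))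
    (inv_nonneg.2 (h2.le.trans (h1 g))) (Real.exp_pos _).le

theorem count1 (hD : DIL) (hS : SUMM) (hM : ∀ s, MASS s s s) : COUNT1 := by
  intro s
  obtain ⟨c, hc⟩ := hM s
  refine ⟨c, ?_⟩
  intro ι _ _ G T WW P Y Z σ n hG hW hSz hT hZ hn hnZ hσ hσZ hR r c0
  obtain ⟨d1, d2, d3, d4, d5⟩ := hD s ι G n σ hG hn hσ
  have hP := hSz.P2
  have hW' := d3 WW (2 * Z) hW (by linarith) (by
    rw [two_mul, Real.exp_add]
    exact mul_le_mul hσZ hnZ (Nat.cast_nonneg _) (Real.exp_pos _).le)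
  have hR' := rs_rg (d5 WW (P ^ c) Y Z hW (one_le_pw hP c) hSz.Y1 hZ hnZ hσZ hR) hW'.nn
    (one_le_pw hP c) hSz.Y1
  obtain ⟨e1, e2⟩ := d4 T P r c0 hT
  have h1 := hS s ι _ _ P d1 (by linarith) e1
  have h2 := hc ι (dil G n σ) (dat G T r n σ c0) _ P Y s d1 hW' hSz e1 le_rfl hR'
    (fun a _ _ => hG.ws a) (by
      unfold GT.cnt
      refine (Finset.card_le_card (t := Finset.range s) ?_).trans (Finset.card_range s).le
      intro x hx
      obtain ⟨a, ha, rfl⟩ := Finset.mem_image.1 hx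
      exact Finset.mem_range.2 (Finset.mem_filter.1 ha).2.2) (fun a _ => hG.gs a)
  have e3 : (dil G n σ).ms (dat G T r n σ c0) =
      ∑' z : Lat T.U, ww G T σ c0 (r + (n : ℤ) • z.1) := tsum_congr fun z => e2 z.1
  have e4 : (dil G n σ).mn (dat G T r n σ c0).sg (dat G T r n σ c0).U =
      G.mn T.sg T.U * ((σ * n) ^ T.U.card)⁻¹ := by
    show (dil G n σ).dv T.U * ∏ a ∈ T.U, (T.sg a)⁻¹ = G.dv T.U * (∏ a ∈ T.U, (T.sg a)⁻¹) * _
    rw [d2]
    ring
  rw [e3, e4] at h2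
  exact ⟨h1.congr fun z => e2 z.1, h2⟩

theorem multi_le (n k : ℕ) : n.multichoose k ≤ (n + 1) ^ k := by
  rw [Nat.multichoose_eq]
  exact (Nat.choose_le_choose k (Nat.sub_le _ _)).trans (Nat.choose_add_le_add_one_pow n k)

theorem card_JI {V : Type} [Fintype V] [DecidableEq V] {w : ι → ℕ} {s M : ℕ} (hw : ∀ a, w a ≤ s)
    (hV : Fintype.card V ≤ M) : Fintype.card (JI w V) ≤ Fintype.card ι * (M + 1) ^ s := by
  rw [Fintype.card_coe]
  unfold JS
  refine Finset.card_biUnion_le.trans ?_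
  rw [← Finset.card_univ, ← smul_eq_mul]
  refine Finset.sum_le_card_nsmul _ _ _ fun a _ => Finset.card_image_le.trans ?_
  rw [Finset.card_finsuppAntidiag_nat_eq_multichoose]
  refine (multi_le _ _).trans ?_
  rw [Finset.card_univ]
  exact (Nat.pow_le_pow_left (Nat.succ_le_succ hV) _).trans (Nat.pow_le_pow_right (Nat.succ_pos M) (hw a))

theorem count (hJ : JOK) (hC : CFG) (h1 : COUNT1) : COUNT := by
  intro s
  obtain ⟨c, hc⟩ := h1 s
  refine ⟨c, ?_⟩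
  intro ι _ _ G T WW P Y Z M hG hW hSz hT hU hZ hM hR
  have hP := hSz.P2
  have hY := hSz.Y1
  have hs : (0 : ℝ) ≤ s := Nat.cast_nonneg s
  have hM0 : (0 : ℝ) ≤ M := Nat.cast_nonneg M
  have hsZ : 0 ≤ (s : ℝ) * Z := mul_nonneg hs hZ
  have hs3 : 0 ≤ (s : ℝ) ^ 3 := by positivity
  constructor
  · intro n σ hn hnZ hσ hσZ
    refine hc ι G T WW P Y Z σ n hG hW hSz hT hZ hn hnZ hσ hσZ
      (rs_mono hR hW.nn (pw_pos hP c) (by nlinarith) ?_)
    nlinarith [mul_nonneg hs3 hM0]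
  · intro V _ _ e ω Δ _ n σ hV hΔ hω hn hnZ hσ hσZ
    obtain ⟨j1, -, j3, j4⟩ := hJ s ι V G ω hG fun ν => (hω ν).1
    have hV' : (Fintype.card V : ℝ) ≤ M := by exact_mod_cast hV
    have hcard : (Fintype.card (JI G.w V) : ℝ) ≤ P := by
      refine le_trans ?_ hM
      exact_mod_cast card_JI hG.ws hV
    refine hc _ (jet G V ω) _ (fun g => WW g + Z) P Y Z σ n j1
      (j3 WW Z hW hZ fun ν => (hω ν).2) ⟨hcard, hP, hY⟩ (j4 T P e Δ hT hU hΔ) hZ hn hnZ hσ hσZ ?_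
    refine hC s ι V G ω WW (P ^ c) _ Z hG hW (one_le_pw hP c) (by nlinarith) hZ hω
      (rs_mono hR hW.nn (pw_pos hP c) ?_ ?_)
    · have : 0 ≤ (s : ℝ) ^ 3 * Fintype.card V := mul_nonneg hs3 (Nat.cast_nonneg _)
      nlinarith
    · have := mul_le_mul_of_nonneg_left hV' hs3
      nlinarith

end

end Vale.Agent.P057T.Cfg.H98
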