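import Vale.Agent.P057T.Cfg.Defs
import Vale.Agent.P057T.Eq.Bdw
import Vale.Agent.P057T.Eq.Derok

/-! Windows are towers. -/

set_option linter.all false

open MvPolynomial Finset
open scoped Real

namespace Vale.Agent.P057T.Cfg

open Vale.Agent.P057T.Eq Vale.Agent.P057T.Eq.Derok

noncomputable section

namespace DilA

variable {ι : Type} [Fintype ι] [DecidableEq ι] {G : GT ι} {s : ℕ}

/-- scaling of all variables -/
def sc (x : ℝ) : MvPolynomial ι ℝ →ₐ[ℝ] MvPolynomial ι ℝ := aeval fun b => C x * X b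

lemma sc_X (x : ℝ) (b : ι) : sc x (X b) = C x * X b := aeval_X _ _

lemma sc_C (x a : ℝ) : sc x (C a : MvPolynomial ι ℝ) = C a := algHom_C _ _

lemma sc_sc {x y : ℝ} (h : x * y = 1) (F : MvPolynomial ι ℝ) : sc x (sc y F) = F := by
  induction F using MvPolynomial.induction_on with
  | C a => rw [sc_C, sc_C]
  | add p q hp hq => rw [map_add, map_add, hp, hq]
  | mul_X p b hp =>
    rw [map_mul, map_mul, hp, sc_X, map_mul, sc_C, sc_X, ← mul_assoc (C y), ← C_mul, mul_comm y x, h,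
      C_1, one_mul]

lemma sc_vars {P : ι → Prop} (x : ℝ) {F : MvPolynomial ι ℝ} (h : ∀ j ∈ F.vars, P j) :
    ∀ j ∈ (sc x F).vars, P j :=
  Chart.vars_aeval fun i hi => Chart.vars_mul' (Chart.vars_C' x) (Chart.vars_X' (h i hi))

lemma hom_Cmul {w : ι → ℕ} {F : MvPolynomial ι ℝ} {e : ℕ} (x : ℝ) (h : IsWeightedHomogeneous w F e) :
    IsWeightedHomogeneous w (C x * F) e := by
  have := (isWeightedHomogeneous_C w x).mul h
  rwa [zero_add] at this

lemma sc_hom {w : ι → ℕ} {F : MvPolynomial ι ℝ} {e : ℕ} (x : ℝ) (h : IsWeightedHomogeneous w F e) :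
    IsWeightedHomogeneous w (sc x F) e :=
  Chart.hom_aeval h fun i => hom_Cmul x (isWeightedHomogeneous_X ℝ w i)

lemma sc_monomial (x : ℝ) (m : ι →₀ ℕ) (a : ℝ) :
    sc x (monomial m a) = monomial m (a * x ^ (m.sum fun _ e => e)) := by
  induction m using Finsupp.induction_linear generalizing a with
  | zero => simpa using sc_C (ι := ι) x a
  | add m m' ih ih' =>
    have e : (monomial (m + m') a : MvPolynomial ι ℝ) = monomial m a * monomial m' 1 := by
      rw [monomial_mul, mul_one]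
    rw [e, map_mul, ih, ih', monomial_mul, Finsupp.sum_add_index' (fun _ => rfl) (fun _ _ _ => rfl),
      pow_add]
    congr 1
    ring
  | single b k =>
    rw [Finsupp.sum_single_index rfl, ← C_mul_X_pow_eq_monomial, ← C_mul_X_pow_eq_monomial, map_mul,
      map_pow, sc_C, sc_X, mul_pow, ← C_pow, C_mul, mul_assoc]

lemma int_sc {n d : ℕ} (hn : 1 ≤ n) {I : MvPolynomial ι ℝ} (hI : L1.IsInt I) (hd : I.totalDegree ≤ d) :
    L1.IsInt (C ((n : ℝ) ^ d) * sc (n : ℝ)⁻¹ I) := by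
  have hn0 : (n : ℝ) ≠ 0 := by positivity
  rw [I.as_sum, map_sum, Finset.mul_sum]
  refine L1.isInt_sum fun m hm => ?_
  obtain ⟨a, ha⟩ := hI m
  have h1 : (m.sum fun _ e => e) ≤ d := (le_totalDegree hm).trans hd
  obtain ⟨k, hk⟩ := Nat.exists_eq_add_of_le h1
  rw [sc_monomial, C_mul_monomial, ha]
  refine L1.isInt_iff.2 ⟨monomial m (a * (n : ℤ) ^ k), ?_⟩
  rw [map_monomial]
  congr 1
  rw [hk, pow_add, inv_pow]
  simp only [eq_intCast, Int.cast_mul, Int.cast_pow, Int.cast_natCast]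
  field_simp

lemma th_dil {n : ℕ} (hn : 1 ≤ n) (σ : ℝ) (a : ι) :
    (dil G n σ).th a = C σ * sc (n : ℝ) (G.th a) := by
  have hn0 : (n : ℝ) ≠ 0 := by positivity
  unfold GT.th
  rw [map_sum, Finset.mul_sum]
  refine Finset.sum_congr rfl fun b _ => ?_
  show C (σ * n * G.A a b) * (X b - C (n : ℝ)⁻¹ * sc (n : ℝ) (G.q b)) = _
  have e : (C (n : ℝ) : MvPolynomial ι ℝ) * C (n : ℝ)⁻¹ = 1 := by
    rw [← C_mul, mul_inv_cancel₀ hn0, C_1]
  rw [map_mul (sc (n : ℝ)), map_sub, sc_C, sc_X, C_mul, C_mul]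
  linear_combination (-(C σ * C (G.A a b) * sc (n : ℝ) (G.q b))) * e

lemma ne_dil {n : ℕ} {σ : ℝ} (hn : 1 ≤ n) (hσ : 0 < σ) (a b : ι) :
    ((dil G n σ).A a b ≠ 0 ∨ (dil G n σ).B a b ≠ 0) ↔ (G.A a b ≠ 0 ∨ G.B a b ≠ 0) := by
  have h0 : σ * n ≠ 0 := by positivity
  show (σ * n * G.A a b ≠ 0 ∨ (σ * n)⁻¹ * G.B a b ≠ 0) ↔ _
  rw [mul_ne_zero_iff, mul_ne_zero_iff (a := (σ * n)⁻¹)]
  have h1 := inv_ne_zero h0
  tauto

lemma bk_dil {n : ℕ} {σ : ℝ} (hn : 1 ≤ n) (hσ : 0 < σ) (V : Finset ι) :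
    (dil G n σ).Bk V ↔ G.Bk V :=
  ⟨fun h a b hab => h a b ((ne_dil hn hσ a b).2 hab), fun h a b hab => h a b ((ne_dil hn hσ a b).1 hab)⟩

lemma ok_dil (hG : G.Ok s) {n : ℕ} {σ : ℝ} (hn : 1 ≤ n) (hσ : 0 < σ) : (dil G n σ).Ok s where
  w1 := hG.w1
  ws := hG.ws
  gs := hG.gs
  AB := by
    have h0 : σ * n ≠ 0 := by positivity
    show ((σ * n) • G.A) * ((σ * n)⁻¹ • G.B) = 1
    rw [Matrix.smul_mul, Matrix.mul_smul, smul_smul, mul_inv_cancel₀ h0, one_smul, hG.AB]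
  blk := fun a b h => hG.blk a b ((ne_dil hn hσ a b).1 h)
  qh := fun a => hom_Cmul _ (sc_hom (n : ℝ) (hG.qh a))
  ql := fun a => Chart.vars_mul' (Chart.vars_C' _) (sc_vars (n : ℝ) (hG.ql a))
  qe := fun a ha => by
    show C (n : ℝ)⁻¹ * sc (n : ℝ) (G.q a) = 0
    rw [hG.qe a ha, map_zero, mul_zero]

/-- two substitutions with the same top parts -/
lemma two {w : ι → ℕ} {f f' : ι → MvPolynomial ι ℝ} (h1 : ∀ b, DZ w (w b) (f b))
    (h2 : ∀ b, DZ w (w b) (f' b)) (h3 : ∀ b, DZ w ((w b : ℤ) - 1) (f b - f' b)) (m : ι →₀ ℕ) (r : ℝ) :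
    DZ w (Finsupp.weight w m : ℕ) (aeval f (monomial m r)) ∧
    DZ w (Finsupp.weight w m : ℕ) (aeval f' (monomial m r)) ∧
    DZ w (((Finsupp.weight w m : ℕ) : ℤ) - 1) (aeval f (monomial m r) - aeval f' (monomial m r)) := by
  have hmul : ∀ (k k' : ℤ) (F F' : MvPolynomial ι ℝ),
      (DZ w k (aeval f F) ∧ DZ w k (aeval f' F) ∧ DZ w (k - 1) (aeval f F - aeval f' F)) →
      (DZ w k' (aeval f F') ∧ DZ w k' (aeval f' F') ∧ DZ w (k' - 1) (aeval f F' - aeval f' F')) →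
      (DZ w (k + k') (aeval f (F * F')) ∧ DZ w (k + k') (aeval f' (F * F')) ∧
        DZ w (k + k' - 1) (aeval f (F * F') - aeval f' (F * F'))) := by
    intro k k' F F' H H'
    rw [map_mul, map_mul]
    refine ⟨H.1.mul H'.1, H.2.1.mul H'.2.1, ?_⟩
    have e : aeval f F * aeval f F' - aeval f' F * aeval f' F' =
        (aeval f F - aeval f' F) * aeval f F' + aeval f' F * (aeval f F' - aeval f' F') := by ring
    rw [e]
    exact ((H.2.2.mul H'.1).mono (by omega)).add ((H.2.1.mul H'.2.2).mono (by omega))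
  have hC : ∀ r : ℝ, DZ w 0 (aeval f (C r : MvPolynomial ι ℝ)) ∧ DZ w 0 (aeval f' (C r : MvPolynomial ι ℝ)) ∧
      DZ w (0 - 1) (aeval f (C r : MvPolynomial ι ℝ) - aeval f' (C r : MvPolynomial ι ℝ)) := by
    intro r
    rw [algHom_C, algHom_C, sub_self]
    exact ⟨dz_C r, dz_C r, dz_zero _⟩
  induction m using Finsupp.induction_linear generalizing r with
  | zero => simpa using hC r
  | add m m' ih ih' =>
    have := hmul _ _ _ _ (ih r) (ih' 1)
    rw [monomial_mul, mul_one] at this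
    rw [map_add (Finsupp.weight w)]
    push_cast
    exact this
  | single a n =>
    induction n with
    | zero => simpa using hC r
    | succ n ihn =>
      have := hmul _ (w a) _ (X a) ihn (by rw [aeval_X, aeval_X]; exact ⟨h1 a, h2 a, h3 a⟩)
      rw [X, monomial_mul, mul_one, ← Finsupp.single_add] at this
      have e : ((Finsupp.weight w (Finsupp.single a (n + 1)) : ℕ) : ℤ) =
          ((Finsupp.weight w (Finsupp.single a n) : ℕ) : ℤ) + w a := by
        simp only [Finsupp.weight_single, smul_eq_mul]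
        push_cast
        ring
      rw [e]
      exact this

lemma two' {w : ι → ℕ} {f f' : ι → MvPolynomial ι ℝ} (h1 : ∀ b, DZ w (w b) (f b))
    (h2 : ∀ b, DZ w (w b) (f' b)) (h3 : ∀ b, DZ w ((w b : ℤ) - 1) (f b - f' b)) {k : ℤ}
    {F : MvPolynomial ι ℝ} (hF : DZ w k F) :
    DZ w k (aeval f F) ∧ DZ w (k - 1) (aeval f F - aeval f' F) := by
  constructor
  · rw [F.as_sum, map_sum]
    exact dz_sum _ _ fun m hm => (two h1 h2 h3 m _).1.mono (hF m hm)
  · rw [F.as_sum, map_sum, map_sum, ← Finset.sum_sub_distrib]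
    exact dz_sum _ _ fun m hm => (two h1 h2 h3 m _).2.2.mono (by have := hF m hm; omega)

lemma eval_sh (r z : ι → ℤ) (n : ℕ) (F : MvPolynomial ι ℝ) :
    eval (cz z) (aeval (fun b => C (r b : ℝ) + C (n : ℝ) * X b) F) = eval (cz (r + (n : ℤ) • z)) F := by
  induction F using MvPolynomial.induction_on with
  | C a => simp
  | add p q hp hq => rw [map_add, map_add, map_add, hp, hq]
  | mul_X p b hp =>
    rw [map_mul, map_mul, map_mul, hp]
    simp [cz]

lemma aok_dil (hG : G.Ok s) {n : ℕ} {σ : ℝ} (hn : 1 ≤ n) (hσ : 0 < σ) {T : AT ι} {P : ℝ}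
    (r : ι → ℤ) (c : ι → ℝ) (hA : G.AOk T P) : (dil G n σ).AOk (dat G T r n σ c) P := by
  have hv : ∀ (p : ι → Prop) (a : ι), (∀ j ∈ (G.th a).vars, p j) → (∀ j ∈ (T.p a).vars, p j) →
      ∀ j ∈ ((dat G T r n σ c).p a).vars, p j := by
    intro p a h1 h2
    refine Chart.vars_sub' (Chart.vars_sub' (Chart.vars_mul' (Chart.vars_C' _) ?_) (Chart.vars_C' _)) ?_
    · refine Chart.vars_aeval fun i hi => Chart.vars_add' (Chart.vars_C' _)
        (Chart.vars_mul' (Chart.vars_C' _) (Chart.vars_X' ?_))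
      exact Chart.vars_add' h1 h2 i hi
    · rw [th_dil hn]
      exact Chart.vars_mul' (Chart.vars_C' _) (sc_vars _ h1)
  refine ⟨(bk_dil hn hσ _).2 hA.bk, fun a ha => ?_, fun a ha => ?_, fun a ha => ?_, fun a ha => ?_,
    hA.s1, hA.s2⟩
  · exact Chart.vars_mul' (P := fun j => j ∈ T.U) (Chart.vars_C' _) (sc_vars (n : ℝ) (hA.qv a ha))
  · exact hv (fun j => j ∈ T.U) a (th_vars_sub hA.bk hA.qv ha) (hA.pv a ha)
  · refine (dl_iff G _ _).2 ?_
    have hw := hG.w1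
    have h1 : ∀ b, DZ G.w (G.w b) (C (r b : ℝ) + C (n : ℝ) * X b : MvPolynomial ι ℝ) := fun b =>
      ((dz_C _).mono (by omega)).add ((dz_X b).cmul _)
    have h2 : ∀ b, DZ G.w (G.w b) (C (n : ℝ) * X b : MvPolynomial ι ℝ) := fun b => (dz_X b).cmul _
    have h3 : ∀ b, DZ G.w ((G.w b : ℤ) - 1)
        ((C (r b : ℝ) + C (n : ℝ) * X b : MvPolynomial ι ℝ) - C (n : ℝ) * X b) := fun b => by
      rw [add_sub_cancel_right]
      exact (dz_C _).mono (by have := hw b; omega)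
    have h4 := (two' h1 h2 h3 (dz_hom (th_hm hG a))).2
    have h5 := (two' h1 h2 h3 ((dl_iff G _ _).1 (hA.pd a ha))).1
    have e : (dat G T r n σ c).p a =
        C σ * ((aeval (fun b => C (r b : ℝ) + C (n : ℝ) * X b) (G.th a) -
          aeval (fun b => C (n : ℝ) * X b) (G.th a)) +
          aeval (fun b => C (r b : ℝ) + C (n : ℝ) * X b) (T.p a)) - C (c a) := by
      show C σ * aeval (fun b => C (r b : ℝ) + C (n : ℝ) * X b) (G.th a + T.p a) - C (c a) -
        (dil G n σ).th a = _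
      rw [th_dil hn, map_add]
      unfold sc
      ring
    show DZ G.w ((G.w a : ℤ) - 1) _
    rw [e]
    exact ((h4.add h5).cmul σ).sub ((dz_C _).mono (by have := hw a; omega))
  · exact hv (fun j => G.g j < G.g a + 1) a (fun j hj => Nat.lt_succ_of_le (th_vars hG a j hj))
      (hA.pl a ha)

lemma big_dil (hG : G.Ok s) {n g : ℕ} {σ Z H : ℝ} (hn : 1 ≤ n) (hσ : 0 < σ) (hZ : 0 ≤ Z)
    (h1 : (n : ℝ) ≤ Real.exp Z) (h2 : σ ≤ Real.exp Z) (hg : g < s) (hH : 0 ≤ H)
    (hB : G.Big g (Real.exp (2 * s * Z) * H)) : (dil G n σ).Big g H := by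
  intro e k I hk hI hl hh hb a ha
  have hn0 : (n : ℝ) ≠ 0 := by positivity
  have he : e ≤ s := by
    rw [← (hk a ha).2]
    exact hG.ws a
  obtain ⟨t, rfl⟩ : ∃ t, s = t + 1 := ⟨s - 1, by omega⟩
  obtain ⟨b, hb1, hb2⟩ := hb
  have hlin : G.Hm e (lin (cz k)) := by
    refine IsWeightedHomogeneous.sum _ _ _ fun x _ => ?_
    by_cases hx : k x = 0
    · have : cz k x = 0 := by simp [cz, hx]
      rw [this, C_0, zero_mul]
      exact isWeightedHomogeneous_zero _ _ _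
    · rw [← (hk x hx).2]
      exact hom_Cmul _ (isWeightedHomogeneous_X ℝ G.w x)
  have hbh : G.Hm e b := (hm_iff (ok_dil hG hn hσ) e b).2 (by rw [hb1]; exact hlin.add hh)
  have hE : 1 ≤ Real.exp Z := Real.one_le_exp hZ
  refine hB e (fun x => (n : ℤ) ^ t * k x) (C ((n : ℝ) ^ (t + 1)) * sc (n : ℝ)⁻¹ I)
    (fun x hx => hk x (right_ne_zero_of_mul hx))
    (int_sc hn hI ((Chart.totalDegree_le_of_hom hG.w1 hh).trans he))
    (Chart.vars_mul' (Chart.vars_C' _) (sc_vars _ hl)) (hom_Cmul _ (sc_hom _ hh))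
    ⟨C ((n : ℝ) ^ (t + 1)) * sc σ b, ?_, ?_⟩ a
    (mul_ne_zero (pow_ne_zero _ (by exact_mod_cast (by omega : n ≠ 0))) ha)
  · have e1 : aeval G.th (sc σ b) = sc (n : ℝ)⁻¹ (aeval (dil G n σ).th b) := by
      unfold sc
      rw [Chart.aeval_aeval, Chart.aeval_aeval]
      refine Chart.aeval_congr_vars fun i _ => ?_
      have := sc_sc (inv_mul_cancel₀ hn0) (G.th i)
      unfold sc at this
      rw [th_dil hn, map_mul, map_mul, algHom_C, algHom_C, aeval_X]
      unfold sc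
      rw [this]
    rw [map_mul, algHom_C, e1, hb1, map_add, mul_add]
    congr 1
    unfold lin
    rw [map_sum, Finset.mul_sum]
    refine Finset.sum_congr rfl fun x _ => ?_
    rw [map_mul, sc_C, sc_X, algebraMap_eq, ← mul_assoc, ← mul_assoc, ← C_mul, ← C_mul]
    congr 2
    simp only [cz]
    push_cast
    field_simp
    ring
  · rw [l1_eq, L1.nrm_C_mul, abs_of_nonneg (by positivity)]
    have h3 : L1.nrm (sc σ b) ≤ L1.nrm b * Real.exp Z ^ (t + 1) :=
      L1.nrm_aeval_le hE (fun i => by rw [L1.nrm_C_mul, L1.nrm_X, mul_one, abs_of_pos hσ]; exact h2)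
        ((Chart.totalDegree_le_of_hom hG.w1 hbh).trans he)
    have h4 : (n : ℝ) ^ (t + 1) ≤ Real.exp Z ^ (t + 1) := pow_le_pow_left₀ (by positivity) h1 _
    have h5 : L1.nrm b * Real.exp Z ^ (t + 1) ≤ H * Real.exp Z ^ (t + 1) :=
      mul_le_mul_of_nonneg_right hb2 (by positivity)
    calc (n : ℝ) ^ (t + 1) * L1.nrm (sc σ b) ≤ Real.exp Z ^ (t + 1) * (H * Real.exp Z ^ (t + 1)) :=
          mul_le_mul h4 (h3.trans h5) (L1.nrm_nonneg _) (by positivity)
      _ = Real.exp (2 * ((t + 1 : ℕ) : ℝ) * Z) * H := by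
          have : 2 * ((t + 1 : ℕ) : ℝ) * Z = ((t + 1 : ℕ) : ℝ) * Z + ((t + 1 : ℕ) : ℝ) * Z := by ring
          rw [this, Real.exp_add, Real.exp_nat_mul]
          ring

lemma small_dil {n g : ℕ} {σ η η' : ℝ} (hσ : 0 < σ) (h : G.Small g η) (hη : σ * n * η ≤ η') :
    (dil G n σ).Small g η' := by
  intro j hj hg
  obtain ⟨v, h1, h2, h3⟩ := h j hj hg
  refine ⟨v, h1, h2, fun a => le_trans ?_ hη⟩
  have e : ∑ b, (dil G n σ).A a b * v b = σ * n * ∑ b, G.A a b * v b := by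
    rw [Finset.mul_sum]
    exact Finset.sum_congr rfl fun b _ => mul_assoc _ _ _
  rw [e, abs_mul, abs_of_nonneg (by positivity)]
  exact mul_le_mul_of_nonneg_left (h3 a) (by positivity)

end DilA

open DilA in
theorem dil_ok : DIL := by
  intro s ι _ _ G n σ hG hn hσ
  have hn0 : (0 : ℝ) < n := by exact_mod_cast hn
  refine ⟨ok_dil hG hn hσ, fun U => ?_, fun WW Z hW hZ h => ?_, fun T P r c hA => ⟨aok_dil hG hn hσ r c hA,
    fun z => ?_⟩, fun WW c Y Z hW hc hY hZ h1 h2 hR g hg => ⟨?_, ?_⟩⟩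
  · unfold GT.dv
    have e : (dil G n σ).B.submatrix (Subtype.val : U → ι) (Subtype.val : U → ι) =
        (σ * n)⁻¹ • G.B.submatrix (Subtype.val : U → ι) (Subtype.val : U → ι) := rfl
    rw [e, Matrix.det_smul, abs_mul, Fintype.card_coe, abs_of_nonneg (by positivity), inv_pow, mul_comm]
  · obtain ⟨Um, Vm, h1, h2, h3⟩ := hW.bd
    refine ⟨fun a b hab => add_le_add_left (hW.anti hab) Z, fun g => add_nonneg (hW.nn g) hZ,
      Um, Vm, h1, fun V hV => h2 V ((bk_dil hn hσ V).1 hV), fun a b => ?_⟩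
    have e : ∑ c, (dil G n σ).A a c * (Um c b : ℝ) = σ * n * ∑ c, G.A a c * (Um c b : ℝ) := by
      rw [Finset.mul_sum]
      exact Finset.sum_congr rfl fun c _ => mul_assoc _ _ _
    rw [e, abs_mul, abs_of_nonneg (by positivity), Real.exp_add, mul_comm]
    exact mul_le_mul (h3 a b) h (by positivity) (Real.exp_pos _).le
  · unfold GT.nu ww
    congr 2
    refine Finset.sum_congr rfl fun a _ => ?_
    have e : (dil G n σ).ch (dat G T r n σ c) a =
        C σ * aeval (fun b => C (r b : ℝ) + C (n : ℝ) * X b) (G.ch T a) - C (c a) := by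
      show (dil G n σ).th a + (_ - (dil G n σ).th a) = _
      rw [add_sub_cancel]
    rw [e, map_sub, map_mul, eval_C, eval_C, eval_sh]
    rfl
  · refine big_dil hG hn hσ hZ h1 h2 hg (Real.exp_pos _).le ((hR g hg).1.mono ?_)
    rw [← Real.exp_add]
    refine Real.exp_le_exp.2 ?_
    have h3 : (0 : ℝ) ≤ s * Z := mul_nonneg (Nat.cast_nonneg _) hZ
    have h4 : (0 : ℝ) ≤ (c - 1) * (s * Z) := mul_nonneg (by linarith) h3
    have h5 : (0 : ℝ) ≤ c * Z := mul_nonneg (by linarith) hZ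
    nlinarith
  · refine small_dil hσ (hR g hg).2 ?_
    have hw := hW.nn g
    have h3 : (0 : ℝ) ≤ s * Z := mul_nonneg (Nat.cast_nonneg _) hZ
    have h4 : σ * n ≤ Real.exp (2 * Z) := by
      rw [two_mul, Real.exp_add]
      exact mul_le_mul h2 h1 hn0.le (Real.exp_pos _).le
    have h5 : Real.exp (2 * Z) * Real.exp (-(c * (Y + (2 * s + 4) * Z + WW (g + 1)))) ≤
        Real.exp (-(c * (Y + (WW (g + 1) + 2 * Z)))) := by
      rw [← Real.exp_add]
      refine Real.exp_le_exp.2 ?_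
      have h6 : (0 : ℝ) ≤ c * (s * Z) := mul_nonneg (by linarith) h3
      have h7 : (0 : ℝ) ≤ (c - 1) * Z := mul_nonneg (by linarith) hZ
      nlinarith
    have h6 : (c * (Y + (2 * s + 4) * Z + WW g))⁻¹ ≤ (c * (Y + (WW g + 2 * Z)))⁻¹ := by
      refine inv_anti₀ (by positivity) (mul_le_mul_of_nonneg_left ?_ (by linarith))
      nlinarith
    have h7 : 0 ≤ (c * (Y + (2 * s + 4) * Z + WW g))⁻¹ := by positivity
    calc σ * n * (Real.exp (-(c * (Y + (2 * s + 4) * Z + WW (g + 1)))) *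
          (c * (Y + (2 * s + 4) * Z + WW g))⁻¹)
        ≤ Real.exp (2 * Z) * (Real.exp (-(c * (Y + (2 * s + 4) * Z + WW (g + 1)))) *
          (c * (Y + (2 * s + 4) * Z + WW g))⁻¹) :=
          mul_le_mul_of_nonneg_right h4 (mul_nonneg (Real.exp_pos _).le h7)
      _ = Real.exp (2 * Z) * Real.exp (-(c * (Y + (2 * s + 4) * Z + WW (g + 1)))) *
          (c * (Y + (2 * s + 4) * Z + WW g))⁻¹ := by ring
      _ ≤ _ := mul_le_mul h5 h6 h7 (Real.exp_pos _).le

end

end Vale.Agent.P057T.Cfg
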