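import Vale.Agent.P057T.Cfg.Defs

/-! The jet tower is a tower. -/

set_option linter.all false

open MvPolynomial Finset

namespace Vale.Agent.P057T.Cfg

open Vale.Agent.P057T.Eq

namespace Jok

variable {ι V : Type} [Fintype ι] [DecidableEq ι] [Fintype V] [DecidableEq V]

theorem mem_js (w : ι → ℕ) (a : ι) (ν : V →₀ ℕ) : (a, ν) ∈ JS w V ↔ ∑ v, ν v = w a := by
  simp [JS, mem_finsuppAntidiag]

theorem deg_eq {w : ι → ℕ} (x : JI w V) : ∑ v, x.1.2 v = w x.1.1 := (mem_js w x.1.1 x.1.2).1 x.2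

theorem sum_fib {M : Type*} [AddCommMonoid M] (w : ι → ℕ) (ν : V →₀ ℕ) (f : ι → M) :
    ∑ y : JI w V, (if ν = y.1.2 then f y.1.1 else 0) =
      ∑ a, if ∑ v, ν v = w a then f a else 0 := by
  rw [Finset.sum_coe_sort (JS w V) (fun y => if ν = y.2 then f y.1 else 0), ← Finset.sum_filter,
    ← Finset.sum_filter]
  symm
  refine Finset.sum_bij (fun a _ => (a, ν)) ?_ ?_ ?_ ?_
  · intro a ha
    exact mem_filter.2 ⟨(mem_js w a ν).2 (mem_filter.1 ha).2, rfl⟩
  · intro a _ b _ h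
    exact congrArg Prod.fst h
  · rintro ⟨a, μ⟩ hy
    obtain ⟨h1, h2⟩ := mem_filter.1 hy
    simp only at h2
    subst h2
    exact ⟨a, mem_filter.2 ⟨mem_univ _, (mem_js w a ν).1 h1⟩, rfl⟩
  · intro a _; rfl

theorem sum_fib' {M : Type*} [AddCommMonoid M] {w : ι → ℕ} (x : JI w V) (f : ι → M)
    (hf : ∀ b, w b ≠ w x.1.1 → f b = 0) :
    ∑ y : JI w V, (if x.1.2 = y.1.2 then f y.1.1 else 0) = ∑ a, f a := by
  rw [sum_fib]
  refine Finset.sum_congr rfl fun a _ => ?_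
  split_ifs with h
  · rfl
  · exact (hf a fun h' => h ((deg_eq x).trans h'.symm)).symm

theorem coeff_pl_self {R : Type} [CommRing R] {w : ι → ℕ} (z : JI w V → R) (y : JI w V) :
    coeff y.1.2 (pl z y.1.1) = z y := by
  unfold pl
  rw [coeff_sum, Finset.sum_eq_single y]
  · simp
  · intro x _ hx
    split_ifs with h
    · rw [coeff_monomial, if_neg]
      intro h2
      exact hx (Subtype.ext (Prod.ext h h2))
    · simp
  · simp

theorem coeff_pl_cases {R : Type} [CommRing R] {w : ι → ℕ} (z : JI w V → R) (a : ι) (ν : V →₀ ℕ) :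
    coeff ν (pl z a) = 0 ∨ ∃ y : JI w V, y.1.1 = a ∧ y.1.2 = ν ∧ coeff ν (pl z a) = z y := by
  by_cases h : (a, ν) ∈ JS w V
  · exact Or.inr ⟨⟨(a, ν), h⟩, rfl, rfl, coeff_pl_self z ⟨(a, ν), h⟩⟩
  · left
    unfold pl
    rw [coeff_sum]
    refine Finset.sum_eq_zero fun x _ => ?_
    split_ifs with h1
    · rw [coeff_monomial, if_neg]
      intro h2
      exact h (by rw [← h1, ← h2]; exact x.2)
    · simp

section pred

variable {σ : Type} [DecidableEq σ]

/-- all coefficients are homogeneous -/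
def Hc (u : σ → ℕ) (e : ℕ) (p : MvPolynomial V (MvPolynomial σ ℝ)) : Prop :=
  ∀ ν, IsWeightedHomogeneous u (coeff ν p) e

theorem Hc.mul {u : σ → ℕ} {e e' : ℕ} {p p' : MvPolynomial V (MvPolynomial σ ℝ)} (h : Hc u e p)
    (h' : Hc u e' p') : Hc u (e + e') (p * p') := fun ν => by
  rw [coeff_mul]
  exact IsWeightedHomogeneous.sum _ _ _ fun x _ => (h _).mul (h' _)

theorem hc_C (u : σ → ℕ) (c : ℝ) : Hc u 0 (C (C c) : MvPolynomial V (MvPolynomial σ ℝ)) :=
  fun ν => by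
    rw [coeff_C]
    split_ifs
    · exact isWeightedHomogeneous_C _ _
    · exact isWeightedHomogeneous_zero _ _ _

theorem hc_one (u : σ → ℕ) : Hc u 0 (1 : MvPolynomial V (MvPolynomial σ ℝ)) := by
  simpa using hc_C (V := V) u 1

theorem Hc.pow {u : σ → ℕ} {e : ℕ} {p : MvPolynomial V (MvPolynomial σ ℝ)} (h : Hc u e p) :
    ∀ k : ℕ, Hc u (k * e) (p ^ k)
  | 0 => by simpa using hc_one u
  | k + 1 => by
    rw [pow_succ, Nat.succ_mul]
    exact (h.pow k).mul h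

theorem hc_sum {u : σ → ℕ} {e : ℕ} {α : Type*} (S : Finset α)
    (f : α → MvPolynomial V (MvPolynomial σ ℝ)) (h : ∀ a ∈ S, Hc u e (f a)) :
    Hc u e (∑ a ∈ S, f a) := fun ν => by
  rw [coeff_sum]
  exact IsWeightedHomogeneous.sum _ _ _ fun x hx => h x hx ν

theorem hc_prod {u : σ → ℕ} {α : Type*} [DecidableEq α] (S : Finset α) (e : α → ℕ)
    (f : α → MvPolynomial V (MvPolynomial σ ℝ)) (h : ∀ a, Hc u (e a) (f a)) :
    Hc u (∑ a ∈ S, e a) (∏ a ∈ S, f a) := by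
  induction S using Finset.induction_on with
  | empty => simpa using hc_one u
  | insert a S ha ih =>
    rw [Finset.sum_insert ha, Finset.prod_insert ha]
    exact (h a).mul ih

theorem hc_aeval {u : σ → ℕ} {w : ι → ℕ} (f : ι → MvPolynomial V (MvPolynomial σ ℝ))
    (hf : ∀ a, Hc u (w a) (f a)) {e : ℕ} {F : MvPolynomial ι ℝ} (hF : IsWeightedHomogeneous w F e) :
    Hc u e (aeval f F) := by
  rw [F.as_sum, map_sum]
  refine hc_sum _ _ fun m hm => ?_
  rw [aeval_monomial, Finsupp.prod]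
  have h1 := (hc_C (V := V) u (coeff m F)).mul
    (hc_prod m.support (fun a => m a * w a) (fun a => f a ^ m a) fun a => (hf a).pow _)
  have h2 : 0 + ∑ a ∈ m.support, m a * w a = e := by
    rw [zero_add, ← hF (mem_support_iff.1 hm), Finsupp.weight_apply, Finsupp.sum]
    simp
  rw [h2] at h1
  exact h1

theorem hc_le (u : σ → ℕ) (e : V → ℤ) : Hc u 0 (le (MvPolynomial σ ℝ) e) := by
  unfold le
  refine hc_sum _ _ fun v _ => ?_
  have h1 : Hc u 0 (X v : MvPolynomial V (MvPolynomial σ ℝ)) := fun ν => by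
    rw [coeff_X']
    split_ifs
    · exact isWeightedHomogeneous_one _ _
    · exact isWeightedHomogeneous_zero _ _ _
  have := (hc_C (V := V) u (e v : ℝ)).mul h1
  simpa using this

/-- the variables of the coefficient at `ν` satisfy `Q ν` -/
def Vc (Q : (V →₀ ℕ) → σ → Prop) (p : MvPolynomial V (MvPolynomial σ ℝ)) : Prop :=
  ∀ ν, ∀ x ∈ (coeff ν p).vars, Q ν x

variable {Q : (V →₀ ℕ) → σ → Prop}

theorem vc_sum {α : Type*} (S : Finset α) (f : α → MvPolynomial V (MvPolynomial σ ℝ))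
    (h : ∀ a ∈ S, Vc Q (f a)) : Vc Q (∑ a ∈ S, f a) := fun ν x hx => by
  classical
  rw [coeff_sum] at hx
  obtain ⟨a, ha, hx⟩ := mem_biUnion.1 (vars_sum_subset _ _ hx)
  exact h a ha ν x hx

theorem Vc.mul (hQ : ∀ ν ν' x, ν ≤ ν' → Q ν x → Q ν' x)
    {p p' : MvPolynomial V (MvPolynomial σ ℝ)} (h : Vc Q p) (h' : Vc Q p') : Vc Q (p * p') :=
  fun ν x hx => by
    rw [coeff_mul] at hx
    obtain ⟨a, ha, hx⟩ := mem_biUnion.1 (vars_sum_subset _ _ hx)
    have e := mem_antidiagonal.1 ha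
    rcases mem_union.1 (vars_mul _ _ hx) with h1 | h1
    · exact hQ _ _ _ (e ▸ le_self_add) (h _ x h1)
    · exact hQ _ _ _ (e ▸ le_add_self) (h' _ x h1)

theorem vc_C (c : ℝ) : Vc Q (C (C c) : MvPolynomial V (MvPolynomial σ ℝ)) := fun ν x hx => by
  rw [coeff_C] at hx
  split_ifs at hx <;> simp at hx

theorem vc_one : Vc Q (1 : MvPolynomial V (MvPolynomial σ ℝ)) := by
  simpa using vc_C (V := V) (Q := Q) 1

theorem Vc.pow (hQ : ∀ ν ν' x, ν ≤ ν' → Q ν x → Q ν' x)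
    {p : MvPolynomial V (MvPolynomial σ ℝ)} (h : Vc Q p) : ∀ k : ℕ, Vc Q (p ^ k)
  | 0 => by simpa using vc_one
  | k + 1 => by
    rw [pow_succ]
    exact (h.pow hQ k).mul hQ h

theorem vc_aeval (hQ : ∀ ν ν' x, ν ≤ ν' → Q ν x → Q ν' x)
    (f : ι → MvPolynomial V (MvPolynomial σ ℝ)) {F : MvPolynomial ι ℝ}
    (hf : ∀ a ∈ F.vars, Vc Q (f a)) : Vc Q (aeval f F) := by
  rw [F.as_sum, map_sum]
  refine vc_sum _ _ fun m hm => ?_
  rw [aeval_monomial, Finsupp.prod]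
  refine (vc_C (coeff m F)).mul hQ ?_
  refine Finset.prod_induction _ (Vc Q) (fun a b ha hb => ha.mul hQ hb) vc_one fun a ha => ?_
  exact (hf a ((mem_vars_iff_mem_support a).2 ⟨m, hm, ha⟩)).pow hQ _

theorem vc_le (hQ : ∀ ν ν' x, ν ≤ ν' → Q ν x → Q ν' x) (e : V → ℤ) :
    Vc Q (le (MvPolynomial σ ℝ) e) := by
  unfold le
  refine vc_sum _ _ fun v _ => ?_
  have h1 : Vc Q (X v : MvPolynomial V (MvPolynomial σ ℝ)) := fun ν x hx => by
    rw [coeff_X'] at hx
    split_ifs at hx <;> simp at hx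
  have := (vc_C (V := V) (Q := Q) (e v : ℝ)).mul hQ h1
  simpa using this

end pred

theorem hc_pl (w : ι → ℕ) (a : ι) :
    Hc (fun x : JI w V => w x.1.1) (w a) (pl (X : JI w V → MvPolynomial (JI w V) ℝ) a) :=
  fun ν => by
    rcases coeff_pl_cases (X : JI w V → MvPolynomial (JI w V) ℝ) a ν with h | ⟨y, h1, -, h⟩
    · rw [h]; exact isWeightedHomogeneous_zero _ _ _
    · rw [h, ← h1]
      exact isWeightedHomogeneous_X ℝ (fun x : JI w V => w x.1.1) y

theorem vc_pl (w : ι → ℕ) (P : ι → Prop) (a : ι) (ha : P a) :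
    Vc (fun ν (x : JI w V) => P x.1.1 ∧ x.1.2 ≤ ν)
      (pl (X : JI w V → MvPolynomial (JI w V) ℝ) a) := fun ν x hx => by
  rcases coeff_pl_cases (X : JI w V → MvPolynomial (JI w V) ℝ) a ν with h | ⟨y, h1, h2, h⟩
  · rw [h] at hx; simp at hx
  · rw [h, vars_X, mem_singleton] at hx
    subst hx
    exact ⟨h1 ▸ ha, h2.le⟩

theorem qmono (w : ι → ℕ) (P : ι → Prop) : ∀ (ν ν' : V →₀ ℕ) (x : JI w V), ν ≤ ν' →
    (P x.1.1 ∧ x.1.2 ≤ ν) → (P x.1.1 ∧ x.1.2 ≤ ν') := fun _ _ _ h h' => ⟨h'.1, h'.2.trans h⟩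

/-- variables of a jet coefficient -/
theorem vars_jet (w : ι → ℕ) (P : ι → Prop) {F : MvPolynomial ι ℝ} (hF : ∀ a ∈ F.vars, P a) :
    Vc (fun ν (x : JI w V) => P x.1.1 ∧ x.1.2 ≤ ν)
      (aeval (pl (X : JI w V → MvPolynomial (JI w V) ℝ)) F) :=
  vc_aeval (qmono w P) _ fun a ha => vc_pl w P a (hF a ha)

/-- a jet coefficient of a form is a form -/
theorem hom_jet (w : ι → ℕ) {e : ℕ} {F : MvPolynomial ι ℝ} (hF : IsWeightedHomogeneous w F e) :
    Hc (fun x : JI w V => w x.1.1) e (aeval (pl (X : JI w V → MvPolynomial (JI w V) ℝ)) F) :=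
  hc_aeval _ (hc_pl w) hF

theorem vars_top (G : GT ι) (d : ℕ) (F : MvPolynomial ι ℝ) : (G.top d F).vars ⊆ F.vars := by
  intro a ha
  obtain ⟨m, hm, h⟩ := (mem_vars_iff_mem_support a).1 ha
  refine (mem_vars_iff_mem_support a).2 ⟨m, ?_, h⟩
  rw [mem_support_iff] at hm ⊢
  intro h0
  apply hm
  unfold GT.top
  rw [coeff_weightedHomogeneousComponent]
  simp [h0]

theorem vars_hg (G : GT ι) (T : AT ι) (e : V → ℤ) (P : ι → Prop) (a : ι)
    (ha : ∀ b ∈ (T.p a).vars, P b) :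
    Vc (fun ν (x : JI G.w V) => P x.1.1 ∧ x.1.2 ≤ ν)
      (hg G T e (X : JI G.w V → MvPolynomial (JI G.w V) ℝ) a) := by
  unfold hg
  refine vc_sum _ _ fun d _ => ?_
  exact ((vc_le (qmono G.w P) e).pow (qmono G.w P) _).mul (qmono G.w P)
    (vars_jet G.w P fun b hb => ha b (vars_top G d _ hb))

theorem vars_Cmul {σ : Type} [DecidableEq σ] (c : ℝ) (F : MvPolynomial σ ℝ) :
    (C c * F).vars ⊆ F.vars := by
  intro x hx
  rcases mem_union.1 (vars_mul _ _ hx) with h | h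
  · simp at h
  · exact h

theorem lift_mul {S : Type} [CommRing S] {w : ι → ℕ} (M M' : Matrix ι ι S) (c c' : (V →₀ ℕ) → S)
    (hM : ∀ a b, M a b ≠ 0 → w a = w b) (x z : JI w V) :
    ∑ y : JI w V, (if x.1.2 = y.1.2 then c x.1.2 * M x.1.1 y.1.1 else 0) *
      (if y.1.2 = z.1.2 then c' y.1.2 * M' y.1.1 z.1.1 else 0) =
      if x.1.2 = z.1.2 then c x.1.2 * c' x.1.2 * ∑ b, M x.1.1 b * M' b z.1.1 else 0 := by
  by_cases h : x.1.2 = z.1.2
  · rw [if_pos h, Finset.mul_sum,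
      ← sum_fib' x (fun b => c x.1.2 * c' x.1.2 * (M x.1.1 b * M' b z.1.1)) fun b hb => by
        by_cases h0 : M x.1.1 b = 0
        · simp [h0]
        · exact absurd (hM _ _ h0).symm hb]
    refine Finset.sum_congr rfl fun y _ => ?_
    by_cases h1 : x.1.2 = y.1.2
    · rw [if_pos h1, if_pos h1, if_pos (h1.symm.trans h), ← h1]; ring
    · simp [h1]
  · rw [if_neg h]
    refine Finset.sum_eq_zero fun y _ => ?_
    by_cases h1 : x.1.2 = y.1.2
    · rw [if_neg (fun h2 : y.1.2 = z.1.2 => h (h1.trans h2)), mul_zero]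
    · simp [h1]

theorem one_lift {S : Type} [CommRing S] {w : ι → ℕ} (x z : JI w V) :
    (if x.1.2 = z.1.2 then (1 : Matrix ι ι S) x.1.1 z.1.1 else 0) =
      (1 : Matrix (JI w V) (JI w V) S) x z := by
  simp only [Matrix.one_apply]
  by_cases h : x = z
  · subst h; simp
  · rw [if_neg h]
    split_ifs with h1 h2
    · exact absurd (Subtype.ext (Prod.ext h2 h1)) h
    · rfl
    · rfl

variable {s : ℕ} {G : GT ι} {ω : (V →₀ ℕ) → ℝ}

theorem ne_of {x y : JI G.w V} (h : (jet G V ω).A x y ≠ 0 ∨ (jet G V ω).B x y ≠ 0) :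
    x.1.2 = y.1.2 ∧ (G.A x.1.1 y.1.1 ≠ 0 ∨ G.B x.1.1 y.1.1 ≠ 0) := by
  by_cases h1 : x.1.2 = y.1.2
  · refine ⟨h1, h.imp ?_ ?_⟩ <;>
    · intro h2 h3
      apply h2
      simp [jet, h3]
  · exfalso
    rcases h with h | h <;> exact h (by simp [jet, h1])

theorem ok (hG : G.Ok s) (hω : ∀ ν, 0 < ω ν) : (jet G V ω).Ok s where
  w1 := fun x => hG.w1 _
  ws := fun x => hG.ws _
  gs := fun x => hG.gs _
  AB := by
    ext x z
    rw [Matrix.mul_apply, ← one_lift, ← hG.AB, Matrix.mul_apply]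
    have := lift_mul G.A G.B ω (fun ν => (ω ν)⁻¹) (fun a b h => (hG.blk a b (Or.inl h)).2) x z
    rw [mul_inv_cancel₀ (hω _).ne', one_mul] at this
    exact this
  blk := fun x y h => hG.blk _ _ (ne_of h).2
  qh := fun x => hom_jet G.w (hG.qh x.1.1) x.1.2
  ql := fun x y hy => (vars_jet G.w (fun b => G.g b < G.g x.1.1) (hG.ql x.1.1) x.1.2 y hy).1
  qe := fun x hx => by
    have h : x.1.1 ∈ G.ex := (mem_filter.1 hx).2
    simp [jet, hG.qe _ h]

theorem th (hG : G.Ok s) (x : JI G.w V) : (jet G V ω).th x = C (ω x.1.2) *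
    coeff x.1.2 (aeval (pl (X : JI G.w V → MvPolynomial (JI G.w V) ℝ)) (G.th x.1.1)) := by
  unfold GT.th
  rw [map_sum, coeff_sum, Finset.mul_sum,
    ← sum_fib' x (fun b => C (ω x.1.2) * coeff x.1.2
      (aeval (pl (X : JI G.w V → MvPolynomial (JI G.w V) ℝ)) (C (G.A x.1.1 b) * (X b - G.q b))))
      fun b hb => by
        have h0 : G.A x.1.1 b = 0 := by
          by_contra h0
          exact hb (hG.blk _ _ (Or.inl h0)).2.symm
        simp [h0]]
  refine Finset.sum_congr rfl fun y _ => ?_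
  by_cases h1 : x.1.2 = y.1.2
  · rw [if_pos h1, map_mul, map_sub, aeval_X, aeval_C]
    have e : (algebraMap ℝ (MvPolynomial V (MvPolynomial (JI G.w V) ℝ))) (G.A x.1.1 y.1.1) =
        C (C (G.A x.1.1 y.1.1)) := rfl
    rw [e, coeff_C_mul, coeff_sub, h1, coeff_pl_self]
    simp only [jet, h1, if_true, map_mul]
    ring
  · simp [jet, h1]

theorem wd (hG : G.Ok s) (hω : ∀ ν, 0 < ω ν) {WW : ℕ → ℝ} {Z : ℝ} (hW : G.Wd WW) (hZ : 0 ≤ Z)
    (hZ' : ∀ ν, ω ν ≤ Real.exp Z) : (jet G V ω).Wd fun g => WW g + Z where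
  anti := fun a b h => add_le_add_left (hW.anti h) Z
  nn := fun g => add_nonneg (hW.nn g) hZ
  bd := by
    obtain ⟨Um, Vm, h1, h2, h3⟩ := hW.bd
    have hw : ∀ a b, (Um a b ≠ 0 ∨ Vm a b ≠ 0) → G.w a = G.w b := by
      intro a b h
      have := h2 (univ.filter fun c => G.w c = G.w b) (fun c d hcd => by
        simp [(hG.blk c d hcd).2]) a b h
      simpa using this
    refine ⟨fun x y => if x.1.2 = y.1.2 then 1 * Um x.1.1 y.1.1 else 0,
      fun x y => if x.1.2 = y.1.2 then 1 * Vm x.1.1 y.1.1 else 0, ?_, ?_, ?_⟩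
    · ext x z
      have := lift_mul (w := G.w) Um Vm (fun _ : V →₀ ℕ => 1) (fun _ => 1)
        (fun a b h => hw a b (Or.inl h)) x z
      rw [one_mul, one_mul, ← Matrix.mul_apply, h1, one_lift] at this
      exact this
    · intro W hW' x y h
      have hxy : x.1.2 = y.1.2 := by
        by_contra hn
        rcases h with h | h <;> exact h (if_neg hn)
      have h' : Um x.1.1 y.1.1 ≠ 0 ∨ Vm x.1.1 y.1.1 ≠ 0 := by
        simpa [hxy] using h
      classical
      have key : ∀ c d, (G.A c d ≠ 0 ∨ G.B c d ≠ 0) → ∀ hc : (c, x.1.2) ∈ JS G.w V,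
          ∀ hd : (d, x.1.2) ∈ JS G.w V,
          ((⟨(c, x.1.2), hc⟩ : JI G.w V) ∈ W ↔ (⟨(d, x.1.2), hd⟩ : JI G.w V) ∈ W) := by
        intro c d hcd hc hd
        refine hW' _ _ (hcd.imp ?_ ?_) <;>
        · intro h4
          simp [jet, h4, (hω _).ne']
      have h4 := h2 (univ.filter fun c => ∃ hc : (c, x.1.2) ∈ JS G.w V,
        (⟨(c, x.1.2), hc⟩ : JI G.w V) ∈ W) (fun c d hcd => by
          have hw' := (hG.blk c d hcd).2
          simp only [mem_filter, mem_univ, true_and]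
          constructor
          · rintro ⟨hc, h5⟩
            have hd : (d, x.1.2) ∈ JS G.w V := (mem_js _ _ _).2 (((mem_js _ _ _).1 hc).trans hw')
            exact ⟨hd, (key c d hcd hc hd).1 h5⟩
          · rintro ⟨hd, h5⟩
            have hc : (c, x.1.2) ∈ JS G.w V :=
              (mem_js _ _ _).2 (((mem_js _ _ _).1 hd).trans hw'.symm)
            exact ⟨hc, (key c d hcd hc hd).2 h5⟩) _ _ h'
      simp only [mem_filter, mem_univ, true_and] at h4
      have hy : (y.1.1, x.1.2) ∈ JS G.w V := by rw [hxy]; exact y.2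
      have ey : (⟨(y.1.1, x.1.2), hy⟩ : JI G.w V) = y := Subtype.ext (Prod.ext rfl hxy)
      constructor
      · intro h5
        obtain ⟨_, h6⟩ := h4.1 ⟨x.2, h5⟩
        exact ey ▸ h6
      · intro h5
        obtain ⟨_, h6⟩ := h4.2 ⟨hy, ey.symm ▸ h5⟩
        exact h6
    · intro x z
      have := lift_mul (w := G.w) G.A (fun a b => (Um a b : ℝ)) ω (fun _ => 1)
        (fun a b h => (hG.blk a b (Or.inl h)).2) x z
      have e : ∑ c : JI G.w V, (jet G V ω).A x c *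
          (((if c.1.2 = z.1.2 then 1 * Um c.1.1 z.1.1 else 0 : ℤ)) : ℝ) =
          if x.1.2 = z.1.2 then ω x.1.2 * 1 * ∑ b, G.A x.1.1 b * (Um b z.1.1 : ℝ) else 0 := by
        rw [← this]
        refine Finset.sum_congr rfl fun c _ => ?_
        congr 1
        split_ifs <;> simp
      rw [e]
      split_ifs
      · rw [mul_one, abs_mul, abs_of_pos (hω _), add_comm, Real.exp_add]
        exact mul_le_mul (hZ' _) (h3 _ _) (abs_nonneg _) (Real.exp_pos _).le
      · rw [abs_zero]; exact (Real.exp_pos _).le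

theorem dl_hg (T : AT ι) (e : V → ℤ) (x : JI G.w V) (c : ℝ) :
    (jet G V ω).Dl (G.w x.1.1) (C c *
      coeff x.1.2 (hg G T e (X : JI G.w V → MvPolynomial (JI G.w V) ℝ) x.1.1)) := by
  intro m hm
  rw [mem_support_iff, coeff_C_mul] at hm
  have h1 := right_ne_zero_of_mul hm
  unfold hg at h1
  rw [coeff_sum, coeff_sum] at h1
  obtain ⟨d, hd, h2⟩ := Finset.exists_ne_zero_of_sum_ne_zero h1
  have h3 := (((hc_le (V := V) (fun y : JI G.w V => G.w y.1.1) e).pow (G.w x.1.1 - d)).mul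
    (hom_jet G.w (weightedHomogeneousComponent_isWeightedHomogeneous (w := G.w) d (T.p x.1.1))))
    x.1.2 h2
  rw [mul_zero, zero_add] at h3
  change Finsupp.weight (fun y : JI G.w V => G.w y.1.1) m < _
  rw [h3]
  exact mem_range.1 hd

theorem aok {T : AT ι} {P : ℝ} (e : V → ℤ) (Δ : (V →₀ ℕ) → Prop) [DecidablePred Δ]
    (hT : G.AOk T P) (hU : T.U = univ) (hΔ : Dn Δ) :
    (jet G V ω).AOk (jat G T e ω (UD G.w Δ)) P where
  bk := fun x y h => by simp [jat, UD, (ne_of h).1]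
  qv := fun x hx y hy => mem_filter.2 ⟨mem_univ _, hΔ _ _ (mem_filter.1 hx).2
    (vars_jet G.w (fun _ => True) (fun _ _ => trivial) x.1.2 y hy).2⟩
  pv := fun x hx y hy => mem_filter.2 ⟨mem_univ _, hΔ _ _ (mem_filter.1 hx).2
    (vars_hg G T e (fun _ => True) x.1.1 (fun _ _ => trivial) x.1.2 y (vars_Cmul _ _ hy)).2⟩
  pd := fun x _ => dl_hg T e x _
  pl := fun x _ y hy => (vars_hg G T e (fun b => G.g b < G.g x.1.1 + 1) x.1.1
    (hT.pl x.1.1 (hU ▸ mem_univ _)) x.1.2 y (vars_Cmul _ _ hy)).1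
  s1 := fun x => hT.s1 _
  s2 := fun x => hT.s2 _

end Jok

theorem jok : JOK := fun _ _ _ _ _ _ _ _ _ hG hω =>
  ⟨Jok.ok hG hω, Jok.th hG, fun _ _ hW hZ hZ' => Jok.wd hG hω hW hZ hZ',
    fun _ _ e Δ _ hT hU hΔ => Jok.aok e Δ hT hU hΔ⟩

end Vale.Agent.P057T.Cfg
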