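import Vale.Agent.P057T.Cfg.Defs

/-!
Basic algebra of polynomial points.
-/

open MvPolynomial Finset
open scoped Real

namespace Vale.Agent.P057T.Cfg

open Vale.Agent.P057T.Eq

noncomputable section

set_option linter.unusedSectionVars false

variable {ι V V' : Type} [Fintype ι] [DecidableEq ι] [Fintype V] [DecidableEq V]
  [Fintype V'] [DecidableEq V']

theorem mem_JS {w : ι → ℕ} {x : ι × (V →₀ ℕ)} : x ∈ JS w V ↔ x.2.degree = w x.1 := by
  obtain ⟨a, ν⟩ := x
  simp only [JS, mem_biUnion, mem_univ, true_and, mem_image, mem_finsuppAntidiag, subset_univ,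
    and_true, Prod.mk.injEq, Finsupp.degree_eq_sum]
  constructor
  · rintro ⟨b, μ, h, rfl, rfl⟩
    exact h
  · intro h
    exact ⟨a, ν, h, rfl, rfl⟩

theorem JI_deg {w : ι → ℕ} (x : JI w V) : x.1.2.degree = w x.1.1 := mem_JS.1 x.2

/-- the index with variable `a` and monomial `ν` -/
def mk {w : ι → ℕ} (a : ι) (ν : V →₀ ℕ) (h : ν.degree = w a) : JI w V := ⟨(a, ν), mem_JS.2 h⟩

section alg

variable {R R' : Type} [CommRing R] [CommRing R'] {w : ι → ℕ}

theorem coeff_pl (z : JI w V → R) (x : JI w V) : coeff x.1.2 (pl z x.1.1) = z x := by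
  unfold pl
  rw [coeff_sum, sum_eq_single x]
  · simp
  · intro y _ hy
    split_ifs with h
    · rw [coeff_monomial, if_neg]
      intro h2
      exact hy (Subtype.ext (Prod.ext h h2))
    · simp
  · simp

theorem pl_hom (z : JI w V → R) (a : ι) : (pl z a).IsHomogeneous (w a) := by
  unfold pl
  refine IsHomogeneous.sum _ _ _ fun x _ => ?_
  split_ifs with h
  · exact isHomogeneous_monomial _ (h ▸ JI_deg x)
  · exact isHomogeneous_zero _ _ _

theorem coeff_pl_ne (z : JI w V → R) {a : ι} {ν : V →₀ ℕ} (h : ν.degree ≠ w a) :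
    coeff ν (pl z a) = 0 := (pl_hom z a).coeff_eq_zero h

theorem pl_coeff {Q : ι → MvPolynomial V R} (hQ : ∀ a, (Q a).IsHomogeneous (w a)) (a : ι) :
    pl (fun x : JI w V => coeff x.1.2 (Q x.1.1)) a = Q a := by
  ext ν
  by_cases h : ν.degree = w a
  · exact coeff_pl (fun x : JI w V => coeff x.1.2 (Q x.1.1)) (mk a ν h)
  · rw [coeff_pl_ne _ h, (hQ a).coeff_eq_zero h]

theorem pl_add (z z' : JI w V → R) (a : ι) : pl (z + z') a = pl z a + pl z' a := by
  unfold pl
  rw [← sum_add_distrib]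
  refine sum_congr rfl fun x _ => ?_
  split_ifs <;> simp

theorem pl_smul (c : R) (z : JI w V → R) (a : ι) : pl (c • z) a = C c * pl z a := by
  unfold pl
  rw [mul_sum]
  refine sum_congr rfl fun x _ => ?_
  split_ifs <;> simp [C_mul_monomial]

theorem le_hom (e : V → ℤ) : (le R e).IsHomogeneous 1 := by
  unfold le
  exact IsHomogeneous.sum _ _ _ fun v _ => isHomogeneous_C_mul_X _ _

theorem sb_hom (S : V → V' → ℤ) {Q : MvPolynomial V R} {n : ℕ} (hQ : Q.IsHomogeneous n) :
    (sb R S Q).IsHomogeneous n := by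
  have := hQ.aeval (fun v => le R (S v)) fun v => le_hom (S v)
  rwa [one_mul] at this

theorem pl_Ph (S : V → V' → ℤ) (z : JI w V → R) (a : ι) : pl (Ph S z) a = sb R S (pl z a) :=
  pl_coeff (Q := fun a => sb R S (pl z a)) (fun a => sb_hom S (pl_hom z a)) a

theorem map_pl (φ : R →+* R') (z : JI w V → R) (a : ι) :
    map φ (pl z a) = pl (fun x => φ (z x)) a := by
  unfold pl
  rw [map_sum]
  refine sum_congr rfl fun x _ => ?_
  split_ifs <;> simp

theorem map_le (φ : R →+* R') (e : V → ℤ) : map φ (le R e) = le R' e := by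
  simp [le]

theorem map_sb (φ : R →+* R') (S : V → V' → ℤ) (Q : MvPolynomial V R) :
    map φ (sb R S Q) = sb R' S (map φ Q) := by
  induction Q using MvPolynomial.induction_on with
  | C a => simp [sb]
  | add p q hp hq => simp only [map_add, hp, hq]
  | mul_X p v hp =>
    simp only [map_mul, hp, map_X]
    simp only [sb, aeval_X, map_le]

theorem Ph_map (φ : R →+* R') (S : V → V' → ℤ) (z : JI w V → R) (y : JI w V') :
    φ (Ph S z y) = Ph S (fun x => φ (z x)) y := by
  unfold Ph
  rw [← coeff_map, map_sb, map_pl]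

theorem cz_Ph (S : V → V' → ℤ) (z : JI w V → ℤ) : cz (Ph S z) = Ph S (cz z) :=
  funext fun y => Ph_map (Int.castRingHom ℝ) S z y

theorem Ph_add (S : V → V' → ℤ) (z z' : JI w V → R) : Ph S (z + z') = Ph S z + Ph S z' := by
  funext y
  simp only [Ph, pl_add, map_add, coeff_add, Pi.add_apply]

theorem Ph_smul (S : V → V' → ℤ) (c : R) (z : JI w V → R) : Ph S (c • z) = c • Ph S z := by
  funext y
  simp only [Ph, pl_smul, map_mul, Pi.smul_apply, smul_eq_mul]
  rw [show sb R S (C c) = C c from algHom_C _ _, coeff_C_mul]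

theorem ev_map (φ : R →+* R') (t : V → R) (z : JI w V → R) (a : ι) :
    φ (ev t z a) = ev (fun v => φ (t v)) (fun x => φ (z x)) a := by
  unfold ev
  rw [← map_pl, eval_map, ← eval₂_id, eval₂_comp_left]
  rfl

theorem ev_add (t : V → R) (z z' : JI w V → R) : ev t (z + z') = ev t z + ev t z' := by
  funext a
  simp only [ev, pl_add, map_add, Pi.add_apply]

theorem ev_smul (t : V → R) (c : R) (z : JI w V → R) : ev t (c • z) = c • ev t z := by
  funext a
  simp only [ev, pl_smul, map_mul, eval_C, Pi.smul_apply, smul_eq_mul]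

variable [Algebra ℝ R] [Algebra ℝ R']

theorem map_aeval_pl (φ : R →ₐ[ℝ] R') (z : JI w V → R) (F : MvPolynomial ι ℝ) :
    map (φ : R →+* R') (aeval (pl z) F) = aeval (pl fun x => φ (z x)) F := by
  induction F using MvPolynomial.induction_on with
  | C a => simp [MvPolynomial.algebraMap_apply]
  | add p q hp hq => simp only [map_add, hp, hq]
  | mul_X p v hp => simp only [map_mul, hp, aeval_X, map_pl]; rfl

theorem sb_aeval_pl (S : V → V' → ℤ) (z : JI w V → R) (F : MvPolynomial ι ℝ) :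
    sb R S (aeval (pl z) F) = aeval (pl (Ph S z)) F := by
  induction F using MvPolynomial.induction_on with
  | C a => simp [MvPolynomial.algebraMap_apply]
  | add p q hp hq => simp only [map_add, hp, hq]
  | mul_X p v hp => simp only [map_mul, hp, aeval_X, pl_Ph]

theorem map_tp (G : GT ι) (T : AT ι) (e : V → ℤ) (φ : R →ₐ[ℝ] R') (z : JI G.w V → R) (a : ι) :
    map (φ : R →+* R') (tp G T e z a) = tp G T e (fun x => φ (z x)) a := by
  simp only [tp, hg, map_add, map_sum, map_mul, map_pow, map_le, map_aeval_pl]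

theorem sb_tp (G : GT ι) (T : AT ι) {e : V → ℤ} {e' : V' → ℤ} {S : V → V' → ℤ}
    (he : sb R S (le R e) = le R e') (z : JI G.w V → R) (a : ι) :
    tp G T e' (Ph S z) a = sb R S (tp G T e z a) := by
  simp only [tp, hg, map_add, map_sum, map_mul, map_pow, he, sb_aeval_pl]

theorem aeval_pl_hom (z : JI w V → R) {F : MvPolynomial ι ℝ} {n : ℕ}
    (hF : IsWeightedHomogeneous w F n) : (aeval (pl z) F).IsHomogeneous n := by
  rw [F.as_sum, map_sum]
  refine IsHomogeneous.sum _ _ _ fun m hm => ?_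
  rw [aeval_monomial, MvPolynomial.algebraMap_apply, ← zero_add n]
  refine (isHomogeneous_C _ _).mul ?_
  have h1 : n = ∑ i ∈ m.support, w i * m i := by
    rw [← hF (mem_support_iff.1 hm), Finsupp.weight_apply]
    exact sum_congr rfl fun i _ => by simp [mul_comm]
  rw [h1]
  exact IsHomogeneous.prod _ _ _ fun i _ => (pl_hom z i).pow _

end alg

theorem th_hom {G : GT ι} {s : ℕ} (hG : G.Ok s) (a : ι) : G.Hm (G.w a) (G.th a) := by
  unfold GT.th GT.Hm
  refine IsWeightedHomogeneous.sum _ _ _ fun b _ => ?_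
  by_cases h : G.A a b = 0
  · rw [h, C_0, zero_mul]
    exact isWeightedHomogeneous_zero _ _ _
  · rw [(hG.blk a b (Or.inl h)).2, ← zero_add (G.w b)]
    exact (isWeightedHomogeneous_C _ _).mul ((isWeightedHomogeneous_X _ _ _).sub (hG.qh b))

theorem tp_hom {R : Type} [CommRing R] [Algebra ℝ R] {G : GT ι} {s : ℕ} (hG : G.Ok s) (T : AT ι)
    (e : V → ℤ) (z : JI G.w V → R) (a : ι) : (tp G T e z a).IsHomogeneous (G.w a) := by
  refine (aeval_pl_hom z (th_hom hG a)).add (IsHomogeneous.sum _ _ _ fun d hd => ?_)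
  have h1 := ((le_hom (R := R) e).pow (G.w a - d)).mul
    (aeval_pl_hom z (weightedHomogeneousComponent_isWeightedHomogeneous (w := G.w) d (T.p a)))
  rwa [one_mul, Nat.sub_add_cancel (mem_range.1 hd).le] at h1

/-- the chart of the jet tower -/
theorem uv_jet (G : GT ι) (T : AT ι) (e : V → ℤ) (ω : (V →₀ ℕ) → ℝ) (U : Finset (JI G.w V))
    (hth : ∀ x, (jet G V ω).th x = C (ω x.1.2) *
      coeff x.1.2 (aeval (pl (X : JI G.w V → MvPolynomial (JI G.w V) ℝ)) (G.th x.1.1)))
    (z : JI G.w V → ℤ) (x : JI G.w V) :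
    uv (jet G V ω) (jat G T e ω U) z x = ω x.1.2 * coeff x.1.2 (tp G T e (cz z) x.1.1) := by
  have h1 := map_tp G T e (aeval (cz z) : MvPolynomial (JI G.w V) ℝ →ₐ[ℝ] ℝ) X x.1.1
  simp only [aeval_X] at h1
  rw [← h1, coeff_map]
  unfold uv GT.ch
  rw [hth]
  simp only [jat, tp, coeff_add, map_add, map_mul, eval_C, mul_add]
  rfl

theorem sum_top {G : GT ι} {n : ℕ} {F : MvPolynomial ι ℝ} (h : G.Dl n F) :
    ∑ d ∈ range n, G.top d F = F := by
  ext m
  rw [coeff_sum]
  simp only [GT.top, coeff_weightedHomogeneousComponent]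
  rw [sum_ite_eq]
  split_ifs with h1
  · rfl
  · by_contra h2
    exact h1 (mem_range.2 (h m (mem_support_iff.2 fun h3 => h2 h3.symm)))

theorem eval_aeval_pl {w : ι → ℕ} (t : V → ℝ) (z : JI w V → ℝ) (F : MvPolynomial ι ℝ) :
    eval t (aeval (pl z) F) = eval (ev t z) F := by
  induction F using MvPolynomial.induction_on with
  | C a => simp
  | add p q hp hq => simp only [map_add, hp, hq]
  | mul_X p v hp => simp only [map_mul, hp, aeval_X, eval_X]; rfl

/-- the chart of the host at a point of the box -/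
theorem uv_ev {G : GT ι} {T : AT ι} {e t : V → ℤ} (he : ∑ v, e v * t v = 1) {a : ι}
    (hp : G.Dl (G.w a) (T.p a)) (z : JI G.w V → ℤ) :
    uv G T (ev t z) a = eval (fun v => (t v : ℝ)) (tp G T e (cz z) a) := by
  have h1 : eval (fun v => (t v : ℝ)) (le ℝ e) = 1 := by
    simp only [le, map_sum, map_mul, eval_C, eval_X]
    exact_mod_cast he
  have h2 : cz (ev t z) = ev (fun v => (t v : ℝ)) (cz z) :=
    funext fun a => ev_map (Int.castRingHom ℝ) t z a
  simp only [tp, hg, map_add, map_sum, map_mul, map_pow, h1, one_pow, one_mul, eval_aeval_pl]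
  rw [← map_sum, sum_top hp, uv, GT.ch, map_add, h2]

theorem e0_pt {m : ℕ} (t : Fin m → ℤ) : ∑ v, e0 m v * pt t v = 1 := by
  simp [Fintype.sum_option, e0, pt]

theorem UD_true (w : ι → ℕ) : UD w (fun _ : V →₀ ℕ => True) = univ := by
  simp [UD]

end

end Vale.Agent.P057T.Cfg
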