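import Vale.Agent.P057T.Eq.Defs

/-!
Moves on towers: pull back of relations, change of chart, change of coordinates, copies along
colours, cells and classes; masses, marginals and the box Cauchy-Schwarz inequality.
All row statements are `Prop`s at the end of the file.
-/

open MvPolynomial Finset
open scoped Real

namespace Vale.Agent.P057T.Cp

open Vale.Agent.P057T.Eq

noncomputable section

variable {ι κ : Type} [Fintype ι] [DecidableEq ι] [Fintype κ] [DecidableEq κ]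

/-- regularity in product form, all groups -/
structure Rr (G : GT ι) (s : ℕ) (WW : ℕ → ℝ) (c Y : ℝ) : Prop where
  ok : G.Ok s
  wd : G.Wd WW
  big : ∀ g < s, G.Big g (Real.exp (c * (Y + WW g)))
  small : ∀ g < s, G.Small g (Real.exp (-(c * (Y + WW (g + 1)))) * (c * (Y + WW g))⁻¹)

/-- weighted sum over the active lattice -/
def Ex {E : Type} [NormedAddCommGroup E] [NormedSpace ℝ E] (G : GT ι) (T : AT ι)
    (h : (ι → ℤ) → E) : E := ∑' z : Lat T.U, G.nu T z.1 • h z.1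

/-- the expected mass -/
def Mn (G : GT ι) (T : AT ι) : ℝ := G.mn T.sg T.U

def res (W : Finset ι) (z : ι → ℤ) : ι → ℤ := fun a => if a ∈ W then z a else 0

/-- sum over the fibre above `y` -/
def Fs {E : Type} [NormedAddCommGroup E] [NormedSpace ℝ E] (G : GT ι) (T : AT ι) (W : Finset ι)
    (h : (ι → ℤ) → E) (y : ι → ℤ) : E :=
  ∑' x : Lat (T.U \ W), G.nu (T.rs (T.U \ W)) (y + x.1) • h (y + x.1)

/-- the charts of the active variables of `W` only see `W` -/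
structure Cls (G : GT ι) (T : AT ι) (W : Finset ι) : Prop where
  bk : G.Bk W
  qv : ∀ a ∈ W, (G.q a).vars ⊆ W
  pv : ∀ a ∈ T.U, a ∈ W → (T.p a).vars ⊆ W

/-- integer linear substitution -/
def sb (M : Matrix κ ι ℤ) : κ → MvPolynomial ι ℝ := fun x => lin (cz (M x))

structure Pb (G : GT ι) (G' : GT κ) (M : Matrix κ ι ℤ) (N : Matrix κ ι ℝ) (ρ : ℝ) : Prop where
  gw : ∀ x a, M x a ≠ 0 → G'.g x = G.g a ∧ G'.w x = G.w a
  th : ∀ x, aeval (sb M) (G'.th x) = ∑ a, C (N x a) * G.th a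
  nb : ∀ x, ∑ a, |N x a| ≤ ρ

/-- change of chart -/
def rc (G : GT ι) (N N' : Matrix ι ι ℝ) : GT ι := ⟨G.g, G.w, N * G.A, G.B * N', G.q, G.ex⟩

def rcT (T : AT ι) (N : Matrix ι ι ℝ) : AT ι := ⟨T.U, fun a => ∑ b, C (N a b) * T.p b, T.sg⟩

structure Rc (G : GT ι) (N N' : Matrix ι ι ℝ) (ρ : ℝ) : Prop where
  inv : N * N' = 1
  blk : ∀ a b, (N a b ≠ 0 ∨ N' a b ≠ 0) → G.g a = G.g b ∧ G.w a = G.w b
  nb : ∀ a, ∑ b, |N a b| ≤ ρ

/-- change of centre -/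
def ct (T : AT ι) (c : ι → ℝ) : AT ι := ⟨T.U, fun a => T.p a - C (c a), T.sg⟩

/-- change of coordinates `z = M z'` -/
def co (G : GT ι) (M M' : Matrix ι ι ℤ) : GT ι :=
  ⟨G.g, G.w, G.A * M.map (Int.cast : ℤ → ℝ), M'.map (Int.cast : ℤ → ℝ) * G.B,
    fun a => ∑ b, C (M' a b : ℝ) * aeval (sb M) (G.q b), G.ex⟩

def coT (T : AT ι) (M : Matrix ι ι ℤ) : AT ι := ⟨T.U, fun a => aeval (sb M) (T.p a), T.sg⟩

structure Co (G : GT ι) (M M' : Matrix ι ι ℤ) (ρ : ℝ) : Prop where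
  inv : M * M' = 1
  blk : ∀ a b, (M a b ≠ 0 ∨ M' a b ≠ 0) → G.g a = G.g b ∧ G.w a = G.w b
  ex : ∀ a b, (M a b ≠ 0 ∨ M' a b ≠ 0) → a ∈ G.ex → b ∈ G.ex
  nb : ∀ b, ∑ a, |(M a b : ℝ)| ≤ ρ

/-- weighted dilation `z = r + n ^ w z'` -/
def dl (G : GT ι) (n : ℕ) (r z : ι → ℤ) : ι → ℤ := fun b => r b + (n : ℤ) ^ G.w b * z b

def dlG (G : GT ι) (n : ℕ) : GT ι :=
  rc G (Matrix.diagonal fun a => (n : ℝ) ^ G.w a) (Matrix.diagonal fun a => ((n : ℝ) ^ G.w a)⁻¹)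

def dlT (G : GT ι) (T : AT ι) (n : ℕ) (r : ι → ℤ) : AT ι :=
  ⟨T.U, fun a => aeval (fun b => C (r b : ℝ) + C ((n : ℝ) ^ G.w b) * X b) (G.ch T a) -
    (dlG G n).th a, T.sg⟩

/-- narrowing of the windows by the factors `l` -/
def nr (G : GT ι) (l : ι → ℝ) : GT ι := rc G (Matrix.diagonal l) (Matrix.diagonal fun a => (l a)⁻¹)

def nrT (T : AT ι) (l c : ι → ℝ) : AT ι := ct (rcT T (Matrix.diagonal l)) c

section Colour

variable {Γ K : Type} [Fintype Γ] [DecidableEq Γ] [Fintype K] [DecidableEq K] [Inhabited K]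

/-- a choice of copies, normalised outside `e` -/
def rs (e : Finset Γ) (f : Γ → K) : Γ → K := fun c => if c ∈ e then f c else default

/-- variables of the tower of copies -/
abbrev CV (col : ι → Finset Γ) (K : Type) [Fintype K] [DecidableEq K] [Inhabited K] : Type :=
  {x : ι × (Γ → K) // rs (col x.1) x.2 = x.2}

def vx (col : ι → Finset Γ) (f : Γ → K) (a : ι) : CV col K :=
  ⟨(a, rs (col a) f), by funext c; simp only [rs]; split_ifs <;> rfl⟩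

/-- the point of the tower with the copies `f` -/
def pt (col : ι → Finset Γ) (f : Γ → K) (z : CV col K → ℤ) : ι → ℤ := fun a => z (vx col f a)

structure Col (G : GT ι) (col : ι → Finset Γ) : Prop where
  blk : ∀ a b, (G.A a b ≠ 0 ∨ G.B a b ≠ 0) → col a = col b
  sub : ∀ a, ∀ b ∈ (G.q a).vars, col b ⊆ col a
  cov : ∀ a, ∀ m ∈ (G.q a).support, col a ⊆ m.support.biUnion col

def ColT (T : AT ι) (col : ι → Finset Γ) : Prop := ∀ a ∈ T.U, ∀ b ∈ (T.p a).vars, col b ⊆ col a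

def cm (col : ι → Finset Γ) (K : Type) [Fintype K] [DecidableEq K] [Inhabited K]
    (M : Matrix ι ι ℝ) : Matrix (CV col K) (CV col K) ℝ :=
  fun x y => if x.1.2 = y.1.2 then M x.1.1 y.1.1 else 0

/-- the tower of copies -/
def cp (G : GT ι) (col : ι → Finset Γ) (K : Type) [Fintype K] [DecidableEq K] [Inhabited K] :
    GT (CV col K) where
  g := fun x => G.g x.1.1
  w := fun x => G.w x.1.1
  A := cm col K G.A
  B := cm col K G.B
  q := fun x => rename (vx col x.1.2) (G.q x.1.1)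
  ex := univ.filter fun x => x.1.1 ∈ G.ex

def cpT (T : AT ι) (col : ι → Finset Γ) (U' : Finset (CV col K)) : AT (CV col K) :=
  ⟨U', fun x => rename (vx col x.1.2) (T.p x.1.1), fun x => T.sg x.1.1⟩

/-- a closed set of copies -/
def Cl (T : AT ι) (col : ι → Finset Γ) (U' : Finset (CV col K)) : Prop :=
  ∀ x ∈ U', x.1.1 ∈ T.U ∧ ∀ b ∈ T.U, col b ⊆ col x.1.1 → vx col x.1.2 b ∈ U'

/-- all copies of active variables -/
def fu (T : AT ι) (col : ι → Finset Γ) (K : Type) [Fintype K] [DecidableEq K] [Inhabited K] :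
    Finset (CV col K) := univ.filter fun x => x.1.1 ∈ T.U

/-- the number of copies of the colour class `e` -/
def cn (T : AT ι) (col : ι → Finset Γ) (U' : Finset (CV col K)) (e : Finset Γ) : ℕ :=
  (univ.filter fun f : Γ → K => rs e f = f ∧ ∃ a ∈ T.U, col a = e ∧ vx col f a ∈ U').card

/-- conjugation at the odd vertices -/
def cj (f : Γ → Bool) (x : ℂ) : ℂ :=
  if Even (univ.filter fun c => f c = true).card then x else (starRingEnd ℂ) x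

end Colour

/-- one colour: the complement of `W` -/
def c1 (W : Finset ι) : ι → Finset Unit := fun a => if a ∈ W then ∅ else univ

/-! ### Rows -/

def MONO : Prop := ∀ (s : ℕ) (ι : Type) [Fintype ι] [DecidableEq ι] (G : GT ι) (WW : ℕ → ℝ)
  (c Y c' Y' : ℝ), Rr G s WW c Y → 1 ≤ c' → 1 ≤ Y' → c' ≤ c → c' * Y' ≤ c * Y →
    Rr G s WW c' Y' ∧ G.Rg WW c' Y' s

def PULL : Prop := ∀ (s : ℕ) (ι κ : Type) [Fintype ι] [DecidableEq ι] [Fintype κ] [DecidableEq κ]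
  (G : GT ι) (G' : GT κ) (ρ : ℝ), G.Ok s → G'.Ok s → 1 ≤ ρ →
    (∀ M N, Pb G G' M N ρ → ∀ F : MvPolynomial κ ℝ,
      (IsZ F → IsZ (aeval (sb M) F)) ∧ (∀ g, G'.Lo g F → G.Lo g (aeval (sb M) F)) ∧
      (∀ e, G'.Hm e F → G.Hm e (aeval (sb M) F)) ∧
      ∀ e H, e ≤ s → G'.Hm e F → G'.Bd F H → G.Bd (aeval (sb M) F) (ρ ^ s * H)) ∧
    ∀ g H, (∀ (k : κ → ℤ) (x : κ), k x ≠ 0 → x ∉ G'.ex →
        ∃ M N, Pb G G' M N ρ ∧ ∃ a, a ∉ G.ex ∧ ∑ y, k y * M y a ≠ 0) →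
      G.Big g (ρ ^ s * H) → G'.Big g H

/-- widths from any short basis -/
def WDG : Prop := ∀ (s : ℕ) (ι : Type) [Fintype ι] [DecidableEq ι] (G : GT ι) (WW : ℕ → ℝ) (P : ℝ)
  (Um Vm : Matrix ι ι ℤ), G.Ok s → Sz ι P 1 → Antitone WW → (∀ g, 0 ≤ WW g) → Um * Vm = 1 →
    (∀ a b, |∑ c, G.A a c * (Um c b : ℝ)| ≤ Real.exp (WW (G.g a))) → G.Wd fun g => WW g + P ^ 2

/-- change of chart, algebra -/
def RCA : Prop := ∀ (s : ℕ) (ι : Type) [Fintype ι] [DecidableEq ι] (G : GT ι) (N N' : Matrix ι ι ℝ)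
  (ρ : ℝ), G.Ok s → Rc G N N' ρ → (rc G N N').Ok s ∧
    (∀ a, (rc G N N').th a = ∑ b, C (N a b) * G.th b) ∧
    (∀ T a, (rc G N N').ch (rcT T N) a = ∑ b, C (N a b) * G.ch T b) ∧
    (∀ V, G.Bk V → (∀ a b, (N a b ≠ 0 ∨ N' a b ≠ 0) → (a ∈ V ↔ b ∈ V)) → (rc G N N').Bk V ∧
      (rc G N N').dv V =
        |(N'.submatrix (Subtype.val : V → ι) (Subtype.val : V → ι)).det| * G.dv V) ∧
    (∀ T P, G.AOk T P → (∀ a b, (N a b ≠ 0 ∨ N' a b ≠ 0) → (a ∈ T.U ↔ b ∈ T.U)) →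
      (rc G N N').AOk (rcT T N) P) ∧
    ∀ T P c, G.AOk T P → G.AOk (ct T c) P ∧ ∀ a, G.ch (ct T c) a = G.ch T a - C (c a)

/-- change of chart, regularity -/
def RCR : Prop := ∀ (s : ℕ) (ι : Type) [Fintype ι] [DecidableEq ι] (G : GT ι) (N N' : Matrix ι ι ℝ)
  (WW : ℕ → ℝ) (P c Y L : ℝ), Sz ι P Y → 1 ≤ c → 0 ≤ L → Rc G N N' (Real.exp L) →
    Rr G s WW c (Y + (s + 2) * (L + P ^ 2)) → Rr (rc G N N') s (fun g => WW g + (L + P ^ 2)) c Y

/-- change of coordinates, algebra -/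
def COA : Prop := ∀ (s : ℕ) (ι : Type) [Fintype ι] [DecidableEq ι] (G : GT ι) (M M' : Matrix ι ι ℤ)
  (ρ : ℝ), G.Ok s → Co G M M' ρ → (co G M M').Ok s ∧
    (∀ a, (co G M M').th a = aeval (sb M) (G.th a)) ∧
    (∀ T a, (co G M M').ch (coT T M) a = aeval (sb M) (G.ch T a)) ∧
    (∀ (F : MvPolynomial ι ℝ) z, eval (cz z) (aeval (sb M) F) = eval (cz (M.mulVec z)) F) ∧
    ∀ T P, 0 < P → G.AOk T P → (∀ a b, (M a b ≠ 0 ∨ M' a b ≠ 0) → (a ∈ T.U ↔ b ∈ T.U)) →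
      (co G M M').AOk (coT T M) P ∧ Mn (co G M M') (coT T M) = Mn G T ∧
      ∀ (E : Type) [NormedAddCommGroup E] [NormedSpace ℝ E] (h : (ι → ℤ) → E),
        Ex (co G M M') (coT T M) (fun z => h (M.mulVec z)) = Ex G T h

/-- change of coordinates, regularity -/
def COR : Prop := ∀ (s : ℕ) (ι : Type) [Fintype ι] [DecidableEq ι] (G : GT ι) (M M' : Matrix ι ι ℤ)
  (WW : ℕ → ℝ) (P c Y L : ℝ), Sz ι P Y → 1 ≤ c → 0 ≤ L → Co G M M' (Real.exp L) →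
    Rr G s WW c (Y + (L + P ^ 2)) → Rr (co G M M') s (fun g => WW g + P ^ 2) c Y

/-- copies, algebra -/
def CPA : Prop := ∀ (s : ℕ) (ι Γ K : Type) [Fintype ι] [DecidableEq ι] [Fintype Γ] [DecidableEq Γ]
  [Fintype K] [DecidableEq K] [Inhabited K] (G : GT ι) (col : ι → Finset Γ), G.Ok s → Col G col →
    (cp G col K).Ok s ∧
    (∀ f a, (cp G col K).th (vx col f a) = rename (vx col f) (G.th a)) ∧
    (∀ (f : Γ → K) (F : MvPolynomial ι ℝ) z, eval (cz z) (rename (vx col f) F) = eval (cz (pt col f z)) F) ∧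
    Col (cp G col K) (fun x => col x.1.1) ∧
    ∀ T P, G.AOk T P → ColT T col → Cl T col (fu T col K) ∧
      (∀ f : Γ → K, Cl T col (T.U.image (vx col f))) ∧
      ∀ U' : Finset (CV col K), (∀ f a, a ∈ T.U →
          (cp G col K).ch (cpT T col U') (vx col f a) = rename (vx col f) (G.ch T a)) ∧
        (Cl T col U' → (cp G col K).AOk (cpT T col U') P)

/-- copies, regularity -/
def CPR : Prop := ∀ (s : ℕ) (ι Γ K : Type) [Fintype ι] [DecidableEq ι] [Fintype Γ] [DecidableEq Γ]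
  [Fintype K] [DecidableEq K] [Inhabited K] (G : GT ι) (col : ι → Finset Γ) (WW : ℕ → ℝ) (c Y : ℝ),
    0 ≤ c → 0 ≤ Y → Col G col → Rr G s WW c Y → Rr (cp G col K) s WW c Y

/-- copies, expected masses and single points -/
def CPM : Prop := ∀ (s : ℕ) (ι Γ K : Type) [Fintype ι] [DecidableEq ι] [Fintype Γ] [DecidableEq Γ]
  [Fintype K] [DecidableEq K] [Inhabited K] (G : GT ι) (T : AT ι) (P : ℝ) (col : ι → Finset Γ),
    G.Ok s → Col G col → 0 < P → G.AOk T P → ColT T col →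
    (∀ U' : Finset (CV col K), Cl T col U' → Mn (cp G col K) (cpT T col U') =
      ∏ e : Finset Γ, G.mn T.sg (T.U.filter fun a => col a = e) ^ cn T col U' e) ∧
    ∀ (f : Γ → K) (E : Type) [NormedAddCommGroup E] [NormedSpace ℝ E] (h : (ι → ℤ) → E),
      Mn (cp G col K) (cpT T col (T.U.image (vx col f))) = Mn G T ∧
      Ex (cp G col K) (cpT T col (T.U.image (vx col f))) (fun z => h (res T.U (pt col f z))) =
        Ex G T h

/-- the mass of a regular tower, any analytic data -/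
def MS : Prop := ∀ s : ℕ, ∃ c : ℕ, ∀ (ι : Type) [Fintype ι] [DecidableEq ι] (G : GT ι) (T : AT ι)
  (WW : ℕ → ℝ) (P Y : ℝ), Sz ι P Y → G.AOk T P → Rr G s WW (P ^ c) Y →
    0 < Mn G T ∧ |Ex G T (fun _ => (1 : ℝ)) - Mn G T| ≤ Real.exp (-Y) * Mn G T

/-- Fubini along a closed set of variables -/
def FUB : Prop := ∀ (s : ℕ) (ι : Type) [Fintype ι] [DecidableEq ι] (G : GT ι) (T : AT ι) (P : ℝ)
  (W : Finset ι), G.Ok s → 0 < P → G.AOk T P → Cls G T W →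
    G.AOk (T.rs (T.U ∩ W)) P ∧ Mn G T = Mn G (T.rs (T.U ∩ W)) * G.mn T.sg (T.U \ W) ∧
    (∀ y, Summable fun x : Lat (T.U \ W) => G.nu (T.rs (T.U \ W)) (y + x.1)) ∧
    (∃ B : ℝ, ∀ y, Fs G T W (fun _ => (1 : ℝ)) y ≤ B) ∧
    ∀ (E : Type) [NormedAddCommGroup E] [NormedSpace ℝ E] [CompleteSpace E] (h : (ι → ℤ) → E)
      (B : ℝ), (∀ z, ‖h z‖ ≤ B) → Ex G T h = Ex G (T.rs (T.U ∩ W)) (Fs G T W h)

/-- copies of a fibre -/
def DBL : Prop := ∀ (s : ℕ) (ι K : Type) [Fintype ι] [DecidableEq ι] [Fintype K] [DecidableEq K]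
  [Inhabited K] (G : GT ι) (T : AT ι) (P : ℝ) (W : Finset ι), G.Ok s → 0 < P → G.AOk T P →
    Col G (c1 W) → ColT T (c1 W) → Cls G T W ∧
    Mn (cp G (c1 W) K) (cpT T (c1 W) (fu T (c1 W) K)) =
      Mn G (T.rs (T.U ∩ W)) * G.mn T.sg (T.U \ W) ^ Fintype.card K ∧
    ∀ (φ : (ι → ℤ) → ℂ) (H : K → (ι → ℤ) → ℂ) (B : ℝ), (∀ z, ‖φ z‖ ≤ B) → (∀ k z, ‖H k z‖ ≤ B) →
      Ex (cp G (c1 W) K) (cpT T (c1 W) (fu T (c1 W) K))
          (fun z => φ (res W (pt (c1 W) default z)) * ∏ k, H k (pt (c1 W) (fun _ => k) z)) =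
        Ex G (T.rs (T.U ∩ W)) (fun y => φ y * ∏ k, Fs G T W (H k) y)

/-- marginals of a regular tower -/
def FIBR : Prop := ∀ s : ℕ, ∃ c : ℕ, ∀ (ι : Type) [Fintype ι] [DecidableEq ι] (G : GT ι) (T : AT ι)
  (WW : ℕ → ℝ) (P Y : ℝ) (W : Finset ι), Sz ι P Y → G.AOk T P → Rr G s WW (P ^ c) Y →
    Col G (c1 W) → ColT T (c1 W) →
    Ex G (T.rs (T.U ∩ W)) (fun y => |Fs G T W (fun _ => (1 : ℝ)) y - G.mn T.sg (T.U \ W)|) ≤
        Real.exp (-Y) * Mn G T ∧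
    ∀ (E : Type) [NormedAddCommGroup E] [NormedSpace ℝ E] [CompleteSpace E] (h : (ι → ℤ) → E),
      (∀ z, ‖h z‖ ≤ 1) →
      ‖Ex G T (fun z => h (res W z)) - G.mn T.sg (T.U \ W) • Ex G (T.rs (T.U ∩ W)) h‖ ≤
        Real.exp (-Y) * Mn G T

/-- box Cauchy-Schwarz over all colours; `F c` does not see the variables of colour `c` -/
def GCS : Prop := ∀ s r : ℕ, ∃ c : ℕ, ∀ (ι Γ : Type) [Fintype ι] [DecidableEq ι] [Fintype Γ]
  [DecidableEq Γ] (G : GT ι) (T : AT ι) (WW : ℕ → ℝ) (P Y : ℝ) (col : ι → Finset Γ)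
  (H : (ι → ℤ) → ℂ) (F : Γ → (ι → ℤ) → ℂ) (B : ℝ), 0 < Fintype.card Γ → Fintype.card Γ ≤ r → Sz ι P Y → G.AOk T P →
    Rr G s WW (P ^ c) Y → Col G col → ColT T col → (∀ z, ‖H z‖ ≤ B) → (∀ c z, ‖F c z‖ ≤ 1) →
    (∀ c z z', (∀ a, c ∉ col a → z a = z' a) → F c z = F c z') →
    (‖Ex G T (fun z => H z * ∏ c, F c z)‖ / (2 * Mn G T)) ^ 2 ^ Fintype.card Γ ≤
      (Ex (cp G col Bool) (cpT T col (fu T col Bool)) (fun z => ∏ f, cj f (H (pt col f z)))).re /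
        Mn (cp G col Bool) (cpT T col (fu T col Bool))

/-- some narrower window keeps the normalised sum -/
def CELL : Prop := ∀ (s : ℕ) (ι : Type) [Fintype ι] [DecidableEq ι] (G : GT ι) (T : AT ι) (P : ℝ)
  (l : ι → ℝ) (h : (ι → ℤ) → ℝ) (B a : ℝ), G.Ok s → 0 < P → G.AOk T P → (∀ b, 1 ≤ l b) →
    (∀ z, |h z| ≤ B) → a * Mn G T < Ex G T h →
    ∃ c : ι → ℝ, (∀ b, l b = 1 → c b = 0) ∧ (nr G l).AOk (nrT T l c) P ∧
      a * Mn (nr G l) (nrT T l c) < Ex (nr G l) (nrT T l c) h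

/-- weighted classes -/
def CLS : Prop := ∀ (s : ℕ) (ι : Type) [Fintype ι] [DecidableEq ι] (G : GT ι) (T : AT ι) (P : ℝ)
  (n : ℕ), G.Ok s → 0 < P → G.AOk T P → 1 ≤ n →
    (∀ r ∈ Lat T.U, (dlG G n).AOk (dlT G T n r) P ∧
      (∀ a z, eval (cz z) ((dlG G n).ch (dlT G T n r) a) = eval (cz (dl G n r z)) (G.ch T a)) ∧
      Mn (dlG G n) (dlT G T n r) * ∏ a ∈ T.U, (n : ℝ) ^ G.w a = Mn G T) ∧
    ∀ (h : (ι → ℤ) → ℝ) (B a : ℝ), (∀ z, |h z| ≤ B) → a * Mn G T < Ex G T h →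
      ∃ r ∈ Lat T.U, (∀ b, 0 ≤ r b ∧ r b < (n : ℤ) ^ G.w b) ∧
        a * Mn (dlG G n) (dlT G T n r) < Ex (dlG G n) (dlT G T n r) fun z => h (dl G n r z)

end

end Vale.Agent.P057T.Cp
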