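import Vale.Agent.P057T.Cfg.Cut1

/-!
The two point law in one window of one class.
-/

open MvPolynomial Finset
open scoped Real

namespace Vale.Agent.P057T.Cfg

open Vale.Agent.P057T.Eq Vale.Agent.P057T.Cut

noncomputable section

set_option linter.unusedSectionVars false

variable {ι V V' : Type} [Fintype ι] [DecidableEq ι] [Fintype V] [DecidableEq V]
  [Fintype V'] [DecidableEq V']

/-- one term of the exponent -/
def TM (G : GT ι) (T : AT ι) (σ : ℝ) (e : V → ℤ) (c : JI G.w V → ℝ) (z : JI G.w V → ℤ)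
    (x : JI G.w V) : ℝ :=
  (T.sg x.1.1 * (σ * coeff x.1.2 (tp G T e (cz z) x.1.1) - c x)) ^ 2

theorem ww_jet (hJ : JOK) {s : ℕ} {G : GT ι} (hG : G.Ok s) (T : AT ι) (σ : ℝ) (e : V → ℤ)
    (U : Finset (JI G.w V)) (c : JI G.w V → ℝ) (z : JI G.w V → ℤ) :
    ww (jet G V fun _ => 1) (jat G T e (fun _ => 1) U) σ c z =
      Real.exp (-π * ∑ x ∈ U, TM G T σ e c z x) := by
  have h := (hJ s ι V G (fun _ => 1) hG fun _ => one_pos).2.1
  unfold ww TM
  simp only [uv_jet G T e (fun _ => 1) U h, one_mul]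
  rfl

theorem TM_kill (G : GT ι) (T : AT ι) (σ : ℝ) {f : V → V'} (hf : Function.Injective f) {e : V → ℤ}
    {e' : V' → ℤ} (he : ∀ v, e' (f v) = e v) (c : JI G.w V' → ℝ) (z : JI G.w V' → ℤ)
    (x : JI G.w V) :
    TM G T σ e' c z (jm G.w f x) =
      TM G T σ e (fun y => c (jm G.w f y)) (fun y => z (jm G.w f y)) x := by
  unfold TM
  rw [kill_tp G T hf he]
  rfl

theorem TM_pure {G : GT ι} {s : ℕ} (hG : G.Ok s) {T : AT ι} (hp : ∀ a, G.Dl (G.w a) (T.p a))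
    (hU : T.U = univ) (σ : ℝ) {e : V → ℤ} {v : V} (he : e v = 1) (c : JI G.w V → ℝ)
    (z : JI G.w V → ℤ) :
    Real.exp (-π * ∑ a, TM G T σ e c z (pu G.w v a)) =
      ww G T σ (fun a => c (pu G.w v a)) fun a => z (pu G.w v a) := by
  unfold TM ww
  simp only [pure_tp hG hp he, hU]
  rfl

theorem sum_img {I κ : Type} [Fintype I] {φ : I → κ} (hφ : Function.Injective φ) {U : Finset κ}
    (hU : ∀ x, x ∈ U ↔ ∃ i, φ i = x) (h : κ → ℝ) : ∑ x ∈ U, h x = ∑ i, h (φ i) :=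
  (sum_of_injOn φ hφ.injOn (fun i _ => (hU _).2 ⟨i, rfl⟩)
    (fun x hx hx2 => absurd (by obtain ⟨i, hi⟩ := (hU x).1 hx; exact ⟨i, mem_univ _, hi⟩) hx2)
    fun _ _ => rfl).symm

/-- a count with value `μ` -/
def Cv {α : Type} (f : α → ℝ) (μ δ : ℝ) : Prop := Summable f ∧ |∑' z, f z - μ| ≤ δ * μ

theorem Cv.equiv {α β : Type} {f : α → ℝ} {f' : β → ℝ} {μ δ : ℝ} (h : Cv f μ δ) (E : β ≃ α)
    (he : ∀ x, f (E x) = f' x) : Cv f' μ δ := by
  have : f' = fun x => f (E x) := funext fun x => (he x).symm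
  rw [this]
  exact ⟨E.summable_iff.2 h.1, by rw [E.tsum_eq]; exact h.2⟩

theorem cnt_univ {G : GT ι} {T : AT ι} (hU : T.U = univ) {δ σ : ℝ} {n : ℕ} (h : Cnt G T δ n σ)
    (r : ι → ℤ) (c : ι → ℝ) : Cv (fun z : ι → ℤ => ww G T σ c (r + (n : ℤ) • z))
      (G.mn T.sg univ * ((σ * n) ^ Fintype.card ι)⁻¹) δ := by
  have h1 : Cv _ _ _ := h r c
  have h2 := h1.equiv (f' := fun z : ι → ℤ => ww G T σ c (r + (n : ℤ) • z))
    (latE (φ := id) Function.injective_id (U := T.U) (fun x => by simp [hU])).symm fun x => by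
      simp only [latE, Equiv.coe_fn_symm_mk, Function.extend_id]
  rwa [hU, card_univ] at h2

section win

variable {m : ℕ} (w : ι → ℕ) (l : Fin m)

/-- assemble a point of the simplex -/
def asm {α : Type} [Zero α] (y y' : ι → α) (j : JM w l → α) : JI w (Option (Fin m)) → α :=
  Function.extend (ph1 w l) (Sum.elim (Sum.elim y y') j) 0

variable {w l}

theorem asm_0 (hw : ∀ a, 1 ≤ w a) {α : Type} [Zero α] (y y' : ι → α) (j : JM w l → α) (a : ι) :
    asm w l y y' j (pu w none a) = y a :=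
  (ph1_inj w l hw).extend_apply _ _ (Sum.inl (Sum.inl a))

theorem asm_1 (hw : ∀ a, 1 ≤ w a) {α : Type} [Zero α] (y y' : ι → α) (j : JM w l → α) (a : ι) :
    asm w l y y' j (pu w (some l) a) = y' a :=
  (ph1_inj w l hw).extend_apply _ _ (Sum.inl (Sum.inr a))

theorem asm_2 (hw : ∀ a, 1 ≤ w a) {α : Type} [Zero α] (y y' : ι → α) (j : JM w l → α)
    (x : JM w l) : asm w l y y' j x.1 = j x :=
  (ph1_inj w l hw).extend_apply _ _ (Sum.inr x)

theorem asm_eq (hw : ∀ a, 1 ≤ w a) {α : Type} [Zero α] (z : JI w (Option (Fin m)) → α) :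
    asm w l (fun a => z (pu w none a)) (fun a => z (pu w (some l) a)) (fun j => z j.1) = z := by
  funext x
  obtain ⟨(a | a) | j, rfl⟩ := ph1_surj w l x
  exacts [asm_0 hw _ _ _ a, asm_1 hw _ _ _ a, asm_2 hw _ _ _ j]

def E1 (hw : ∀ a, 1 ≤ w a) (l : Fin m) :
    ((ι → ℤ) × (ι → ℤ)) × (JM w l → ℤ) ≃ (JI w (Option (Fin m)) → ℤ) where
  toFun := fun p => asm w l p.1.1 p.1.2 p.2
  invFun := fun z => ((fun a => z (pu w none a), fun a => z (pu w (some l) a)), fun j => z j.1)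
  left_inv := fun p => by simp only [asm_0 hw, asm_1 hw, asm_2 hw]
  right_inv := fun z => asm_eq hw z

def E4 (w : ι → ℕ) (l : Fin m) (S : Finset (Bool × Bool)) :
    (((ι → ℤ) × (ι → ℤ)) × ((ι → ℤ) × (ι → ℤ))) × (S → JM w l → ℤ) ≃
      (((Bool ⊕ Bool) × ι) ⊕ (S × JM w l) → ℤ) where
  toFun := fun p => Sum.elim (fun q => Sum.elim (sel p.1.1) (sel p.1.2) q.1 q.2)
    fun q => p.2 q.1 q.2
  invFun := fun x => (((fun a => x (Sum.inl (Sum.inl false, a)), fun a => x (Sum.inl (Sum.inl true, a))),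
    (fun a => x (Sum.inl (Sum.inr false, a)), fun a => x (Sum.inl (Sum.inr true, a)))),
    fun ab j => x (Sum.inr (ab, j)))
  left_inv := fun _ => rfl
  right_inv := fun x => by
    funext i
    rcases i with ⟨(_ | _) | (_ | _), a⟩ | ⟨ab, j⟩ <;> rfl

variable {G : GT ι} {s : ℕ} {T : AT ι}

/-- the weight of the mixed coordinates -/
def tj (G : GT ι) (T : AT ι) (σ : ℝ) (n : ℕ) (l : Fin m) (r : JI G.w (Option (Fin m)) → ℤ)
    (c : JI G.w (Option (Fin m)) → ℝ) (p : (ι → ℤ) × (ι → ℤ)) (j : JM G.w l → ℤ) : ℝ :=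
  Real.exp (-π * ∑ x : JM G.w l, TM G T σ (e1 l) c (r + (n : ℤ) • asm G.w l p.1 p.2 j) x.1)

/-- the weight of a base point -/
def gv (G : GT ι) (T : AT ι) (σ : ℝ) (n : ℕ) (v : Option (Fin m))
    (r : JI G.w (Option (Fin m)) → ℤ) (c : JI G.w (Option (Fin m)) → ℝ) (y : ι → ℤ) : ℝ :=
  ww G T σ (fun a => c (pu G.w v a)) ((fun a => r (pu G.w v a)) + (n : ℤ) • y)

theorem W1 (hG : G.Ok s) (hp : ∀ a, G.Dl (G.w a) (T.p a)) (hU : T.U = univ) (σ : ℝ) (n : ℕ)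
    (r : JI G.w (Option (Fin m)) → ℤ) (c : JI G.w (Option (Fin m)) → ℝ)
    (p : ((ι → ℤ) × (ι → ℤ)) × (JM G.w l → ℤ)) :
    Real.exp (-π * ∑ x, TM G T σ (e1 l) c (r + (n : ℤ) • E1 hG.w1 l p) x) =
      pw (gv G T σ n none r c) (gv G T σ n (some l) r c) p.1 * tj G T σ n l r c p.1 p.2 := by
  rw [sum_img (ph1_inj G.w l hG.w1) (fun x => ⟨fun _ => ph1_surj G.w l x, fun _ => mem_univ _⟩),
    Fintype.sum_sum_type, Fintype.sum_sum_type, mul_add, mul_add, Real.exp_add, Real.exp_add]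
  simp only [ph1, Sum.elim_inl, Sum.elim_inr]
  rw [TM_pure hG hp hU σ (v := none) (by simp [e1]), TM_pure hG hp hU σ (v := some l) (by simp [e1])]
  simp only [pw, gv, tj, E1, Equiv.coe_fn_mk, Pi.add_apply, Pi.smul_apply, asm_0 hG.w1, asm_1 hG.w1]
  rfl

theorem W4 (hG : G.Ok s) (hp : ∀ a, G.Dl (G.w a) (T.p a)) (hU : T.U = univ) (σ : ℝ) (n : ℕ)
    (r : JI G.w (Option (Fin m)) → ℤ) (c : JI G.w (Option (Fin m)) → ℝ) (S : Finset (Bool × Bool))
    (p : (((ι → ℤ) × (ι → ℤ)) × ((ι → ℤ) × (ι → ℤ))) × (S → JM G.w l → ℤ)) (z : JI G.w (V4 m) → ℤ)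
    (hz : ∀ i, z (ph4 G.w l S i) = E4 G.w l S p i) :
    Real.exp (-π * ∑ x ∈ UD G.w (D4 l S), TM G T σ (e4 m) (fun x => c (jm G.w (mg l) x))
        ((fun x => r (jm G.w (mg l) x)) + (n : ℤ) • z) x) =
      pw (pw (gv G T σ n none r c) (gv G T σ n none r c))
        (pw (gv G T σ n (some l) r c) (gv G T σ n (some l) r c)) p.1 *
      ∏ ab : S, tj G T σ n l r c (sel p.1.1 ab.1.1, sel p.1.2 ab.1.2) (p.2 ab) := by
  have z0 : ∀ b a, z (pu G.w (Sum.inl (Sum.inl b)) a) = sel p.1.1 b a :=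
    fun b a => hz (Sum.inl (Sum.inl b, a))
  have z1 : ∀ b a, z (pu G.w (Sum.inl (Sum.inr b)) a) = sel p.1.2 b a :=
    fun b a => hz (Sum.inl (Sum.inr b, a))
  have z2 : ∀ ab : S, (fun y => z (jm G.w (fa l ab.1) y)) =
      asm G.w l (sel p.1.1 ab.1.1) (sel p.1.2 ab.1.2) (p.2 ab) := by
    intro ab
    rw [← asm_eq (l := l) hG.w1 fun y => z (jm G.w (fa l ab.1) y)]
    congr 1
    · funext a
      rw [jm_pu]
      exact z0 _ a
    · funext a
      rw [jm_pu, fa_l]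
      exact z1 _ a
    · funext j
      exact hz (Sum.inr (ab, j))
  rw [sum_img (ph4_inj G.w l hG.w1 S) (mem_D4 G.w l S), Fintype.sum_sum_type, mul_add, Real.exp_add,
    Fintype.sum_prod_type, Fintype.sum_prod_type, mul_sum, mul_sum, Real.exp_sum, Real.exp_sum]
  simp only [ph4, Sum.elim_inl, Sum.elim_inr]
  congr 1
  · rw [prod_congr rfl fun b _ => TM_pure hG hp hU σ (v := Sum.inl b) (e := e4 m) rfl _ _]
    simp only [Fintype.prod_sum_type, Fintype.prod_bool, Pi.add_apply, Pi.smul_apply, jm_pu, z0, z1,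
      mg, pw, gv, sel, cond_true, cond_false]
    rw [mul_comm (ww _ _ _ _ _), mul_comm (ww _ _ _ (fun a => c (pu G.w (some l) a)) _)]
    rfl
  · refine prod_congr rfl fun ab _ => ?_
    simp only [TM_kill G T σ (fa_inj l ab.1) (e4_fa l ab.1), jm_jm (mg_fa l ab.1), tj, ← z2 ab,
      Pi.add_apply, Pi.smul_apply]
    rfl

theorem ww_pos (G : GT ι) (T : AT ι) (σ : ℝ) (c : ι → ℝ) (z : ι → ℤ) : 0 < ww G T σ c z :=
  Real.exp_pos _

/-- the two point law in one window -/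
theorem win (hG : G.Ok s) (hp : ∀ a, G.Dl (G.w a) (T.p a)) (hU : T.U = univ) {σ : ℝ} {n : ℕ}
    {μ Ψ δ ε : ℝ} (hμ : 0 ≤ μ) (hΨ : 0 ≤ Ψ) (hδ : 0 ≤ δ) (hδ1 : δ ≤ 1 / 2) (hε : 0 ≤ ε)
    (h1 : ∀ r c, Cv (fun z : ι → ℤ => ww G T σ c (r + (n : ℤ) • z)) μ (δ ^ 4))
    (h2 : ∀ r c, Cv (fun z : JI G.w (Option (Fin m)) → ℤ =>
      Real.exp (-π * ∑ x, TM G T σ (e1 l) c (r + (n : ℤ) • z) x)) (μ ^ 2 * Ψ) (δ ^ 4))
    (h4 : ∀ S r c, Cv (fun z : Lat (UD G.w (D4 l S)) =>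
      Real.exp (-π * ∑ x ∈ UD G.w (D4 l S), TM G T σ (e4 m) c (r + (n : ℤ) • z.1) x))
      (μ ^ 4 * Ψ ^ S.card) (δ ^ 4))
    {F F' : (ι → ℤ) → ℝ} (hF : ∀ z, |F z| ≤ 1) (hF' : ∀ z, |F' z| ≤ 1)
    (hs : ∀ r c, |∑' z : ι → ℤ, ww G T σ c (r + (n : ℤ) • z) * F' (r + (n : ℤ) • z)| ≤ ε * μ)
    (r : JI G.w (Option (Fin m)) → ℤ) (c : JI G.w (Option (Fin m)) → ℝ) :
    |∑' z : JI G.w (Option (Fin m)) → ℤ,
        Real.exp (-π * ∑ x, TM G T σ (e1 l) c (r + (n : ℤ) • z) x) *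
          (F (fun a => (r + (n : ℤ) • z) (pu G.w none a)) *
            F' fun a => (r + (n : ℤ) • z) (pu G.w (some l) a))| ≤
      (3 * δ + 2 * ε) * ∑' z : JI G.w (Option (Fin m)) → ℤ,
        Real.exp (-π * ∑ x, TM G T σ (e1 l) c (r + (n : ℤ) • z) x) := by
  have d4 : δ ^ 4 ≤ 1 / 16 := (pow_le_pow_left₀ hδ hδ1 4).trans (by norm_num)
  have wg : ∀ v c, Wt (gv G T σ n v r c) := fun v c => ⟨fun _ => (ww_pos _ _ _ _ _).le, (h1 _ _).1⟩
  have mg' : ∀ v, ∑' y, gv G T σ n v r c y ≤ 17 / 16 * μ := fun v => by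
    have := (abs_le.1 (h1 (fun a => r (pu G.w v a)) fun a => c (pu G.w v a)).2).2
    unfold gv
    nlinarith
  have h2' := fun c => (h2 r c).equiv (E1 hG.w1 l) (W1 hG hp hU σ n r c)
  have tn : ∀ c p j, 0 ≤ tj G T σ n l r c p j := fun _ _ _ => (Real.exp_pos _).le
  have hθ : ∀ p, Wt (tj G T σ n l r c p) ∧ ∑' j, tj G T σ n l r c p j ≤ 2 * (μ ^ 2 * Ψ) := by
    intro p
    set c' := asm G.w l (fun a => σ * uv G T ((fun a => r (pu G.w none a)) + (n : ℤ) • p.1) a)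
      (fun a => σ * uv G T ((fun a => r (pu G.w (some l) a)) + (n : ℤ) • p.2) a) fun j => c j.1
      with hc'
    have e1' : tj G T σ n l r c' p = tj G T σ n l r c p := by
      funext j
      simp only [tj, TM, hc', asm_2 hG.w1]
    have e2 : pw (gv G T σ n none r c') (gv G T σ n (some l) r c') p = 1 := by
      simp [pw, gv, ww, hc', asm_0 hG.w1, asm_1 hG.w1]
    obtain ⟨a1, a2⟩ := h2' c'
    have a3 := a1.prod_factor p
    simp only [e2, one_mul, e1'] at a3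
    refine ⟨⟨tn c p, a3⟩, ?_⟩
    have a4 := a1.prod.le_tsum p fun q _ => tsum_nonneg fun j =>
      mul_nonneg (((wg _ _).pw (wg _ _)).nn _) (tn _ _ _)
    simp only [e2, one_mul, e1'] at a4
    rw [← a1.tsum_prod] at a4
    have a5 := (abs_le.1 a2).2
    have : 0 ≤ μ ^ 2 * Ψ := by positivity
    nlinarith
  have bΘ : Bd fun p => ∑' j, tj G T σ n l r c p j :=
    ⟨_, fun p => by rw [abs_of_nonneg (hθ p).1.mass_nn]; exact (hθ p).2⟩
  have key := cut16 (wg none c) (wg (some l) c)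
    (F := fun y => F ((fun a => r (pu G.w none a)) + (n : ℤ) • y))
    (G := fun y => F' ((fun a => r (pu G.w (some l) a)) + (n : ℤ) • y))
    (fun _ => hF _) (fun _ => hF' _) bΘ (M := μ ^ 4) (δ := δ ^ 4) hΨ fun S => by
      obtain ⟨a1, a2⟩ := (h4 S (fun x => r (jm G.w (mg l) x)) fun x => c (jm G.w (mg l) x)).equiv
        ((E4 G.w l S).trans
          (@latE _ _ _ _ (Classical.decEq _) _ (ph4_inj G.w l hG.w1 S) _ (mem_D4 G.w l S)).symm)
        fun p => W4 hG hp hU σ n r c S p _ fun i =>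
          (ph4_inj G.w l hG.w1 S).extend_apply (E4 G.w l S p) 0 i
      rw [a1.tsum_prod] at a2
      simp only [tsum_mul_left] at a2
      rw [tsum_congr fun p => by rw [tsum_pi_prod _ fun ab => (hθ _).1]] at a2
      rw [tsum_congr fun p => by rw [prod_coe_sort S fun ab =>
        ∑' j, tj G T σ n l r c (sel p.1 ab.1, sel p.2 ab.2) j]] at a2
      exact a2
  obtain ⟨b1, b2⟩ := h2' c
  have e3 : ∑' z : JI G.w (Option (Fin m)) → ℤ,
      Real.exp (-π * ∑ x, TM G T σ (e1 l) c (r + (n : ℤ) • z) x) *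
        (F (fun a => (r + (n : ℤ) • z) (pu G.w none a)) *
          F' fun a => (r + (n : ℤ) • z) (pu G.w (some l) a)) =
      Ex (pw (gv G T σ n none r c) (gv G T σ n (some l) r c)) fun p =>
        F ((fun a => r (pu G.w none a)) + (n : ℤ) • p.1) *
          F' ((fun a => r (pu G.w (some l) a)) + (n : ℤ) • p.2) * ∑' j, tj G T σ n l r c p j := by
    rw [← (E1 hG.w1 l).tsum_eq]
    simp only [W1 hG hp hU]
    have b3 := (Wt.mk (fun p => mul_nonneg (((wg _ _).pw (wg _ _)).nn _) (tn _ _ _)) b1).mul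
      (h := fun p => F (fun a => (r + (n : ℤ) • E1 hG.w1 l p) (pu G.w none a)) *
        F' fun a => (r + (n : ℤ) • E1 hG.w1 l p) (pu G.w (some l) a))
      (Bd.mul ⟨1, fun _ => hF _⟩ ⟨1, fun _ => hF' _⟩)
    rw [b3.tsum_prod]
    refine tsum_congr fun p => ?_
    beta_reduce
    rw [← tsum_mul_left, ← tsum_mul_left]
    refine tsum_congr fun j => ?_
    simp only [E1, Equiv.coe_fn_mk, Pi.add_apply, Pi.smul_apply, asm_0 hG.w1, asm_1 hG.w1]
    rw [mul_assoc, mul_comm (tj _ _ _ _ _ _ _ _ _)]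
    rfl
  rw [e3]
  have c1 := abs_Ex_le (wg none c)
    (h := fun y => F ((fun a => r (pu G.w none a)) + (n : ℤ) • y)) fun _ => hF _
  have c2 : |Ex (gv G T σ n (some l) r c)
      fun y => F' ((fun a => r (pu G.w (some l) a)) + (n : ℤ) • y)| ≤ ε * μ := hs _ _
  have c3 := (abs_le.1 (h2 r c).2).1
  set X := Ex (pw (gv G T σ n none r c) (gv G T σ n (some l) r c)) _
  set A := Ex (gv G T σ n none r c) _
  set B := Ex (gv G T σ n (some l) r c) _
  have c4 : |X - Ψ * (A * B)| ≤ 17 / 16 * μ * (2 * δ * (μ * Ψ)) := by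
    refine le_of_pow_le_pow_left₀ (n := 4) (by norm_num) (by positivity) ?_
    rw [← abs_pow, abs_of_nonneg (by positivity)]
    refine key.trans ?_
    calc _ ≤ (17 / 16 * μ) ^ 2 * (17 / 16 * μ) ^ 2 * (16 * δ ^ 4 * (μ ^ 4 * Ψ ^ 4)) := by
          have := (wg none c).mass_nn
          have := (wg (some l) c).mass_nn
          gcongr
          exacts [mg' _, mg' _]
      _ = _ := by ring
  have c5 : |Ψ * (A * B)| ≤ Ψ * (17 / 16 * μ * (ε * μ)) := by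
    rw [abs_mul, abs_mul, abs_of_nonneg hΨ]
    refine mul_le_mul_of_nonneg_left (mul_le_mul ?_ c2 (abs_nonneg _) (by positivity)) hΨ
    linarith [mg' none]
  have c6 : |X| ≤ |X - Ψ * (A * B)| + |Ψ * (A * B)| := by
    simpa using abs_add_le (X - Ψ * (A * B)) (Ψ * (A * B))
  have c7 : 0 ≤ μ ^ 2 * Ψ := by positivity
  have c8 : 15 / 16 * (μ ^ 2 * Ψ) ≤ ∑' z : JI G.w (Option (Fin m)) → ℤ,
      Real.exp (-π * ∑ x, TM G T σ (e1 l) c (r + (n : ℤ) • z) x) := by nlinarith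
  calc |X| ≤ (17 / 8 * δ + 17 / 16 * ε) * (μ ^ 2 * Ψ) := by nlinarith
    _ ≤ (3 * δ + 2 * ε) * (15 / 16 * (μ ^ 2 * Ψ)) := by nlinarith
    _ ≤ _ := mul_le_mul_of_nonneg_left c8 (by positivity)

end win

end

end Vale.Agent.P057T.Cfg
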