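import Vale.Agent.P057T.Cfg.Cut3
import Vale.Agent.P057T.Cfg.Mult
import Vale.Agent.P057T.Cfg.Subs
import Vale.Agent.P057T.Cfg.Cln
import Vale.Agent.P057T.Cfg.KilH88
import Vale.Agent.P057T.Cfg.Lift
import Vale.Agent.P057T.Sb.All

/-! Closed forms of the rows of `Cfg` and of the start of the iteration. -/

namespace Vale.Agent.P057T.Cfg.All

open Vale.Agent.P057T.Eq Vale.Agent.P057T.Eq.All Vale.Agent.P057T.Cfg

theorem cutgc : CUTG := cutg jok (mult jok detc) subs
theorem cutc : CUT := cut jok (mult jok detc) subs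
theorem liftc : LIFT := lift (cln H88.kil cutc) jok
theorem sublc : Sb.SUBL := Sb.All.sublc liftc
theorem startc : Sb.START := Sb.All.startc liftc

end Vale.Agent.P057T.Cfg.All
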