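import Vale.Agent.P057T.CleanH88
import Vale.Agent.P057T.Cfg.Jok
import Vale.Agent.P057T.Cfg.Bas
import Vale.Agent.P057T.Eq.Summ
import Vale.Agent.P057T.Eq.Mono

/-! Cleaning a family of boxes with the two point law. -/

set_option linter.all false

open Finset
open scoped BigOperators Real

namespace Vale.Agent.P057T.H88

open Vale.Agent.P057L Vale.Agent.P057T.LiftC

noncomputable section

variable {ι : Type} [Fintype ι] [DecidableEq ι]

/-- the kernel moves the weight `W` to the weight `W'` on every class -/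
structure Rp (W W' : (ι → ℤ) → ℝ) (K : (ι → ℤ) → (ι → ℤ) → ℝ) (Ls : ℕ) (δ : ℝ) : Prop where
  w0 : ∀ x, 0 ≤ W x
  w0' : ∀ x, 0 ≤ W' x
  k0 : ∀ x z, 0 ≤ K x z
  sw : Summable W
  sw' : Summable W'
  sk : ∀ z, Summable fun x => W x * K x z
  rep : ∀ L, 1 ≤ L → L ≤ Ls → ∀ r z,
    |(L : ℝ) ^ Fintype.card ι * (∑' x, cl L r x * (W x * K x z)) - W' z| ≤ δ * W' z

theorem kill1' {W W' F : (ι → ℤ) → ℝ} {K : (ι → ℤ) → (ι → ℤ) → ℝ} {Ls : ℕ} {δ B : ℝ}
    (hR : Rp W W' K Ls δ) (hF : ∀ x, |F x| ≤ B) (g h : ℕ) (hg : 1 ≤ g) (hh : 1 ≤ h)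
    (hL : Nat.lcm g h ≤ Ls) (y : ι → ℤ) :
    Summable (fun x => cl g y x * (W x * Pk K F h x)) ∧
    |Ac W (Pk K F h) y g - Ac W' F y (Nat.gcd g h)| ≤
      δ * B * Ac W' (fun _ => 1) y (Nat.gcd g h) := by
  have hB : 0 ≤ B := (abs_nonneg _).trans (hF 0)
  have hl1 : 1 ≤ Nat.lcm g h := Nat.lcm_pos hg hh
  have hLs : 1 ≤ Ls := hl1.trans hL
  set D := Fintype.card ι with hD
  set e := Nat.gcd g h with he
  set L := Nat.lcm g h with hLd
  have hprod : Summable fun p : (ι → ℤ) × (ι → ℤ) => W p.2 * K p.2 p.1 := by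
    refine (summable_prod_of_nonneg fun p => mul_nonneg (hR.w0 _) (hR.k0 _ _)).2
      ⟨fun z => hR.sk z, ?_⟩
    refine Summable.of_nonneg_of_le (fun z => tsum_nonneg fun x => mul_nonneg (hR.w0 _)
      (hR.k0 _ _)) (fun z => ?_) (hR.sw'.mul_left (1 + δ))
    have := hR.rep 1 le_rfl hLs 0 z
    simp only [cl_one, one_mul, Nat.cast_one, one_pow] at this
    have := (abs_le.1 this).2
    linarith
  let G : (ι → ℤ) × (ι → ℤ) → ℝ := fun p =>
    cl g y p.2 * cl h p.2 p.1 * (W p.2 * K p.2 p.1) * F p.1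
  have hG : Summable G := by
    refine Summable.of_norm_bounded (hprod.mul_right B) fun p => ?_
    rw [Real.norm_eq_abs]
    simp only [G]
    rw [abs_mul]
    refine mul_le_mul ?_ (hF _) (abs_nonneg _) (mul_nonneg (hR.w0 _) (hR.k0 _ _))
    rw [mul_assoc]
    refine (abs_cl_mul _ _ _ _).trans ((abs_cl_mul _ _ _ _).trans ?_)
    rw [abs_of_nonneg (mul_nonneg (hR.w0 _) (hR.k0 _ _))]
  have hx : ∀ x, cl g y x * (W x * Pk K F h x) = (h : ℝ) ^ D * ∑' z, G (z, x) := by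
    intro x
    simp only [Pk, G]
    rw [← hD, mul_left_comm (W x), mul_left_comm (cl g y x), ← tsum_mul_left, ← tsum_mul_left]
    congr 1
    refine tsum_congr fun z => ?_
    ring
  have hsw : Summable fun p : (ι → ℤ) × (ι → ℤ) => G p.swap := hG.prod_symm
  have hs1 : Summable fun x => ∑' z, G (z, x) := hsw.prod
  have hs2 : Summable fun z => ∑' x, G (z, x) := hG.prod
  refine ⟨by simp_rw [hx]; exact hs1.mul_left _, ?_⟩
  have hcomm : ∑' x, ∑' z, G (z, x) = ∑' z, ∑' x, G (z, x) := by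
    exact (Summable.tsum_comm (f := fun z x => G (z, x)) hG)
  have hgh : (g : ℝ) ^ D * (h : ℝ) ^ D = (e : ℝ) ^ D * (L : ℝ) ^ D := by
    rw [← mul_pow, ← mul_pow]
    congr 1
    exact_mod_cast (Nat.gcd_mul_lcm g h).symm
  have hz : ∀ z, |(L : ℝ) ^ D * (∑' x, G (z, x)) - cl e y z * (W' z * F z)| ≤
      δ * B * (cl e y z * (W' z * 1)) := by
    intro z
    obtain ⟨r, hr⟩ := cl_mul g h y z
    have h1 : ∑' x, G (z, x) = cl e y z * F z * ∑' x, cl L r x * (W x * K x z) := by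
      rw [← tsum_mul_left]
      refine tsum_congr fun x => ?_
      simp only [G]
      rw [hr x]; ring
    have h2 : (L : ℝ) ^ D * (∑' x, G (z, x)) - cl e y z * (W' z * F z) =
        cl e y z * (F z * ((L : ℝ) ^ D * (∑' x, cl L r x * (W x * K x z)) - W' z)) := by
      rw [h1]; ring
    rw [h2, abs_mul, abs_mul, abs_of_nonneg (cl_nonneg _ _ _)]
    have h3 := hR.rep L hl1 hL r z
    calc _ ≤ cl e y z * (B * (δ * W' z)) :=
          mul_le_mul_of_nonneg_left (mul_le_mul (hF z) h3 (abs_nonneg _) hB) (cl_nonneg _ _ _)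
      _ = _ := by ring
  have s1 := sum_cl hR.w0' hR.sw' hF e y
  have s2 := sum_cl (F := fun _ => (1 : ℝ)) (B := 1) hR.w0' hR.sw' (fun _ => by simp) e y
  have hA : Ac W (Pk K F h) y g = (e : ℝ) ^ D * ∑' z, (L : ℝ) ^ D * ∑' x, G (z, x) := by
    simp only [Ac]
    rw [← hD]
    simp_rw [hx]
    rw [tsum_mul_left, tsum_mul_left, hcomm, ← mul_assoc, hgh, mul_assoc]
  rw [hA]
  simp only [Ac]
  rw [← hD, ← mul_sub, abs_mul, abs_of_nonneg (by positivity : (0 : ℝ) ≤ (e : ℝ) ^ D),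
    ← (hs2.mul_left _).tsum_sub s1, mul_left_comm, ← tsum_mul_left (a := δ * B)]
  refine mul_le_mul_of_nonneg_left ?_ (by positivity)
  have s3 := (hs2.mul_left ((L : ℝ) ^ D)).sub s1
  have := norm_tsum_le_tsum_norm (f := fun z =>
    (L : ℝ) ^ D * (∑' x, G (z, x)) - cl e y z * (W' z * F z)) s3.norm
  simp only [Real.norm_eq_abs] at this
  exact this.trans (s3.abs.tsum_le_tsum hz (s2.mul_left _))

theorem kill' {W W' F : (ι → ℤ) → ℝ} {K : (ι → ℤ) → (ι → ℤ) → ℝ} {Ls : ℕ} {δ B M : ℝ}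
    (hR : Rp W W' K Ls δ) (hδ : 0 ≤ δ) (hF : ∀ x, |F x| ≤ B) (g n Q : ℕ) (hg : 1 ≤ g) (hgQ : g ≤ Q)
    (hn : 1 ≤ n) (hL : n * Q ^ 2 ≤ Ls) (y : ι → ℤ)
    (hM : ∀ e, e ∣ g → Ac W' (fun _ => 1) y e ≤ M) :
    |Ac W (fun x => Rem (fun h => Pk K F h x) (F x) n Q) y g - (Ac W F y g - Ac W' F y g)| ≤
      (Q : ℝ) ^ 2 * (δ * B * M) := by
  have hB : 0 ≤ B := (abs_nonneg _).trans (hF 0)
  have key : ∀ n1 ∈ Icc 1 Q, ∀ d ∈ n1.divisors,
      Summable (fun x => cl g y x * (W x * Pk K F (n * d) x)) ∧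
      |Ac W (Pk K F (n * d)) y g - Ac W' F y (Nat.gcd g (n * d))| ≤ δ * B * M := by
    intro n1 hn1 d hd
    have hd1 : 1 ≤ d := Nat.pos_of_mem_divisors hd
    have hdQ : d ≤ Q := (Nat.divisor_le hd).trans (mem_Icc.1 hn1).2
    have hl : Nat.lcm g (n * d) ≤ Ls := by
      refine (Nat.le_of_dvd (by positivity) (Nat.lcm_dvd_mul g (n * d))).trans (le_trans ?_ hL)
      calc g * (n * d) ≤ Q * (n * Q) := Nat.mul_le_mul hgQ (Nat.mul_le_mul_left n hdQ)
        _ = n * Q ^ 2 := by ring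
    obtain ⟨h1, h2⟩ := kill1' hR hF g (n * d) hg (Nat.mul_pos hn hd1) hl y
    exact ⟨h1, h2.trans (mul_le_mul_of_nonneg_left (hM _ (Nat.gcd_dvd_left _ _))
      (mul_nonneg hδ hB))⟩
  have hM0 : 0 ≤ δ * B * M := (abs_nonneg _).trans
    (key 1 (mem_Icc.2 ⟨le_rfl, hg.trans hgQ⟩) 1 (by simp)).2
  have s1 := sum_cl hR.w0 hR.sw hF g y
  have hlin : Ac W (fun x => Rem (fun h => Pk K F h x) (F x) n Q) y g =
      Ac W F y g - ∑ n1 ∈ Icc 1 Q, mt (fun d => Ac W (Pk K F (n * d)) y g) n1 := by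
    have e1 : ∀ x, cl g y x * (W x * Rem (fun h => Pk K F h x) (F x) n Q) =
        cl g y x * (W x * F x) - ∑ n1 ∈ Icc 1 Q, ∑ d ∈ n1.divisors,
          (ArithmeticFunction.moebius (n1 / d) : ℝ) * (cl g y x * (W x * Pk K F (n * d) x)) := by
      intro x
      simp only [Rem, LiftC.mt, mul_sub, mul_sum]
      congr 1
      refine sum_congr rfl fun _ _ => sum_congr rfl fun _ _ => by ring
    have s2 : ∀ n1 ∈ Icc 1 Q, Summable fun x => ∑ d ∈ n1.divisors,
        (ArithmeticFunction.moebius (n1 / d) : ℝ) * (cl g y x * (W x * Pk K F (n * d) x)) :=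
      fun n1 hn1 => summable_sum fun d hd => (key n1 hn1 d hd).1.mul_left _
    simp only [Ac, LiftC.mt]
    simp_rw [e1]
    rw [s1.tsum_sub (summable_sum s2), mul_sub, Summable.tsum_finsetSum s2, mul_sum]
    congr 1
    refine sum_congr rfl fun n1 hn1 => ?_
    rw [Summable.tsum_finsetSum fun d hd => (key n1 hn1 d hd).1.mul_left _, mul_sum]
    refine sum_congr rfl fun d _ => ?_
    rw [tsum_mul_left]; ring
  have hmain : ∑ n1 ∈ Icc 1 Q, mt (fun d => Ac W' F y (Nat.gcd g (n * d))) n1 = Ac W' F y g := by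
    have := moebsum (fun e => Ac W' F y (Nat.gcd g (n * e))) g Q hg hgQ
    simp only [← gcd_aux] at this
    rw [this, Nat.gcd_eq_left (Dvd.intro_left n rfl)]
  rw [hlin, sub_sub_sub_cancel_left, ← hmain, ← sum_sub_distrib]
  refine (abs_sum_le_sum_abs _ _).trans ?_
  calc _ ≤ ∑ _n1 ∈ Icc 1 Q, (Q : ℝ) * (δ * B * M) := by
        refine sum_le_sum fun n1 hn1 => ?_
        unfold LiftC.mt
        rw [← sum_sub_distrib]
        refine (abs_sum_le_sum_abs _ _).trans ?_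
        calc _ ≤ ∑ _d ∈ n1.divisors, δ * B * M := by
              refine sum_le_sum fun d hd => ?_
              rw [← mul_sub, abs_mul, abs_sub_comm]
              have h1 : |(ArithmeticFunction.moebius (n1 / d) : ℝ)| ≤ 1 := by
                have := ArithmeticFunction.abs_moebius_le_one (n := n1 / d)
                exact_mod_cast this
              calc _ ≤ 1 * (δ * B * M) :=
                    mul_le_mul h1 (key n1 hn1 d hd).2 (abs_nonneg _) zero_le_one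
                _ = _ := one_mul _
          _ = n1.divisors.card * (δ * B * M) := by rw [sum_const, nsmul_eq_mul]
          _ ≤ Q * (δ * B * M) := by
              refine mul_le_mul_of_nonneg_right ?_ hM0
              exact_mod_cast (Nat.card_divisors_le_self n1).trans (mem_Icc.1 hn1).2
    _ = _ := by simp; ring

theorem abs_rem' (P : ℕ → ℝ) (f B M : ℝ) (n Q : ℕ) (hn : 1 ≤ n) (hM : 0 ≤ M) (hf : |f| ≤ B)
    (hP : ∀ h, 1 ≤ h → h ≤ n * Q → |P h| ≤ M) : |Rem P f n Q| ≤ B + (Q : ℝ) ^ 2 * M := by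
  have e : Rem P f n Q = Rem (fun h => if 1 ≤ h ∧ h ≤ n * Q then P h else 0) f n Q := by
    unfold Rem LiftC.mt
    congr 1
    refine sum_congr rfl fun n1 h1 => sum_congr rfl fun d hd => ?_
    have hd1 : 1 ≤ d := Nat.pos_of_mem_divisors hd
    have hdQ : d ≤ Q := (Nat.divisor_le hd).trans (mem_Icc.1 h1).2
    beta_reduce
    rw [if_pos ⟨Nat.mul_pos hn hd1, Nat.mul_le_mul_left n hdQ⟩]
  rw [e]
  refine abs_rem _ f B M n Q hf fun h => ?_
  split_ifs with hh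
  · exact hP h hh.1 hh.2
  · simpa using hM

theorem tsum_cl (f : (ι → ℤ) → ℝ) {g : ℕ} (hg : 1 ≤ g) (r : ι → ℤ) :
    ∑' z, cl g r z * f z = ∑' z : ι → ℤ, f (r + (g : ℤ) • z) := by
  have hi : Function.Injective fun z : ι → ℤ => r + (g : ℤ) • z := by
    intro a b h
    have h1 : (g : ℤ) • a = (g : ℤ) • b := add_left_cancel h
    exact smul_right_injective _ (by exact_mod_cast (by omega : g ≠ 0)) h1
  rw [← hi.tsum_eq (f := fun z => cl g r z * f z)]
  · refine tsum_congr fun z => ?_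
    rw [cl, if_pos (fun i => by simp), one_mul]
  · intro z hz
    have : cl g r z ≠ 0 := left_ne_zero_of_mul hz
    unfold cl at this
    split_ifs at this with h
    · choose c hc using h
      exact ⟨c, funext fun i => by simp [← hc i]⟩
    · exact absurd rfl this

open Vale.Agent.P057T.Eq Vale.Agent.P057T.Cfg

/-- all points are active -/
def eU {U : Finset ι} (hU : U = univ) : Lat U ≃ (ι → ℤ) where
  toFun z := z.1
  invFun z := ⟨z, fun a ha => absurd (hU ▸ mem_univ a) ha⟩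
  left_inv _ := rfl
  right_inv _ := rfl

theorem ww_pos (G : GT ι) (T : AT ι) (σ : ℝ) (c : ι → ℝ) (z : ι → ℤ) : 0 < ww G T σ c z :=
  Real.exp_pos _

theorem ww_le (G : GT ι) (T : AT ι) (σ : ℝ) (c : ι → ℝ) (z : ι → ℤ) : ww G T σ c z ≤ 1 :=
  Real.exp_le_one_iff.2 (by
    rw [neg_mul, neg_nonpos]; exact mul_nonneg Real.pi_pos.le (sum_nonneg fun _ _ => sq_nonneg _))

/-- counts in the form of class sums -/
def Cc (G : GT ι) (T : AT ι) (δ E : ℝ) : Prop :=
  ∀ (n : ℕ) (σ : ℝ), 1 ≤ n → (n : ℝ) ≤ E → 0 < σ → σ ≤ E → ∀ (r : ι → ℤ) (c : ι → ℝ),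
    Summable (ww G T σ c) ∧
    |Ac (ww G T σ c) (fun _ => 1) r n - G.mn T.sg univ * (σ ^ Fintype.card ι)⁻¹| ≤
      δ * (G.mn T.sg univ * (σ ^ Fintype.card ι)⁻¹)

theorem cc_of {G : GT ι} {T : AT ι} {δ E : ℝ} (hU : T.U = univ)
    (h : ∀ (n : ℕ) (σ : ℝ), 1 ≤ n → (n : ℝ) ≤ E → 0 < σ → σ ≤ E → Cnt G T δ n σ) :
    Cc G T δ E := by
  intro n σ hn hnE hσ hσE r c
  have hn' : (1 : ℝ) ≤ n := by exact_mod_cast hn
  constructor
  · have := (h 1 σ le_rfl (by simpa using hn'.trans hnE) hσ hσE 0 c).1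
    simp only [Nat.cast_one, one_smul, zero_add] at this
    exact (eU hU).summable_iff.1 this
  · have := (h n σ hn hnE hσ hσE r c).2
    rw [show (∑' z : Lat T.U, ww G T σ c (r + (n : ℤ) • z.1)) =
      ∑' z : ι → ℤ, ww G T σ c (r + (n : ℤ) • z) from
        (eU hU).tsum_eq fun z => ww G T σ c (r + (n : ℤ) • z), hU, card_univ] at this
    simp only [Ac, mul_one]
    rw [tsum_cl _ hn]
    have h1 : (0 : ℝ) < (n : ℝ) ^ Fintype.card ι := by positivity
    have h2 := mul_le_mul_of_nonneg_left this h1.le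
    rw [← abs_of_pos h1, ← abs_mul, abs_of_pos h1] at h2
    have e : (n : ℝ) ^ Fintype.card ι * (G.mn T.sg univ * ((σ * n) ^ Fintype.card ι)⁻¹) =
        G.mn T.sg univ * (σ ^ Fintype.card ι)⁻¹ := by
      rw [mul_pow]; field_simp
    rw [mul_sub, e, mul_left_comm, e] at h2
    exact h2

/-- the narrow kernel -/
def Kw (G : GT ι) (T : AT ι) (s0 : ℝ) (x z : ι → ℤ) : ℝ :=
  ww G T s0 (fun a => s0 * uv G T x a) z / (G.mn T.sg univ * (s0 ^ Fintype.card ι)⁻¹)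

theorem ww_conv (G : GT ι) (T : AT ι) {σ s0 S : ℝ} (hS : S ≠ 0) (h : S ^ 2 = σ ^ 2 + s0 ^ 2)
    (c : ι → ℝ) (x z : ι → ℤ) :
    ww G T σ c x * ww G T s0 (fun a => s0 * uv G T x a) z =
      ww G T S (fun a => (σ * c a + s0 ^ 2 * uv G T z a) / S) x *
        ww G T (s0 / S * σ) (fun a => s0 / S * c a) z := by
  unfold ww
  rw [← Real.exp_add, ← Real.exp_add, ← mul_add, ← mul_add, ← sum_add_distrib, ← sum_add_distrib]
  congr 2
  refine sum_congr rfl fun a _ => ?_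
  field_simp
  linear_combination (T.sg a ^ 2 * (c a ^ 2 + s0 ^ 2 * uv G T z a ^ 2 -
    S ^ 2 * uv G T x a ^ 2)) * h

variable {G : GT ι} {T : AT ι} {δ E σ s0 S B η : ℝ} {F : (ι → ℤ) → ℝ}

theorem rp_of (hC : Cc G T δ E) (hm : 0 < G.mn T.sg univ) (hσ : 0 < σ) (hs : 0 < s0) (hS : 0 < S)
    (h : S ^ 2 = σ ^ 2 + s0 ^ 2) (hE : S ≤ E) {Ls : ℕ} (hL1 : 1 ≤ E) (hL : (Ls : ℝ) ≤ E)
    (c : ι → ℝ) :
    Rp (ww G T σ c) (fun z => (s0 / S) ^ Fintype.card ι * ww G T (s0 / S * σ)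
      (fun a => s0 / S * c a) z) (Kw G T s0) Ls δ := by
  have a1 : σ ≤ S := abs_le_of_sq_le_sq' (by nlinarith) hS.le |>.2
  have a2 : s0 ≤ S := abs_le_of_sq_le_sq' (by nlinarith) hS.le |>.2
  have a3 : s0 / S * σ ≤ E := by
    have : s0 / S ≤ 1 := (div_le_one hS).2 a2
    nlinarith
  have k0 : ∀ x z, 0 ≤ Kw G T s0 x z := fun x z =>
    div_nonneg (ww_pos _ _ _ _ _).le (by positivity)
  have sw := (hC 1 σ le_rfl (by simpa using hL1) hσ (a1.trans hE) 0 c).1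
  refine ⟨fun x => (ww_pos _ _ _ _ _).le, fun x => mul_nonneg (by positivity) (ww_pos _ _ _ _ _).le,
    k0, sw, (hC 1 _ le_rfl (by simpa using hL1) (by positivity) a3 0 _).1.mul_left _,
    fun z => ?_, fun L h1 h2 r z => ?_⟩
  · refine Summable.of_nonneg_of_le (fun x => mul_nonneg (ww_pos _ _ _ _ _).le (k0 x z))
      (fun x => mul_le_mul_of_nonneg_left ?_ (ww_pos _ _ _ _ _).le)
      (sw.mul_right (1 / (G.mn T.sg univ * (s0 ^ Fintype.card ι)⁻¹)))
    exact div_le_div_of_nonneg_right (ww_le _ _ _ _ _) (by positivity)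
  · have h3 := (hC L S h1 (le_trans (by exact_mod_cast h2) hL) hS hE r
      (fun a => (σ * c a + s0 ^ 2 * uv G T z a) / S)).2
    set w := ww G T (s0 / S * σ) (fun a => s0 / S * c a) z with hw
    have w0 : 0 < w := ww_pos _ _ _ _ _
    set k := w / (G.mn T.sg univ * (s0 ^ Fintype.card ι)⁻¹) with hk
    have k1 : 0 < k := by positivity
    have e1 : (L : ℝ) ^ Fintype.card ι * (∑' x, cl L r x * (ww G T σ c x * Kw G T s0 x z)) =
        k * Ac (ww G T S fun a => (σ * c a + s0 ^ 2 * uv G T z a) / S) (fun _ => 1) r L := by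
      rw [Ac, mul_left_comm, ← tsum_mul_left (a := k)]
      congr 1
      refine tsum_congr fun x => ?_
      rw [Kw, ← mul_div_assoc, ww_conv G T hS.ne' h, ← hw, hk]
      ring
    have e2 : (s0 / S) ^ Fintype.card ι * w = k * (G.mn T.sg univ * (S ^ Fintype.card ι)⁻¹) := by
      rw [hk, div_pow]; field_simp
    rw [e1, e2, ← mul_sub, abs_mul, abs_of_pos k1, mul_left_comm]
    exact mul_le_mul_of_nonneg_left h3 k1.le

theorem ac_le {W : (ι → ℤ) → ℝ} (hW : ∀ x, 0 ≤ W x) (sw : Summable W) (hF : ∀ x, |F x| ≤ B)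
    (y : ι → ℤ) (g : ℕ) : |Ac W F y g| ≤ B * Ac W (fun _ => 1) y g := by
  have s1 := sum_cl hW sw hF g y
  have s2 := sum_cl (F := fun _ => (1 : ℝ)) (B := 1) hW sw (fun _ => by simp) g y
  simp only [Ac]
  rw [abs_mul, abs_of_nonneg (by positivity : (0 : ℝ) ≤ (g : ℝ) ^ Fintype.card ι), mul_left_comm,
    ← tsum_mul_left (a := B)]
  refine mul_le_mul_of_nonneg_left ?_ (by positivity)
  have := norm_tsum_le_tsum_norm s1.norm
  simp only [Real.norm_eq_abs] at this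
  refine this.trans (s1.abs.tsum_le_tsum (fun z => ?_) (s2.mul_left _))
  rw [abs_mul, abs_mul, abs_of_nonneg (cl_nonneg _ _ _), abs_of_nonneg (hW z)]
  have := mul_le_mul_of_nonneg_left (hF z) (mul_nonneg (cl_nonneg g y z) (hW z))
  nlinarith

theorem ac_lin {W W' : (ι → ℤ) → ℝ} (hW : ∀ x, 0 ≤ W x) (sw : Summable W) (hW' : ∀ x, 0 ≤ W' x)
    (sw' : Summable W') (hF : ∀ x, |F x| ≤ B) (a : ℝ) (y : ι → ℤ) (g : ℕ) :
    Ac (fun x => a * W' x - W x) F y g = a * Ac W' F y g - Ac W F y g := by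
  simp only [Ac]
  rw [mul_left_comm, ← mul_sub, ← tsum_mul_left (a := a),
    ← ((sum_cl hW' sw' hF g y).mul_left a).tsum_sub (sum_cl hW sw hF g y)]
  congr 1
  exact tsum_congr fun z => by ring

theorem ac_diff {W W' : (ι → ℤ) → ℝ} {M : ℝ} (hW : ∀ x, 0 ≤ W x) (sw : Summable W)
    (hW' : ∀ x, 0 ≤ W' x) (sw' : Summable W') (hF : ∀ x, |F x| ≤ B) (hη : 0 ≤ η) (hδ : δ ≤ 1)
    (hM : 0 ≤ M) (h : ∀ x, W x ≤ (1 + η) * W' x) (y : ι → ℤ) (g : ℕ)
    (h1 : |Ac W (fun _ => 1) y g - M| ≤ δ * M) (h2 : |Ac W' (fun _ => 1) y g - M| ≤ δ * M) :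
    |Ac W F y g - Ac W' F y g| ≤ B * ((2 * δ + 4 * η) * M) := by
  have hB : 0 ≤ B := (abs_nonneg _).trans (hF 0)
  have a1 := ac_le (W := fun x => (1 + η) * W' x - W x) (fun x => sub_nonneg.2 (h x))
    ((sw'.mul_left _).sub sw) hF y g
  rw [ac_lin hW sw hW' sw' hF, ac_lin (B := 1) hW sw hW' sw' (fun _ => by simp)] at a1
  have a2 := ac_le hW' sw' hF y g
  obtain ⟨b1, b2⟩ := abs_le.1 h1
  obtain ⟨b3, b4⟩ := abs_le.1 h2
  have a3 : Ac W F y g - Ac W' F y g =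
      -((1 + η) * Ac W' F y g - Ac W F y g) + η * Ac W' F y g := by ring
  rw [a3]
  refine (abs_add_le _ _).trans ?_
  rw [abs_neg, abs_mul, abs_of_nonneg hη]
  have a4 : Ac W' (fun _ => 1) y g ≤ 2 * M := by nlinarith
  have a5 := mul_le_mul_of_nonneg_left a4 hη
  have a6 := mul_le_mul_of_nonneg_left a2 hη
  have a7 : (1 + η) * Ac W' (fun _ => 1) y g - Ac W (fun _ => 1) y g +
      η * Ac W' (fun _ => 1) y g ≤ (2 * δ + 4 * η) * M := by nlinarith
  have a8 := mul_le_mul_of_nonneg_left a7 hB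
  nlinarith

theorem pk_le (hC : Cc G T δ E) (hm : 0 < G.mn T.sg univ) (hs : 0 < s0) (hE : s0 ≤ E) (hδ : δ ≤ 1)
    (hF : ∀ x, |F x| ≤ B) {h : ℕ} (h1 : 1 ≤ h) (h2 : (h : ℝ) ≤ E) (x : ι → ℤ) :
    |Pk (Kw G T s0) F h x| ≤ 2 * B := by
  have hB : 0 ≤ B := (abs_nonneg _).trans (hF 0)
  obtain ⟨a1, a2⟩ := hC h s0 h1 h2 hs hE x (fun a => s0 * uv G T x a)
  have a3 := ac_le (fun z => (ww_pos _ _ _ _ z).le) a1 hF x h
  set M := G.mn T.sg univ * (s0 ^ Fintype.card ι)⁻¹ with hM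
  have M0 : 0 < M := by positivity
  have e : Pk (Kw G T s0) F h x = Ac (ww G T s0 fun a => s0 * uv G T x a) F x h / M := by
    rw [Pk, Ac, mul_div_assoc, ← tsum_div_const]
    congr 1
    refine tsum_congr fun z => ?_
    rw [Kw, ← hM]; ring
  rw [e, abs_div, abs_of_pos M0, div_le_iff₀ M0]
  have a4 : Ac (ww G T s0 fun a => s0 * uv G T x a) (fun _ => 1) x h ≤ 2 * M := by
    nlinarith [(abs_le.1 a2).2]
  nlinarith [mul_le_mul_of_nonneg_left a4 hB]

/-- the remainder has small mean on all windows of the classes of small modulus -/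
theorem win (hC : Cc G T δ E) (hm : 0 < G.mn T.sg univ) (hσ : 0 < σ) (hs : σ ≤ s0)
    (hE : 2 * s0 ≤ E) (hδ0 : 0 ≤ δ) (hδ : δ ≤ 1) (hη : 0 ≤ η)
    (hx : (1 + σ / s0) ^ Fintype.card ι ≤ 1 + η) (hF : ∀ x, |F x| ≤ B) {g n Q : ℕ} (hg : 1 ≤ g)
    (hgQ : g ≤ Q) (hn : 1 ≤ n) (hL : ((n * Q ^ 2 : ℕ) : ℝ) ≤ E) (y : ι → ℤ) (c : ι → ℝ) :
    |Ac (ww G T σ c) (fun x => Rem (fun h => Pk (Kw G T s0) F h x) (F x) n Q) y g| ≤
      (Q : ℝ) ^ 2 * B * (4 * (δ + η)) * (G.mn T.sg univ * (σ ^ Fintype.card ι)⁻¹) := by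
  have hB : 0 ≤ B := (abs_nonneg _).trans (hF 0)
  have s00 : 0 < s0 := hσ.trans_le hs
  set S := √(σ ^ 2 + s0 ^ 2) with hSd
  have hS : 0 < S := Real.sqrt_pos.2 (by positivity)
  have h : S ^ 2 = σ ^ 2 + s0 ^ 2 := Real.sq_sqrt (by positivity)
  have a1 : S ≤ σ + s0 := abs_le_of_sq_le_sq' (by nlinarith) (by positivity) |>.2
  have a2 : s0 ≤ S := abs_le_of_sq_le_sq' (by nlinarith) hS.le |>.2
  have hQ : 1 ≤ Q := hg.trans hgQ
  have le1 : ∀ e : ℕ, e ≤ Q → (e : ℝ) ≤ E := fun e he => le_trans (by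
    exact_mod_cast (by nlinarith : e ≤ n * Q ^ 2)) hL
  have hE1 : 1 ≤ E := by simpa using le1 1 hQ
  have hR := rp_of hC hm hσ s00 hS h (by linarith) hE1 hL c
  set M := G.mn T.sg univ * (σ ^ Fintype.card ι)⁻¹ with hM
  have M0 : 0 < M := by positivity
  have τ1 : s0 / S ≤ 1 := (div_le_one hS).2 a2
  have τ0 : 0 < s0 / S := by positivity
  have mass : ∀ e : ℕ, 1 ≤ e → e ≤ Q → |Ac (fun z => (s0 / S) ^ Fintype.card ι *
      ww G T (s0 / S * σ) (fun a => s0 / S * c a) z) (fun _ => 1) y e - M| ≤ δ * M := by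
    intro e e1 e2
    have b1 := (hC e (s0 / S * σ) e1 (le1 e e2) (by positivity) (by nlinarith) y
      (fun a => s0 / S * c a)).2
    have b2 : M = (s0 / S) ^ Fintype.card ι *
        (G.mn T.sg univ * ((s0 / S * σ) ^ Fintype.card ι)⁻¹) := by
      rw [hM, mul_pow]; field_simp
    have b3 : Ac (fun z => (s0 / S) ^ Fintype.card ι *
        ww G T (s0 / S * σ) (fun a => s0 / S * c a) z) (fun _ => 1) y e =
        (s0 / S) ^ Fintype.card ι *
          Ac (ww G T (s0 / S * σ) (fun a => s0 / S * c a)) (fun _ => 1) y e := by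
      rw [Ac, Ac, mul_left_comm, ← tsum_mul_left (a := (s0 / S) ^ Fintype.card ι)]
      congr 1
      exact tsum_congr fun z => by ring
    rw [b3, b2, ← mul_sub, abs_mul, abs_of_pos (by positivity), mul_left_comm]
    exact mul_le_mul_of_nonneg_left b1 (by positivity)
  have k := kill' (M := 2 * M) hR hδ0 hF g n Q hg hgQ hn le_rfl y fun e he => by
    have := (abs_le.1 (mass e (Nat.pos_of_dvd_of_pos he hg) ((Nat.le_of_dvd hg he).trans hgQ))).2
    nlinarith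
  have d := ac_diff hR.w0 hR.sw hR.w0' hR.sw' hF hη hδ M0.le (fun x => by
    have b1 : ww G T σ c x ≤ ww G T (s0 / S * σ) (fun a => s0 / S * c a) x := by
      refine Real.exp_le_exp.2 ?_
      rw [neg_mul, neg_mul, neg_le_neg_iff]
      refine mul_le_mul_of_nonneg_left (sum_le_sum fun a _ => ?_) Real.pi_pos.le
      have b2 : (s0 / S) ^ 2 ≤ 1 := pow_le_one₀ τ0.le τ1
      nlinarith [mul_le_mul_of_nonneg_right b2 (sq_nonneg (T.sg a * (σ * uv G T x a - c a)))]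
    have b2 : 1 ≤ (1 + η) * (s0 / S) ^ Fintype.card ι := by
      refine le_trans ?_ (mul_le_mul_of_nonneg_right hx (by positivity))
      rw [← mul_pow]
      refine one_le_pow₀ ?_
      rw [← mul_div_assoc, le_div_iff₀ hS, add_mul, div_mul_cancel₀ _ s00.ne']
      linarith
    rw [← mul_assoc]
    exact b1.trans (le_mul_of_one_le_left (ww_pos _ _ _ _ _).le b2)) y g
    (hC g σ hg (le1 g hgQ) hσ (by linarith) y c).2 (mass g hg hgQ)
  have Q1 : (1 : ℝ) ≤ (Q : ℝ) ^ 2 := one_le_pow₀ (by exact_mod_cast hQ)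
  have d2 : B * ((2 * δ + 4 * η) * M) ≤ (Q : ℝ) ^ 2 * (B * ((2 * δ + 4 * η) * M)) :=
    le_mul_of_one_le_left (by positivity) Q1
  have t := abs_sub_abs_le_abs_sub
    (Ac (ww G T σ c) (fun x => Rem (fun h => Pk (Kw G T s0) F h x) (F x) n Q) y g)
    (Ac (ww G T σ c) F y g - Ac (fun z => (s0 / S) ^ Fintype.card ι *
      ww G T (s0 / S * σ) (fun a => s0 / S * c a) z) F y g)
  nlinarith

end

end Vale.Agent.P057T.H88
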