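import Vale.Agent.P057T.Cfg.Bas

/-!
Statements of two pieces of the two point law.
-/

open MvPolynomial Finset
open scoped Real

namespace Vale.Agent.P057T.Cfg

open Vale.Agent.P057T.Eq

noncomputable section

variable {ι V V' : Type} [Fintype ι] [DecidableEq ι] [Fintype V] [DecidableEq V]
  [Fintype V'] [DecidableEq V']

/-- pure powers of the vertex `v` -/
def pu (w : ι → ℕ) (v : V) (a : ι) : JI w V := mk a (Finsupp.single v (w a)) (by simp)

/-- the map on indices induced by a map of vertices -/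
def jm (w : ι → ℕ) (f : V → V') (x : JI w V) : JI w V' :=
  mk x.1.1 (x.1.2.mapDomain f) (by rw [Finsupp.degree_mapDomain]; exact JI_deg x)

/-- the base form in barycentric coordinates -/
def e1 {m : ℕ} (l : Fin m) : Option (Fin m) → ℤ := fun v => if v = none ∨ v = some l then 1 else 0

/-- expected mass of a window of the jet tower with unit scales -/
def mu (G : GT ι) (T : AT ι) (σ : ℝ) (n : ℕ) (U : Finset (JI G.w V)) : ℝ :=
  (jet G V fun _ => 1).mn (fun x => T.sg x.1.1) U * ((σ * n) ^ U.card)⁻¹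

/-- sets of indices described by their monomials -/
def Mo {w : ι → ℕ} (U : Finset (JI w V)) : Prop := ∀ x y : JI w V, x.1.2 = y.1.2 → x ∈ U → y ∈ U

def MULT : Prop := ∀ (s : ℕ) (ι V V' : Type) [Fintype ι] [DecidableEq ι] [Fintype V] [DecidableEq V]
  [Fintype V'] [DecidableEq V'] (G : GT ι) (T : AT ι) (σ : ℝ) (n : ℕ), G.Ok s → (∀ a, 0 < T.sg a) →
    0 < σ → 1 ≤ n →
    (∀ U : Finset (JI G.w V), Mo U → 0 < mu G T σ n U) ∧
    mu G T σ n (∅ : Finset (JI G.w V)) = 1 ∧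
    (∀ U U' : Finset (JI G.w V), Mo U → Mo U' → Disjoint U U' →
      mu G T σ n (U ∪ U') = mu G T σ n U * mu G T σ n U') ∧
    (∀ (f : V → V') (U : Finset (JI G.w V)), Function.Injective f →
      mu G T σ n (U.image (jm G.w f)) = mu G T σ n U) ∧
    ∀ v : V, mu G T σ n (univ.image (pu G.w v)) =
      G.mn T.sg univ * ((σ * n) ^ Fintype.card ι)⁻¹

def SUBS : Prop := ∀ (s m : ℕ) (ι : Type) [Fintype ι] [DecidableEq ι] (w : ι → ℕ)
  (t t' : Fin m → ℤ) (l : Fin m) (E : ℝ), (∀ a, w a ≤ s) → t' l ≠ t l → 1 ≤ E →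
    (∀ i, |(t i : ℝ)| ≤ E ∧ |(t' i : ℝ)| ≤ E) →
    ∃ S : Option (Fin m) → Option (Fin m) → ℤ,
      sb ℝ S (le ℝ (e0 m)) = le ℝ (e1 l) ∧
      (∀ (β : JI w (Option (Fin m)) → ℤ) (a : ι),
        Ph S β (pu w none a) = ev (pt t) β a ∧ Ph S β (pu w (some l) a) = ev (pt t') β a) ∧
      (∃ Ψ : (JI w (Option (Fin m)) → ℤ) →+ (JI w (Option (Fin m)) → ℤ), Function.Injective Ψ ∧
        ∀ z, Ph S (Ψ z) = (((t' l - t l).natAbs ^ s : ℕ) : ℤ) • z) ∧
      ∀ (u : JI w (Option (Fin m)) → ℝ) (x : JI w (Option (Fin m))),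
        |u x| ≤ (8 * E ^ 2) ^ s * ∑ y, |Ph S u y|

end

end Vale.Agent.P057T.Cfg
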