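import Vale.Agent.P057T.Cfg.Cut0
import Vale.Agent.P057T.CutH64c

/-!
The complexes with four base vertices and the splitting of their weights.
-/

open MvPolynomial Finset
open scoped Real

namespace Vale.Agent.P057T.Cfg

open Vale.Agent.P057T.Eq Vale.Agent.P057T.Cut

noncomputable section

set_option linter.unusedSectionVars false

variable {ι V V' : Type} [Fintype ι] [DecidableEq ι] [Fintype V] [DecidableEq V]
  [Fintype V'] [DecidableEq V']

theorem jm_jm {w : ι → ℕ} {f : V → V'} {g : V' → V} (h : ∀ v, g (f v) = v) (x : JI w V) :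
    jm w g (jm w f x) = x := by
  apply Subtype.ext
  refine Prod.ext rfl ?_
  show (x.1.2.mapDomain f).mapDomain g = x.1.2
  rw [← Finsupp.mapDomain_comp, show g ∘ f = id from funext h, Finsupp.mapDomain_id]

theorem jm_pu {w : ι → ℕ} (f : V → V') (v : V) (a : ι) : jm w f (pu w v a) = pu w (f v) a := by
  apply Subtype.ext
  refine Prod.ext rfl ?_
  exact Finsupp.mapDomain_single

theorem jm_inj {w : ι → ℕ} {f : V → V'} (hf : Function.Injective f) :
    Function.Injective (jm w f) := fun _ _ h =>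
  Subtype.ext (Prod.ext (congrArg (fun x => x.1.1) h)
    (Finsupp.mapDomain_injective hf (congrArg (fun x => x.1.2) h)))

/-- the substitution that kills the vertices outside the range of `f` -/
def km (f : V → V') : V' → V → ℤ := fun u v => if u = f v then 1 else 0

theorem sb_km {R : Type} [CommRing R] {f : V → V'} (hf : Function.Injective f)
    (Q : MvPolynomial V' R) : sb R (km f) Q = killCompl hf Q := by
  have : sb R (km f) = killCompl hf := by
    refine algHom_ext fun u => ?_
    simp only [sb, aeval_X, le, km]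
    by_cases h : u ∈ Set.range f
    · obtain ⟨v, rfl⟩ := h
      rw [← rename_X f v, killCompl_rename_app, sum_eq_single v]
      · simp
      · intro b _ hb
        rw [if_neg fun h => hb (hf h).symm]
        simp
      · simp
    · rw [killCompl, aeval_X, dif_neg h]
      refine sum_eq_zero fun v _ => ?_
      rw [if_neg fun h2 => h ⟨v, h2.symm⟩]
      simp
  rw [this]

theorem kill_tp (G : GT ι) (T : AT ι) {f : V → V'} (hf : Function.Injective f) {e : V → ℤ}
    {e' : V' → ℤ} (he : ∀ v, e' (f v) = e v) (z : JI G.w V' → ℝ) (x : JI G.w V) :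
    coeff (jm G.w f x).1.2 (tp G T e' z (jm G.w f x).1.1) =
      coeff x.1.2 (tp G T e (fun y => z (jm G.w f y)) x.1.1) := by
  have h1 : sb ℝ (km f) (le ℝ e') = le ℝ e := by
    ext ν
    rw [sb_km hf, coeff_killCompl]
    simp only [le, coeff_sum, coeff_C_mul, coeff_X]
    symm
    refine sum_of_injOn f hf.injOn (fun _ _ => mem_univ _) (fun u _ hu => ?_) fun v _ => ?_
    · rw [if_neg, mul_zero]
      intro h
      have h2 : u ∈ (ν.mapDomain f).support := by rw [← h]; simp
      obtain ⟨v, _, hv⟩ := mem_image.1 (Finsupp.mapDomain_support h2)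
      exact hu ⟨v, mem_univ _, hv⟩
    · rw [he]
      congr 1
      refine if_congr ?_ rfl rfl
      rw [← Finsupp.mapDomain_single (f := f), (Finsupp.mapDomain_injective hf).eq_iff]
  have h2 : Ph (km f) z = fun y => z (jm G.w f y) := by
    funext y
    rw [Ph, sb_km hf, coeff_killCompl]
    exact coeff_pl z (jm G.w f y)
  rw [← h2, sb_tp G T h1, sb_km hf, coeff_killCompl]
  rfl

theorem coeff_unit {Q : MvPolynomial Unit ℝ} {n : ℕ} (hQ : Q.IsHomogeneous n) :
    eval (fun _ => 1) Q = coeff (Finsupp.single () n) Q := by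
  rw [eval_eq, sum_eq_single (Finsupp.single () n)]
  · simp
  · intro b hb hb2
    exfalso
    apply hb2
    have h1 := hQ (mem_support_iff.1 hb)
    ext
    rw [Finsupp.single_eq_same, ← h1, Finsupp.weight_apply, Finsupp.sum_fintype _ _ (by simp)]
    simp
  · intro h
    rw [notMem_support_iff.1 h, zero_mul]

theorem pure_tp {G : GT ι} {s : ℕ} (hG : G.Ok s) {T : AT ι} (hp : ∀ a, G.Dl (G.w a) (T.p a))
    {e : V → ℤ} {v : V} (he : e v = 1) (z : JI G.w V → ℤ) (a : ι) :
    coeff (pu G.w v a).1.2 (tp G T e (cz z) (pu G.w v a).1.1) =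
      uv G T (fun b => z (pu G.w v b)) a := by
  have hf : Function.Injective fun _ : Unit => v := fun _ _ _ => rfl
  have h1 := kill_tp G T hf (e := fun _ => 1) (e' := e) (fun _ => he) (cz z) (pu G.w () a)
  rw [jm_pu] at h1
  rw [h1]
  have h2 := uv_ev (G := G) (T := T) (e := fun _ : Unit => 1) (t := fun _ => 1) (by simp) (hp a)
    (fun y => z (jm G.w (fun _ : Unit => v) y))
  have h3 : ev (fun _ : Unit => (1 : ℤ)) (fun y => z (jm G.w (fun _ : Unit => v) y)) =
      fun b => z (pu G.w v b) := by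
    funext b
    have h4 := ev_map (Int.castRingHom ℝ) (fun _ : Unit => (1 : ℤ))
      (fun y => z (jm G.w (fun _ : Unit => v) y)) b
    simp only [eq_intCast, Int.cast_one, ev] at h4
    rw [coeff_unit (pl_hom _ b)] at h4
    have h5 := coeff_pl (fun y => ((z (jm G.w (fun _ : Unit => v) y) : ℤ) : ℝ)) (pu G.w () b)
    rw [jm_pu] at h5
    exact Int.cast_injective (α := ℝ) (h4.trans h5)
  rw [h3] at h2
  rw [h2]
  simp only [Int.cast_one]
  rw [coeff_unit (tp_hom hG T _ _ a)]
  rfl

/-- points supported on the image of an injective map -/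
def latE {I κ : Type} [Fintype I] [Fintype κ] [DecidableEq κ] {φ : I → κ}
    (hφ : Function.Injective φ) {U : Finset κ} (hU : ∀ x, x ∈ U ↔ ∃ i, φ i = x) :
    Lat U ≃ (I → ℤ) where
  toFun := fun z i => z.1 (φ i)
  invFun := fun x => ⟨Function.extend φ x 0, fun a ha => by
    rw [Function.extend_apply' _ _ _ fun h => ha ((hU a).2 h)]; rfl⟩
  left_inv := fun z => Subtype.ext (funext fun a => by
    by_cases h : ∃ i, φ i = a
    · obtain ⟨i, rfl⟩ := h
      exact hφ.extend_apply (fun i => z.1 (φ i)) 0 i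
    · simp only
      rw [Function.extend_apply' _ _ _ h, z.2 a fun h2 => h ((hU a).1 h2)]
      rfl)
  right_inv := fun x => funext fun i => hφ.extend_apply _ _ _

section four

variable {m : ℕ} (w : ι → ℕ) (l : Fin m)

/-- vertices of the four facets -/
abbrev V4 (m : ℕ) : Type := (Bool ⊕ Bool) ⊕ ((Bool × Bool) × Fin m)

def fa (ab : Bool × Bool) : Option (Fin m) → V4 m
  | none => Sum.inl (Sum.inl ab.1)
  | some i => if i = l then Sum.inl (Sum.inr ab.2) else Sum.inr (ab, i)

def mg : V4 m → Option (Fin m)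
  | Sum.inl (Sum.inl _) => none
  | Sum.inl (Sum.inr _) => some l
  | Sum.inr p => some p.2

def e4 (m : ℕ) : V4 m → ℤ := Sum.elim (fun _ => 1) fun _ => 0

theorem mg_fa (ab : Bool × Bool) (v : Option (Fin m)) : mg l (fa l ab v) = v := by
  cases v with
  | none => rfl
  | some i =>
    by_cases h : i = l
    · simp [fa, mg, h]
    · simp [fa, mg, h]

theorem fa_inj (ab : Bool × Bool) : Function.Injective (fa l ab) :=
  Function.LeftInverse.injective (mg_fa l ab)

theorem fa_l (ab : Bool × Bool) : fa l ab (some l) = Sum.inl (Sum.inr ab.2) := by simp [fa]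

theorem e4_fa (ab : Bool × Bool) (v : Option (Fin m)) : e4 m (fa l ab v) = e1 l v := by
  cases v with
  | none => simp [fa, e4, e1]
  | some i =>
    by_cases h : i = l
    · simp [fa, e4, e1, h]
    · simp [fa, e4, e1, h]

/-- mixed indices -/
def Mx (x : JI w (Option (Fin m))) : Prop :=
  ¬ x.1.2.support ⊆ {none} ∧ ¬ x.1.2.support ⊆ {some l}

instance : DecidablePred (Mx w l) := fun x => by unfold Mx; infer_instance

abbrev JM : Type := {x : JI w (Option (Fin m)) // Mx w l x}

theorem pu_of_supp {v : V} (x : JI w V) (h : x.1.2.support ⊆ {v}) : pu w v x.1.1 = x := by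
  apply Subtype.ext
  refine Prod.ext rfl ?_
  have h1 := Finsupp.support_subset_singleton.1 h
  have h2 := JI_deg x
  rw [h1, Finsupp.degree_single] at h2
  show Finsupp.single v (w x.1.1) = x.1.2
  rw [← h2, ← h1]

theorem supp_pu (v : V) (a : ι) : (pu w v a).1.2.support ⊆ {v} := Finsupp.support_single_subset

theorem pu_inj (hw : ∀ a, 1 ≤ w a) {v v' : V} {a a' : ι} (h : pu w v a = pu w v' a') :
    v = v' ∧ a = a' := by
  have h1 : a = a' := congrArg (fun x => x.1.1) h
  subst h1
  have h2 : Finsupp.single v (w a) = Finsupp.single v' (w a) := congrArg (fun x => x.1.2) h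
  exact ⟨Finsupp.single_left_injective (by have := hw a; omega) h2, rfl⟩

theorem supp_jm {f : V → V'} (hf : Function.Injective f) (x : JI w V) :
    (jm w f x).1.2.support = x.1.2.support.image f :=
  Finsupp.mapDomain_support_of_injective hf _

/-- indices of the simplex -/
def ph1 : (ι ⊕ ι) ⊕ JM w l → JI w (Option (Fin m)) :=
  Sum.elim (Sum.elim (pu w none) (pu w (some l))) Subtype.val

theorem ph1_inj (hw : ∀ a, 1 ≤ w a) : Function.Injective (ph1 w l) := by
  rintro ((a | a) | j) ((b | b) | k) h <;> simp only [ph1, Sum.elim_inl, Sum.elim_inr] at h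
  · rw [(pu_inj w hw h).2]
  · exact absurd (pu_inj w hw h).1 (by simp)
  · exact absurd (h ▸ supp_pu w none a) k.2.1
  · exact absurd (pu_inj w hw h).1 (by simp)
  · rw [(pu_inj w hw h).2]
  · exact absurd (h ▸ supp_pu w (some l) a) k.2.2
  · exact absurd (h ▸ supp_pu w none b) j.2.1
  · exact absurd (h ▸ supp_pu w (some l) b) j.2.2
  · rw [Subtype.ext h]

theorem ph1_surj (x : JI w (Option (Fin m))) : ∃ i, ph1 w l i = x := by
  by_cases h1 : x.1.2.support ⊆ {none}
  · exact ⟨Sum.inl (Sum.inl x.1.1), pu_of_supp w x h1⟩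
  by_cases h2 : x.1.2.support ⊆ {some l}
  · exact ⟨Sum.inl (Sum.inr x.1.1), pu_of_supp w x h2⟩
  · exact ⟨Sum.inr ⟨x, h1, h2⟩, rfl⟩

/-- the complex with the facets in `S` -/
def D4 (S : Finset (Bool × Bool)) (ν : V4 m →₀ ℕ) : Prop :=
  (∃ c : Bool ⊕ Bool, ν.support ⊆ {Sum.inl c}) ∨ ∃ ab ∈ S, ν.support ⊆ univ.image (fa l ab)

instance (S : Finset (Bool × Bool)) : DecidablePred (D4 l S) := fun ν => by
  unfold D4; infer_instance

theorem D4_dn (S : Finset (Bool × Bool)) : Dn (D4 l S) := by
  rintro ν ν' (⟨c, h⟩ | ⟨ab, hab, h⟩) hle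
  · exact Or.inl ⟨c, (Finsupp.support_mono hle).trans h⟩
  · exact Or.inr ⟨ab, hab, (Finsupp.support_mono hle).trans h⟩

def ph4 (S : Finset (Bool × Bool)) : ((Bool ⊕ Bool) × ι) ⊕ (S × JM w l) → JI w (V4 m) :=
  Sum.elim (fun p => pu w (Sum.inl p.1) p.2) fun p => jm w (fa l p.1.1) p.2.1

theorem not_pure (ab : Bool × Bool) (j : JM w l) (c : Bool ⊕ Bool) :
    ¬ (jm w (fa l ab) j.1).1.2.support ⊆ {Sum.inl c} := by
  intro h
  rw [supp_jm w (fa_inj l ab)] at h
  have h2 : ∀ v ∈ j.1.1.2.support, v = mg l (Sum.inl c) := fun v hv => by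
    rw [← mem_singleton.1 (h (mem_image_of_mem _ hv)), mg_fa]
  rcases c with c | c
  · exact j.2.1 fun v hv => mem_singleton.2 (h2 v hv)
  · exact j.2.2 fun v hv => mem_singleton.2 (h2 v hv)

theorem fa_eq {ab ab' : Bool × Bool} {j k : JM w l}
    (h : jm w (fa l ab) j.1 = jm w (fa l ab') k.1) : ab = ab' ∧ j = k := by
  have h1 : j = k := by
    have := congrArg (jm w (mg l)) h
    rw [jm_jm (mg_fa l ab), jm_jm (mg_fa l ab')] at this
    exact Subtype.ext this
  subst h1
  refine ⟨?_, rfl⟩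
  have h2 : ∀ v ∈ j.1.1.2.support, fa l ab v = fa l ab' v := by
    intro v hv
    have h3 : fa l ab v ∈ (jm w (fa l ab') j.1).1.2.support := by
      rw [← h, supp_jm w (fa_inj l ab)]
      exact mem_image_of_mem _ hv
    rw [supp_jm w (fa_inj l ab')] at h3
    obtain ⟨u, _, hu⟩ := mem_image.1 h3
    have h4 := congrArg (mg l) hu
    rw [mg_fa, mg_fa] at h4
    rw [← hu, h4]
  obtain ⟨u, hu, hu2⟩ := not_subset.1 j.2.1
  obtain ⟨v, hv, hv2⟩ := not_subset.1 j.2.2
  have a1 := h2 u hu
  have a2 := h2 v hv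
  rw [mem_singleton] at hu2 hv2
  cases u with
  | none => exact absurd rfl hu2
  | some i =>
    by_cases hi : i = l
    · cases v with
      | none =>
        simp only [fa, hi, if_true, Sum.inl.injEq, Sum.inr.injEq] at a1 a2
        exact Prod.ext a2 a1
      | some k =>
        have hk : k ≠ l := fun h => hv2 (by rw [h])
        simp only [fa, hk, if_false, Sum.inr.injEq, Prod.mk.injEq] at a2
        exact a2.1
    · simp only [fa, hi, if_false, Sum.inr.injEq, Prod.mk.injEq] at a1
      exact a1.1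

theorem ph4_inj (hw : ∀ a, 1 ≤ w a) (S : Finset (Bool × Bool)) :
    Function.Injective (ph4 w l S) := by
  rintro (⟨c, a⟩ | ⟨ab, j⟩) (⟨d, b⟩ | ⟨ab', k⟩) h <;>
    simp only [ph4, Sum.elim_inl, Sum.elim_inr] at h
  · obtain ⟨h1, h2⟩ := pu_inj w hw h
    rw [Sum.inl.inj h1, h2]
  · exact absurd (h ▸ supp_pu w _ a) (not_pure w l _ k c)
  · exact absurd (h ▸ supp_pu w _ b) (not_pure w l _ j d)
  · obtain ⟨h1, h2⟩ := fa_eq w l h
    rw [Subtype.ext h1, h2]

theorem mem_D4 (S : Finset (Bool × Bool)) (x : JI w (V4 m)) :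
    x ∈ UD w (D4 l S) ↔ ∃ i, ph4 w l S i = x := by
  simp only [UD, mem_filter, mem_univ, true_and]
  constructor
  · rintro (⟨c, h⟩ | ⟨ab, hab, h⟩)
    · exact ⟨Sum.inl (c, x.1.1), pu_of_supp w x h⟩
    · have h1 : jm w (fa l ab) (jm w (mg l) x) = x := by
        apply Subtype.ext
        refine Prod.ext rfl ?_
        show (x.1.2.mapDomain (mg l)).mapDomain (fa l ab) = x.1.2
        rw [← Finsupp.mapDomain_comp]
        conv_rhs => rw [← Finsupp.mapDomain_id (v := x.1.2)]
        refine Finsupp.mapDomain_congr fun u hu => ?_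
        obtain ⟨v, _, rfl⟩ := mem_image.1 (h hu)
        simp [mg_fa]
      obtain ⟨i, hi⟩ := ph1_surj w l (jm w (mg l) x)
      rw [← hi] at h1
      rcases i with (a | a) | j
      · exact ⟨Sum.inl (Sum.inl ab.1, a), (jm_pu (fa l ab) none a).symm.trans h1⟩
      · refine ⟨Sum.inl (Sum.inr ab.2, a), Eq.trans ?_ h1⟩
        simp only [ph4, ph1, Sum.elim_inl, Sum.elim_inr, jm_pu, fa_l]
      · exact ⟨Sum.inr (⟨ab, hab⟩, j), h1⟩
  · rintro ⟨⟨c, a⟩ | ⟨ab, j⟩, rfl⟩
    · exact Or.inl ⟨c, supp_pu w _ a⟩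
    · refine Or.inr ⟨ab.1, ab.2, ?_⟩
      simp only [ph4, Sum.elim_inr]
      rw [supp_jm w (fa_inj l ab.1)]
      exact image_subset_image (subset_univ _)

end four

end

end Vale.Agent.P057T.Cfg
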