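import Vale.Agent.P057T.Cfg.Cut2
import Vale.Agent.P057T.Cfg.Count

/-!
The two point law, for every class and centre of the boxes.
-/

open MvPolynomial Finset
open scoped Real

namespace Vale.Agent.P057T.Cfg

open Vale.Agent.P057T.Eq Vale.Agent.P057T.Cut Vale.Agent.P267.H775 Vale.Agent.P057T.Poi

noncomputable section

set_option linter.unusedSectionVars false

variable {ι V V' : Type} [Fintype ι] [DecidableEq ι] [Fintype V] [DecidableEq V]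
  [Fintype V'] [DecidableEq V']

def imP (w : ι → ℕ) (v : V) : Finset (JI w V) := univ.image (pu w v)

def imJ (w : ι → ℕ) (f : V → V') (U : Finset (JI w V)) : Finset (JI w V') := U.image (jm w f)

theorem mem_imP {w : ι → ℕ} {v : V} {x : JI w V} : x ∈ imP w v ↔ ∃ a, pu w v a = x := by
  simp [imP]

theorem mem_imJ {w : ι → ℕ} {f : V → V'} {U : Finset (JI w V)} {x : JI w V'} :
    x ∈ imJ w f U ↔ ∃ y ∈ U, jm w f y = x := mem_image

theorem mo_imP (w : ι → ℕ) (v : V) : Mo (imP w v) := by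
  intro x y h hx
  obtain ⟨a, rfl⟩ := mem_imP.1 hx
  exact mem_imP.2 ⟨_, pu_of_supp w y (h ▸ supp_pu w v a)⟩

theorem mo_imJ {w : ι → ℕ} (f : V → V') {U : Finset (JI w V)} (hU : Mo U) : Mo (imJ w f U) := by
  intro x y h hx
  obtain ⟨z, hz, rfl⟩ := mem_imJ.1 hx
  have h1 : z.1.2.degree = w y.1.1 := by
    rw [← JI_deg y, ← h]
    exact (Finsupp.degree_mapDomain _ _).symm
  exact mem_imJ.2 ⟨mk y.1.1 z.1.2 h1, hU z _ rfl hz, Subtype.ext (Prod.ext rfl h)⟩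

theorem mu_fam {G : GT ι} {T : AT ι} {σ : ℝ} {n : ℕ}
    (h0 : mu G T σ n (∅ : Finset (JI G.w V)) = 1)
    (h1 : ∀ U U' : Finset (JI G.w V), Mo U → Mo U' → Disjoint U U' →
      mu G T σ n (U ∪ U') = mu G T σ n U * mu G T σ n U')
    {I κ : Type} [Fintype κ] {φ : I → JI G.w V} (hφ : Function.Injective φ) (p : I → κ)
    {W : Finset (JI G.w V)} (hW : ∀ x, x ∈ W ↔ ∃ i, φ i = x) (U : κ → Finset (JI G.w V))
    (hU : ∀ k x, x ∈ U k ↔ ∃ i, p i = k ∧ φ i = x) (hm : ∀ k, Mo (U k)) :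
    mu G T σ n W = ∏ k, mu G T σ n (U k) := by
  classical
  have a1 : ∀ K : Finset κ, Mo (K.biUnion U) := fun K x y h hx => by
    obtain ⟨k, hk, hx⟩ := mem_biUnion.1 hx
    exact mem_biUnion.2 ⟨k, hk, hm k x y h hx⟩
  have a2 : ∀ K : Finset κ, mu G T σ n (K.biUnion U) = ∏ k ∈ K, mu G T σ n (U k) := by
    intro K
    induction K using Finset.induction_on with
    | empty => simpa using h0
    | insert k K hk ih =>
      rw [biUnion_insert, prod_insert hk, h1 _ _ (hm k) (a1 K), ih]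
      refine disjoint_left.2 fun x hx hx2 => ?_
      obtain ⟨k', hk', hx2⟩ := mem_biUnion.1 hx2
      obtain ⟨i, hi, rfl⟩ := (hU _ _).1 hx
      obtain ⟨j, hj, hij⟩ := (hU _ _).1 hx2
      rw [hφ hij, hi] at hj
      exact hk (hj ▸ hk')
  rw [← a2]
  congr 1
  ext x
  simp only [hW, mem_biUnion, mem_univ, true_and, hU]
  exact ⟨fun ⟨i, hi⟩ => ⟨_, i, rfl, hi⟩, fun ⟨_, i, _, hi⟩ => ⟨i, hi⟩⟩

/-- the mixed indices -/
def UJ (w : ι → ℕ) {m : ℕ} (l : Fin m) : Finset (JI w (Option (Fin m))) := univ.filter (Mx w l)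

theorem mem_UJ {w : ι → ℕ} {m : ℕ} {l : Fin m} {x : JI w (Option (Fin m))} :
    x ∈ UJ w l ↔ Mx w l x := by simp [UJ]

theorem mo_UJ (w : ι → ℕ) {m : ℕ} (l : Fin m) : Mo (UJ w l) := fun x y h hx => by
  rw [mem_UJ] at hx ⊢
  unfold Mx at hx ⊢
  rwa [← h]

theorem mu_val (hM : MULT) {s : ℕ} {G : GT ι} (hG : G.Ok s) {T : AT ι} (hs : ∀ a, 0 < T.sg a)
    {σ : ℝ} (hσ : 0 < σ) {n : ℕ} (hn : 1 ≤ n) {m : ℕ} (l : Fin m) {μ : ℝ}
    (hμ : μ = G.mn T.sg univ * ((σ * n) ^ Fintype.card ι)⁻¹) :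
    0 ≤ μ ∧ 0 ≤ mu G T σ n (UJ G.w l) ∧
    mu G T σ n (univ : Finset (JI G.w (Option (Fin m)))) = μ ^ 2 * mu G T σ n (UJ G.w l) ∧
    ∀ S, mu G T σ n (UD G.w (D4 l S)) = μ ^ 4 * mu G T σ n (UJ G.w l) ^ S.card := by
  obtain ⟨a1, a2, a3, a4, a5⟩ := hM s ι (Option (Fin m)) (V4 m) G T σ n hG hs hσ hn
  obtain ⟨-, b2, b3, -, b5⟩ := hM s ι (V4 m) (V4 m) G T σ n hG hs hσ hn
  have a6 : ∀ v : Option (Fin m), mu G T σ n (imP G.w v) = μ := fun v => (a5 v).trans hμ.symm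
  have b6 : ∀ v : V4 m, mu G T σ n (imP G.w v) = μ := fun v => (b5 v).trans hμ.symm
  have a7 : ∀ ab, mu G T σ n (imJ G.w (fa l ab) (UJ G.w l)) = mu G T σ n (UJ G.w l) :=
    fun ab => a4 _ _ (fa_inj l ab)
  refine ⟨a6 none ▸ (a1 _ (mo_imP _ _)).le, (a1 _ (mo_UJ _ _)).le, ?_, fun S => ?_⟩
  · rw [mu_fam a2 a3 (κ := (Unit ⊕ Unit) ⊕ Unit) (ph1_inj G.w l hG.w1)
      (Sum.map (Sum.map (fun _ => ()) fun _ => ()) fun _ => ())
      (fun x => ⟨fun _ => ph1_surj G.w l x, fun _ => mem_univ _⟩)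
      (Sum.elim (Sum.elim (fun _ => imP G.w none) fun _ => imP G.w (some l)) fun _ => UJ G.w l)]
    · simp only [Fintype.prod_sum_type, Sum.elim_inl, Sum.elim_inr, a6, Fintype.prod_unique]
      ring
    · rintro ((_ | _) | _) x <;> simp [mem_imP, mem_UJ, ph1]
    · rintro ((_ | _) | _)
      exacts [mo_imP _ _, mo_imP _ _, mo_UJ _ _]
  · rw [mu_fam b2 b3 (κ := (Bool ⊕ Bool) ⊕ S) (ph4_inj G.w l hG.w1 S) (Sum.map Prod.fst Prod.fst)
      (mem_D4 G.w l S) (Sum.elim (fun c => imP G.w (Sum.inl c))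
        fun ab => imJ G.w (fa l ab.1) (UJ G.w l))]
    · simp only [Fintype.prod_sum_type, Sum.elim_inl, Sum.elim_inr, b6, a7, prod_const, card_univ,
        Fintype.card_coe]
      rfl
    · rintro (c | ab) x
      · rw [Sum.elim_inl, mem_imP]
        constructor
        · rintro ⟨a, h⟩
          exact ⟨Sum.inl (c, a), rfl, h⟩
        · rintro ⟨⟨d, a⟩ | j, h, h2⟩
          · obtain rfl : d = c := Sum.inl.inj h
            exact ⟨a, h2⟩
          · exact absurd h (by simp)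
      · rw [Sum.elim_inr, mem_imJ]
        constructor
        · rintro ⟨y, hy, h⟩
          exact ⟨Sum.inr (ab, ⟨y, mem_UJ.1 hy⟩), rfl, h⟩
        · rintro ⟨j | ⟨d, y⟩, h, h2⟩
          · exact absurd h (by simp)
          · obtain rfl : d = ab := Sum.inr.inj h
            exact ⟨y.1, mem_UJ.2 y.2, h2⟩
    · rintro (c | ab)
      exacts [mo_imP _ _, mo_imJ _ (mo_UJ _ _)]

theorem Ph_blk {w : ι → ℕ} (S : V → V' → ℤ) (k : ι → ℝ) (u : JI w V → ℝ) (x : JI w V') :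
    Ph S (fun y => k y.1.1 * u y) x = k x.1.1 * Ph S u x := by
  have h : pl (fun y : JI w V => k y.1.1 * u y) x.1.1 = pl (k x.1.1 • u) x.1.1 := by
    unfold pl
    refine sum_congr rfl fun y _ => ?_
    split_ifs with h
    · simp only [h, Pi.smul_apply, smul_eq_mul]
    · rfl
  have h2 := congrFun (Ph_smul S (k x.1.1) u) x
  unfold Ph at h2 ⊢
  rw [h, h2]
  rfl

/-- the narrow form -/
def lC {w : ι → ℕ} (S : V → V → ℤ) (σ : ℝ) (ω : (V →₀ ℕ) → ℝ) :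
    (JI w V → ℝ) →ₗ[ℝ] (JI w V → ℝ) where
  toFun := fun v => σ • Ph S fun y => (ω y.1.2)⁻¹ * v y
  map_add' := fun v v' => by
    rw [← smul_add, ← Ph_add]
    congr 2
    funext y
    simp [mul_add]
  map_smul' := fun c v => by
    rw [RingHom.id_apply, smul_comm c, ← Ph_smul S c]
    congr 2
    funext y
    simp only [Pi.smul_apply, smul_eq_mul]
    ring

theorem num_cut {s N : ℕ} {P Z : ℝ} (hP : 2 ≤ P) (hZ : 1 ≤ Z) (hN : (N : ℝ) ≤ P) :
    (N * Real.exp Z * (8 * Real.exp Z ^ 2) ^ s) ^ 2 * 2 ^ N ≤ Real.exp (P ^ (s + 5) * Z) ^ 2 ∧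
    Real.exp Z * (2 * Real.exp Z) ^ s ≤ Real.exp (P ^ (s + 5) * Z) ∧ Z ≤ P ^ (s + 5) * Z := by
  have e1 : (2 : ℝ) ≤ Real.exp Z := by linarith [Real.add_one_le_exp Z]
  have p1 : 16 * P * (s + 1) ≤ P ^ (s + 5) := by
    have h1 : ((s + 1 : ℕ) : ℝ) ≤ 2 ^ s := by exact_mod_cast Nat.lt_two_pow_self
    have h2 : (2 : ℝ) ^ (s + 4) ≤ P ^ (s + 4) := pow_le_pow_left₀ (by norm_num) hP _
    push_cast at h1
    rw [pow_add] at h2
    rw [show P ^ (s + 5) = P ^ (s + 4) * P from pow_succ _ _]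
    nlinarith
  have s0 : (0 : ℝ) ≤ s := Nat.cast_nonneg s
  have a1 : (N : ℝ) ≤ Real.exp (P * Z) := by
    have := Real.add_one_le_exp (P * Z)
    nlinarith
  have a2 : (8 * Real.exp Z ^ 2) ^ s ≤ Real.exp (s * (5 * Z)) := by
    rw [Real.exp_nat_mul, show 5 * Z = (5 : ℕ) * Z by norm_num, Real.exp_nat_mul]
    refine pow_le_pow_left₀ (by positivity) ?_ _
    have := pow_le_pow_left₀ (by norm_num) e1 3
    calc _ ≤ Real.exp Z ^ 3 * Real.exp Z ^ 2 := by gcongr; linarith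
      _ = _ := by ring
  have a3 : (2 : ℝ) ^ N ≤ Real.exp (P * Z) := by
    refine (pow_le_pow_left₀ (by norm_num) e1 N).trans ?_
    rw [← Real.exp_nat_mul, Real.exp_le_exp]
    nlinarith
  have a4 : (2 * Real.exp Z) ^ s ≤ Real.exp (s * (2 * Z)) := by
    rw [Real.exp_nat_mul, two_mul Z, Real.exp_add]
    gcongr
  have q1 : 0 ≤ (P - 2) * s := mul_nonneg (by linarith) s0
  refine ⟨?_, ?_, by nlinarith⟩
  · calc _ ≤ (Real.exp (P * Z) * Real.exp Z * Real.exp (s * (5 * Z))) ^ 2 * Real.exp (P * Z) := by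
          gcongr
      _ ≤ _ := by
          rw [← Real.exp_add, ← Real.exp_add, ← Real.exp_nat_mul, ← Real.exp_nat_mul,
            ← Real.exp_add, Real.exp_le_exp]
          push_cast
          nlinarith
  · calc _ ≤ Real.exp Z * Real.exp (s * (2 * Z)) := by gcongr
      _ ≤ _ := by
          rw [← Real.exp_add, Real.exp_le_exp]
          nlinarith

theorem lC_mulVec {w : ι → ℕ} (S : V → V → ℤ) (σ : ℝ) (ω : (V →₀ ℕ) → ℝ) (v : JI w V → ℝ) :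
    (LinearMap.toMatrix' (lC S σ ω)).mulVec v = σ • Ph S fun y => (ω y.1.2)⁻¹ * v y :=
  LinearMap.toMatrix'_mulVec _ _

theorem qf_lC {w : ι → ℕ} {S : V → V → ℤ} {σ E K : ℝ} {ω : (V →₀ ℕ) → ℝ} (σ0 : 0 < σ)
    (hω : ∀ ν, 0 < ω ν ∧ ω ν ≤ E) (hK : 0 ≤ K)
    (s5 : ∀ (u : JI w V → ℝ) (x : JI w V), |u x| ≤ K * ∑ y, |Ph S u y|) :
    (∀ v, qf 1 v ≤ (Fintype.card (JI w V) * E * K / σ) ^ 2 *
      qf (LinearMap.toMatrix' (lC (w := w) S σ ω)) v) ∧
    (LinearMap.toMatrix' (lC (w := w) S σ ω)).det ≠ 0 := by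
  have cv := lC_mulVec (w := w) S σ ω
  set C := LinearMap.toMatrix' (lC (w := w) S σ ω)
  set N := Fintype.card (JI w V)
  have hBC : ∀ v, qf 1 v ≤ (N * E * K / σ) ^ 2 * qf C v := by
    intro v
    have a1 : ∀ x, v x ^ 2 ≤ (E * K / σ) ^ 2 * (N * qf C v) := by
      intro x
      have b1 := s5 (fun y => (ω y.1.2)⁻¹ * v y) x
      have b2 : ∑ y, |C.mulVec v y| = σ * ∑ y, |Ph S (fun y => (ω y.1.2)⁻¹ * v y) y| := by
        simp only [cv, Pi.smul_apply, smul_eq_mul, abs_mul, abs_of_pos σ0, mul_sum]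
      have b3 : (∑ y, |C.mulVec v y|) ^ 2 ≤ N * qf C v := by
        have := sq_sum_le_card_mul_sum_sq (s := univ) (f := fun y => |C.mulVec v y|)
        simp only [sq_abs, card_univ] at this
        exact this
      have b4 : |v x| ≤ E * K / σ * ∑ y, |C.mulVec v y| := by
        have w0 := (hω x.1.2).1
        rw [abs_mul, abs_of_pos (inv_pos.2 w0), inv_mul_le_iff₀ w0] at b1
        rw [b2]
        refine b1.trans ((mul_le_mul_of_nonneg_right (hω _).2 (by positivity)).trans_eq ?_)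
        field_simp
      calc v x ^ 2 = |v x| ^ 2 := (sq_abs _).symm
        _ ≤ (E * K / σ * ∑ y, |C.mulVec v y|) ^ 2 := by gcongr
        _ ≤ _ := by
          rw [mul_pow]
          gcongr
    calc qf 1 v = ∑ x, v x ^ 2 := by simp [qf]
      _ ≤ N * ((E * K / σ) ^ 2 * (N * qf C v)) := by
          have := sum_le_card_nsmul univ _ _ fun x _ => a1 x
          rwa [nsmul_eq_mul] at this
      _ = _ := by ring
  refine ⟨hBC, fun h => ?_⟩
  obtain ⟨v, hv, hv2⟩ := Matrix.exists_mulVec_eq_zero_iff.2 h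
  have h1 := hBC v
  simp only [qf, hv2, Matrix.one_mulVec, Pi.zero_apply, ne_eq, OfNat.ofNat_ne_zero,
    not_false_eq_true, zero_pow, sum_const_zero, mul_zero] at h1
  refine hv (funext fun x => pow_eq_zero_iff (n := 2) two_ne_zero |>.1 (le_antisymm ?_ (sq_nonneg _)))
  exact (single_le_sum (fun y _ => sq_nonneg (v y)) (mem_univ x)).trans h1

theorem gq_lC {s : ℕ} {G : GT ι} (hG : G.Ok s) {T : AT ι} (sg0 : ∀ a, 0 < T.sg a) (σ : ℝ)
    {ω : (V →₀ ℕ) → ℝ} (hω : ∀ ν, 0 < ω ν) {S : V → V → ℤ} {e e' : V → ℤ}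
    (s1 : sb ℝ S (le ℝ e) = le ℝ e') (c0 c : JI G.w V → ℝ) (z : JI G.w V → ℤ) :
    gq (LinearMap.toMatrix' (lC S σ ω)) ((fun x : JI G.w V =>
        T.sg x.1.1 * (ω x.1.2 * coeff x.1.2 (tp G T e (cz z) x.1.1) - c0 x)) - c) =
      Real.exp (-π * ∑ x, TM G T σ e'
        (fun x => σ * Ph S (fun y => (ω y.1.2)⁻¹ * (c0 y + c y / T.sg y.1.1)) x) (Ph S z) x) := by
  unfold gq qf TM
  congr 2
  refine sum_congr rfl fun x _ => ?_
  have e1' : (fun y : JI G.w V => (ω y.1.2)⁻¹ * ((fun x : JI G.w V =>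
      T.sg x.1.1 * (ω x.1.2 * coeff x.1.2 (tp G T e (cz z) x.1.1) - c0 x)) - c) y) = fun y =>
      T.sg y.1.1 * ((fun y : JI G.w V => coeff y.1.2 (tp G T e (cz z) y.1.1)) + (-1 : ℝ) •
        fun y : JI G.w V => (ω y.1.2)⁻¹ * (c0 y + c y / T.sg y.1.1)) y := by
    funext y
    have := (sg0 y.1.1).ne'
    have := (hω y.1.2).ne'
    simp only [Pi.sub_apply, Pi.add_apply, Pi.smul_apply, smul_eq_mul]
    field_simp
    ring
  rw [lC_mulVec, e1', Pi.smul_apply, Ph_blk, Ph_add, Ph_smul, cz_Ph, sb_tp G T s1]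
  simp only [Pi.add_apply, Pi.smul_apply, smul_eq_mul]
  rw [Ph, pl_coeff (tp_hom hG T _ _)]
  ring

/-- Two point law for the boxes of the class `r0` modulo `n0` with centre `c0`. -/
def CUTG : Prop := ∀ s : ℕ, ∃ c : ℕ, ∀ (ι : Type) [Fintype ι] [DecidableEq ι] (G : GT ι) (T : AT ι)
  (P Z δ ε σ : ℝ) (m : ℕ) (ω : (Option (Fin m) →₀ ℕ) → ℝ) (t t' : Fin m → ℤ) (l : Fin m)
  (F F' : (ι → ℤ) → ℝ) (n0 : ℕ) (r0 : JI G.w (Option (Fin m)) → ℤ)
  (c0 : JI G.w (Option (Fin m)) → ℝ), G.Ok s → G.AOk T P → T.U = univ → 2 ≤ P → 1 ≤ Z →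
    (Fintype.card ι : ℝ) * (m + 2) ^ s ≤ P → 1 ≤ n0 → (n0 : ℝ) ≤ Real.exp Z →
    (∀ ν, 0 < ω ν ∧ ω ν ≤ Real.exp Z) → (∀ i, |(t i : ℝ)| ≤ Real.exp Z ∧ |(t' i : ℝ)| ≤ Real.exp Z) →
    t' l ≠ t l → 0 < δ → δ ≤ 1 / 2 → 0 ≤ ε → Real.exp (P ^ c * Z) ≤ δ * σ →
    ∀ Z', P ^ c * Z ≤ Z' → σ ≤ Real.exp Z' → Cnts G T (4 * m + 4) (δ ^ 4) Z' →
    (∀ z, |F z| ≤ 1) → (∀ z, |F' z| ≤ 1) →
    (∀ (r : ι → ℤ) (c : ι → ℝ),
      |∑' z : ι → ℤ, ww G T σ c (r + ((n0 * (t' l - t l).natAbs ^ s : ℕ) : ℤ) • z) *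
        F' (r + ((n0 * (t' l - t l).natAbs ^ s : ℕ) : ℤ) • z)| ≤
      ε * (G.mn T.sg univ * ((σ * (n0 * (t' l - t l).natAbs ^ s : ℕ)) ^ Fintype.card ι)⁻¹)) →
    |∑' β, bw G T ω 1 c0 (r0 + (n0 : ℤ) • β) *
        (F (ev (pt t) (r0 + (n0 : ℤ) • β)) * F' (ev (pt t') (r0 + (n0 : ℤ) • β)))| ≤
      20 * (ε + δ) * (bm G T ω * ((n0 : ℝ) ^ Fintype.card (JI G.w (Option (Fin m))))⁻¹)

theorem cutg (hJ : JOK) (hM : MULT) (hS : SUBS) : CUTG := by
  intro s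
  refine ⟨s + 5, fun ι _ _ G T P Z δ ε σ m ω t t' l F F' n0 r0 c0 hG hT hU hP hZ hc hn0 hn1 hω ht htl
    hδ hδ1 hε hσ Z' hZ' hσ1 hC hF hF' hs => ?_⟩
  have hN : (Fintype.card (JI G.w (Option (Fin m))) : ℝ) ≤ P := by
    have h := card_JI (V := Option (Fin m)) hG.ws (M := m + 1) (by simp)
    refine le_trans ?_ hc
    exact_mod_cast h
  obtain ⟨k1, k2, k3⟩ := num_cut (s := s) hP hZ hN
  set N := Fintype.card (JI G.w (Option (Fin m))) with hNd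
  have E1 : 1 ≤ Real.exp Z := Real.one_le_exp (by linarith)
  have eZ : Real.exp (P ^ (s + 5) * Z) ≤ Real.exp Z' := Real.exp_le_exp.2 hZ'
  have eZ1 : Real.exp Z ≤ Real.exp Z' := Real.exp_le_exp.2 (k3.trans hZ')
  have σ0 : 0 < σ := (pos_iff_pos_of_mul_pos ((Real.exp_pos _).trans_le hσ)).1 hδ
  have sg0 : ∀ a, 0 < T.sg a := fun a => (inv_pos.2 (by linarith)).trans_le (hT.s1 a)
  have hp : ∀ a, G.Dl (G.w a) (T.p a) := fun a => hT.pd a (hU ▸ mem_univ a)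
  obtain ⟨S, s1, s2, ⟨Ψ, s3, s4⟩, s5⟩ := hS s m ι G.w t t' l (Real.exp Z) hG.ws htl E1 ht
  set d : ℕ := (t' l - t l).natAbs ^ s with hd
  have d1 : 1 ≤ n0 * d := Nat.mul_pos hn0 (pow_pos (Int.natAbs_pos.2 (sub_ne_zero.2 htl)) _)
  have d2 : ((n0 * d : ℕ) : ℝ) ≤ Real.exp Z' := by
    refine le_trans ?_ (k2.trans eZ)
    rw [hd]
    push_cast
    gcongr
    rw [Nat.cast_natAbs]
    push_cast
    linarith [abs_sub (t' l : ℝ) (t l), (ht l).1, (ht l).2]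
  have o1 : ∀ {V : Type} (_ : V →₀ ℕ), (0 : ℝ) < 1 ∧ (1 : ℝ) ≤ Real.exp Z' :=
    fun _ => ⟨one_pos, E1.trans eZ1⟩
  obtain ⟨m1, m2, m3, m4⟩ := mu_val hM hG sg0 σ0 d1 l rfl
  have hw := win (l := l) hG hp hU m1 m2 hδ.le hδ1 hε (cnt_univ hU (hC.1 _ σ d1 d2 σ0 hσ1))
    (fun r c => by
      have h := cnt_univ (UD_true G.w) (hC.2 (Option (Fin m)) (e1 l) (fun _ => 1) (fun _ => True)
        _ σ (by simp; omega) (fun _ _ _ _ => trivial) o1 d1 d2 σ0 hσ1) r c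
      simp only [ww_jet hJ hG, UD_true] at h
      rw [← m3]
      exact h)
    (fun S r c => by
      have h := hC.2 (V4 m) (e4 m) (fun _ => 1) (D4 l S) _ σ (by simp; omega) (D4_dn l S) o1 d1 d2
        σ0 hσ1 r c
      simp only [ww_jet hJ hG] at h
      rw [← m4]
      exact h) hF hF' hs
  have hth := (hJ s ι (Option (Fin m)) G ω hG fun ν => (hω ν).1).2.1
  set U : (JI G.w (Option (Fin m)) → ℤ) → JI G.w (Option (Fin m)) → ℝ := fun β x =>
    T.sg x.1.1 * (ω x.1.2 * coeff x.1.2 (tp G T (e0 m) (cz (r0 + (n0 : ℤ) • β)) x.1.1) - c0 x)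
    with hUd
  have u1 : ∀ β y, gq 1 (U β - y) =
      bw G T ω 1 (fun x => c0 x + y x / T.sg x.1.1) (r0 + (n0 : ℤ) • β) := by
    intro β y
    unfold gq qf bw ww
    congr 2
    refine sum_congr rfl fun x _ => ?_
    rw [uv_jet G T (e0 m) ω univ hth, Matrix.one_mulVec]
    have := (sg0 x.1.1).ne'
    show (T.sg x.1.1 * _ - y x) ^ 2 = (T.sg x.1.1 * _) ^ 2
    congr 1
    field_simp
    ring
  have hMas : Mas 1 U (bm G T ω * ((n0 : ℝ) ^ N)⁻¹) (δ ^ 4) := by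
    have h := fun c => cnt_univ (UD_true G.w) (hC.2 (Option (Fin m)) (e0 m) ω (fun _ => True)
      n0 1 (by simp; omega) (fun _ _ _ _ => trivial) (fun ν => ⟨(hω ν).1, (hω ν).2.trans eZ1⟩) hn0
      (hn1.trans eZ1) one_pos (E1.trans eZ1)) r0 c
    simp only [UD_true, one_mul] at h
    exact ⟨fun y => by simp only [u1]; exact (h _).1, fun y => by simp only [u1]; exact (h _).2⟩
  have bm0 : 0 ≤ bm G T ω * ((n0 : ℝ) ^ N)⁻¹ :=
    mul_nonneg (mul_nonneg (abs_nonneg _) (prod_nonneg fun x _ => (inv_pos.2 (sg0 _)).le))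
      (by positivity)
  set K := (8 * Real.exp Z ^ 2) ^ s with hK
  obtain ⟨hBC, hdet⟩ := qf_lC σ0 hω (by positivity) s5
  have hη : (N * Real.exp Z * K / σ) ^ 2 * 2 ^ N ≤ δ ^ 2 := by
    rw [div_pow, div_mul_eq_mul_div, div_le_iff₀ (by positivity), ← mul_pow]
    exact k1.trans (pow_le_pow_left₀ (Real.exp_pos _).le hσ 2)
  have hη1 : (N * Real.exp Z * K / σ) ^ 2 ≤ 1 := by
    have := le_mul_of_one_le_right (sq_nonneg (N * Real.exp Z * K / σ))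
      (one_le_pow₀ (n := N) one_le_two)
    nlinarith
  have d4 : δ ^ 4 ≤ δ ^ 2 := pow_le_pow_of_le_one hδ.le (by linarith) (by norm_num)
  have hH : ∀ β : JI G.w (Option (Fin m)) → ℤ, |F (ev (pt t) (r0 + (n0 : ℤ) • β)) *
      F' (ev (pt t') (r0 + (n0 : ℤ) • β))| ≤ 1 := fun β => by
    rw [abs_mul]
    exact mul_le_one₀ (hF _) (abs_nonneg _) (hF' _)
  have key := mixt2 (B := 1) (by simp) hdet bm0 (by nlinarith) (by positivity) hδ hMas hBC
    (sq_nonneg _) hη1 (e := 3 * δ + 2 * ε) (by positivity) hH fun c => by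
      have g1 := fun β => gq_lC hG sg0 σ (fun ν => (hω ν).1) s1 c0 c (r0 + (n0 : ℤ) • β)
      refine rel_coset Ψ s3 ⟨fun _ => (gq_pos _ _).le, Summable.of_nonneg_of_le
        (fun _ => (gq_pos _ _).le) (fun _ => gq_le_of_qf hBC hη1 _) (hMas.sm c)⟩ ⟨1, hH⟩ fun ρ => ?_
      have g2 : ∀ z, Ph S (r0 + (n0 : ℤ) • (ρ + Ψ z)) =
          Ph S (r0 + (n0 : ℤ) • ρ) + ((n0 * d : ℕ) : ℤ) • z := fun z => by
        rw [smul_add, ← add_assoc, Ph_add, Ph_smul, s4, smul_smul, Nat.cast_mul]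
      have g3 : ∀ β : JI G.w (Option (Fin m)) → ℤ,
          ev (pt t) β = fun a => Ph S β (pu G.w none a) := fun β => by
        funext a
        rw [(s2 β a).1]
      have g4 : ∀ β : JI G.w (Option (Fin m)) → ℤ,
          ev (pt t') β = fun a => Ph S β (pu G.w (some l) a) := fun β => by
        funext a
        rw [(s2 β a).2]
      simp only [hUd, g1, g3, g4, g2]
      exact hw _ _
  have u2 : ∀ β, gq 1 (U β) = bw G T ω 1 c0 (r0 + (n0 : ℤ) • β) := fun β => by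
    simpa using u1 β 0
  simp only [u2] at key
  refine key.trans (mul_le_mul_of_nonneg_right ?_ bm0)
  have : (2 * δ ^ 4 + (N * Real.exp Z * K / σ) ^ 2 * 2 ^ N) / δ ≤ 3 * δ := by
    rw [div_le_iff₀ hδ]
    nlinarith
  linarith

theorem cut (hJ : JOK) (hM : MULT) (hS : SUBS) : CUT := by
  intro s
  obtain ⟨c, h⟩ := cutg hJ hM hS s
  refine ⟨c, fun ι _ _ G T P Z δ ε σ m ω t t' l F F' hG hT hU hP hZ hc hω ht htl
    hδ hδ1 hε hσ Z' hZ' hσ1 hC hF hF' hs => ?_⟩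
  have h1 := h ι G T P Z δ ε σ m ω t t' l F F' 1 0 0 hG hT hU hP hZ hc le_rfl
    (by simpa using Real.one_le_exp (by linarith)) hω ht htl hδ hδ1 hε hσ Z' hZ' hσ1 hC hF hF'
    (by simpa only [one_mul] using hs)
  simpa using h1

end

end Vale.Agent.P057T.Cfg
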