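import Vale.Agent.P057T.Eq.Defs

/-!
Jet towers over a vertex set, dilated windows, and the counting rows.
-/

open MvPolynomial Finset
open scoped Real

namespace Vale.Agent.P057T.Cfg

open Vale.Agent.P057T.Eq

noncomputable section

variable {ι V V' : Type} [Fintype ι] [DecidableEq ι] [Fintype V] [DecidableEq V]
  [Fintype V'] [DecidableEq V']

/-- pairs (variable, monomial of the degree of its weight) -/
def JS (w : ι → ℕ) (V : Type) [Fintype V] [DecidableEq V] : Finset (ι × (V →₀ ℕ)) :=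
  univ.biUnion fun a => (finsuppAntidiag univ (w a)).image (Prod.mk a)

abbrev JI (w : ι → ℕ) (V : Type) [Fintype V] [DecidableEq V] : Type := {x // x ∈ JS w V}

section alg

variable {R : Type} [CommRing R]

/-- the polynomial point with coefficients `z` -/
def pl {w : ι → ℕ} (z : JI w V → R) (a : ι) : MvPolynomial V R :=
  ∑ x : JI w V, if x.1.1 = a then monomial x.1.2 (z x) else 0

/-- the linear form with integer coefficients `e` -/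
def le (R : Type) [CommRing R] (e : V → ℤ) : MvPolynomial V R := ∑ v, C (e v : R) * X v

/-- linear substitution of the vertices -/
def sb (R : Type) [CommRing R] (S : V → V' → ℤ) : MvPolynomial V R →ₐ[R] MvPolynomial V' R :=
  aeval fun v => le R (S v)

/-- the substitution on coefficient vectors -/
def Ph {w : ι → ℕ} (S : V → V' → ℤ) (z : JI w V → R) : JI w V' → R :=
  fun y => coeff y.1.2 (sb R S (pl z y.1.1))

/-- the point of the host at the parameter `t` -/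
def ev {w : ι → ℕ} (t : V → R) (z : JI w V → R) : ι → R := fun a => eval t (pl z a)

variable [Algebra ℝ R]

/-- homogenised lower order terms -/
def hg (G : GT ι) (T : AT ι) (e : V → ℤ) (z : JI G.w V → R) (a : ι) : MvPolynomial V R :=
  ∑ d ∈ range (G.w a), le R e ^ (G.w a - d) * aeval (pl z) (G.top d (T.p a))

/-- the chart of the host at the polynomial point -/
def tp (G : GT ι) (T : AT ι) (e : V → ℤ) (z : JI G.w V → R) (a : ι) : MvPolynomial V R :=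
  aeval (pl z) (G.th a) + hg G T e z a

end alg

/-- jet tower on the full simplex, scales `ω` -/
def jet (G : GT ι) (V : Type) [Fintype V] [DecidableEq V] (ω : (V →₀ ℕ) → ℝ) : GT (JI G.w V) where
  g := fun x => G.g x.1.1
  w := fun x => G.w x.1.1
  A := fun x y => if x.1.2 = y.1.2 then ω x.1.2 * G.A x.1.1 y.1.1 else 0
  B := fun x y => if x.1.2 = y.1.2 then (ω x.1.2)⁻¹ * G.B x.1.1 y.1.1 else 0
  q := fun x => coeff x.1.2 (aeval (pl (X : JI G.w V → MvPolynomial (JI G.w V) ℝ)) (G.q x.1.1))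
  ex := univ.filter fun x => x.1.1 ∈ G.ex

/-- the coordinates on the monomials of `Δ` -/
def UD (w : ι → ℕ) (Δ : (V →₀ ℕ) → Prop) [DecidablePred Δ] : Finset (JI w V) :=
  univ.filter fun x => Δ x.1.2

/-- closed under divisors -/
def Dn (Δ : (V →₀ ℕ) → Prop) : Prop := ∀ ν ν', Δ ν → ν' ≤ ν → Δ ν'

/-- analytic data of the jet tower on the active set `U` -/
def jat (G : GT ι) (T : AT ι) (e : V → ℤ) (ω : (V →₀ ℕ) → ℝ) (U : Finset (JI G.w V)) :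
    AT (JI G.w V) where
  U := U
  p := fun x => C (ω x.1.2) *
    coeff x.1.2 (hg G T e (X : JI G.w V → MvPolynomial (JI G.w V) ℝ) x.1.1)
  sg := fun x => T.sg x.1.1

/-- dilation by `n`, narrowing by `σ` -/
def dil (G : GT ι) (n : ℕ) (σ : ℝ) : GT ι where
  g := G.g
  w := G.w
  A := (σ * n) • G.A
  B := (σ * n)⁻¹ • G.B
  q := fun a => C (n : ℝ)⁻¹ * aeval (fun b => C (n : ℝ) * X b) (G.q a)
  ex := G.ex

/-- the window: class `r` modulo `n`, centre `c` -/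
def dat (G : GT ι) (T : AT ι) (r : ι → ℤ) (n : ℕ) (σ : ℝ) (c : ι → ℝ) : AT ι where
  U := T.U
  p := fun a => C σ * aeval (fun b => C (r b : ℝ) + C (n : ℝ) * X b) (G.ch T a) - C (c a) -
    (dil G n σ).th a
  sg := T.sg

/-- regularity, stable under the moves -/
def Rs (G : GT ι) (WW : ℕ → ℝ) (c Y : ℝ) (s : ℕ) : Prop :=
  ∀ g < s, G.Big g (Real.exp (c * (Y + WW g))) ∧
    G.Small g (Real.exp (-(c * (Y + WW (g + 1)))) * (c * (Y + WW g))⁻¹)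

/-- real chart vector of a point -/
def uv (G : GT ι) (T : AT ι) (z : ι → ℤ) : ι → ℝ := fun a => eval (cz z) (G.ch T a)

/-- weight of the window with narrowing `σ` and centre `c` -/
def ww (G : GT ι) (T : AT ι) (σ : ℝ) (c : ι → ℝ) (z : ι → ℤ) : ℝ :=
  Real.exp (-π * ∑ a ∈ T.U, (T.sg a * (σ * uv G T z a - c a)) ^ 2)

/-! ### Rows -/

/-- the jet tower is a tower -/
def JOK : Prop := ∀ (s : ℕ) (ι V : Type) [Fintype ι] [DecidableEq ι] [Fintype V] [DecidableEq V]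
  (G : GT ι) (ω : (V →₀ ℕ) → ℝ), G.Ok s → (∀ ν, 0 < ω ν) →
    (jet G V ω).Ok s ∧
    (∀ x, (jet G V ω).th x = C (ω x.1.2) *
      coeff x.1.2 (aeval (pl (X : JI G.w V → MvPolynomial (JI G.w V) ℝ)) (G.th x.1.1))) ∧
    (∀ WW Z, G.Wd WW → 0 ≤ Z → (∀ ν, ω ν ≤ Real.exp Z) → (jet G V ω).Wd fun g => WW g + Z) ∧
    ∀ (T : AT ι) (P : ℝ) (e : V → ℤ) (Δ : (V →₀ ℕ) → Prop) [DecidablePred Δ], G.AOk T P → T.U = univ →
      Dn Δ → (jet G V ω).AOk (jat G T e ω (UD G.w Δ)) P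

/-- the jet tower is regular -/
def CFG : Prop := ∀ (s : ℕ) (ι V : Type) [Fintype ι] [DecidableEq ι] [Fintype V] [DecidableEq V]
  (G : GT ι) (ω : (V →₀ ℕ) → ℝ) (WW : ℕ → ℝ) (c Y Z : ℝ), G.Ok s → G.Wd WW → 1 ≤ c → 1 ≤ Y → 0 ≤ Z →
    (∀ ν, 0 < ω ν ∧ ω ν ≤ Real.exp Z) →
    Rs G WW c (Y + (s + 2) * Z + s ^ 3 * Fintype.card V) s →
    Rs (jet G V ω) (fun g => WW g + Z) c Y s

/-- windows are towers -/
def DIL : Prop := ∀ (s : ℕ) (ι : Type) [Fintype ι] [DecidableEq ι] (G : GT ι) (n : ℕ) (σ : ℝ),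
  G.Ok s → 1 ≤ n → 0 < σ →
    (dil G n σ).Ok s ∧
    (∀ U, (dil G n σ).dv U = G.dv U * ((σ * n) ^ U.card)⁻¹) ∧
    (∀ WW Z, G.Wd WW → 0 ≤ Z → σ * n ≤ Real.exp Z → (dil G n σ).Wd fun g => WW g + Z) ∧
    (∀ (T : AT ι) (P : ℝ) (r : ι → ℤ) (c : ι → ℝ), G.AOk T P →
      (dil G n σ).AOk (dat G T r n σ c) P ∧
      ∀ z, (dil G n σ).nu (dat G T r n σ c) z = ww G T σ c (r + (n : ℤ) • z)) ∧
    ∀ (WW : ℕ → ℝ) (c Y Z : ℝ), G.Wd WW → 1 ≤ c → 1 ≤ Y → 0 ≤ Z → (n : ℝ) ≤ Real.exp Z →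
      σ ≤ Real.exp Z → Rs G WW c (Y + (2 * s + 4) * Z) s →
      Rs (dil G n σ) (fun g => WW g + 2 * Z) c Y s

/-- the conclusion of a count -/
def Cnt (G : GT ι) (T : AT ι) (δ : ℝ) (n : ℕ) (σ : ℝ) : Prop :=
  ∀ (r : ι → ℤ) (c : ι → ℝ),
    Summable (fun z : Lat T.U => ww G T σ c (r + (n : ℤ) • z.1)) ∧
    |∑' z : Lat T.U, ww G T σ c (r + (n : ℤ) • z.1) - G.mn T.sg T.U * ((σ * n) ^ T.U.card)⁻¹| ≤
      δ * (G.mn T.sg T.U * ((σ * n) ^ T.U.card)⁻¹)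

/-- all windows of a regular tower have the expected mass -/
def COUNT1 : Prop := ∀ s : ℕ, ∃ c : ℕ, ∀ (ι : Type) [Fintype ι] [DecidableEq ι] (G : GT ι) (T : AT ι)
  (WW : ℕ → ℝ) (P Y Z σ : ℝ) (n : ℕ), G.Ok s → G.Wd WW → Sz ι P Y → G.AOk T P → 0 ≤ Z → 1 ≤ n →
    (n : ℝ) ≤ Real.exp Z → 0 < σ → σ ≤ Real.exp Z → Rs G WW (P ^ c) (Y + (2 * s + 4) * Z) s →
    Cnt G T (Real.exp (-Y)) n σ

/-- all counts in all jet towers over at most `M` vertices, sizes up to `exp Z` -/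
def Cnts (G : GT ι) (T : AT ι) (M : ℕ) (δ Z : ℝ) : Prop :=
  (∀ (n : ℕ) (σ : ℝ), 1 ≤ n → (n : ℝ) ≤ Real.exp Z → 0 < σ → σ ≤ Real.exp Z → Cnt G T δ n σ) ∧
  ∀ (V : Type) [Fintype V] [DecidableEq V] (e : V → ℤ) (ω : (V →₀ ℕ) → ℝ)
    (Δ : (V →₀ ℕ) → Prop) [DecidablePred Δ] (n : ℕ) (σ : ℝ), Fintype.card V ≤ M → Dn Δ →
    (∀ ν, 0 < ω ν ∧ ω ν ≤ Real.exp Z) → 1 ≤ n → (n : ℝ) ≤ Real.exp Z → 0 < σ → σ ≤ Real.exp Z →
    Cnt (jet G V ω) (jat G T e ω (UD G.w Δ)) δ n σ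

def COUNT : Prop := ∀ s : ℕ, ∃ c : ℕ, ∀ (ι : Type) [Fintype ι] [DecidableEq ι] (G : GT ι) (T : AT ι)
  (WW : ℕ → ℝ) (P Y Z : ℝ) (M : ℕ), G.Ok s → G.Wd WW → Sz ι P Y → G.AOk T P → T.U = univ → 0 ≤ Z →
    (Fintype.card ι : ℝ) * (M + 1) ^ s ≤ P →
    Rs G WW (P ^ c) (Y + (3 * s + 6) * Z + s ^ 3 * M) s → Cnts G T M (Real.exp (-Y)) Z

/-- the parameter `(1, t)` -/
def pt {m : ℕ} (t : Fin m → ℤ) : Option (Fin m) → ℤ := fun v => v.elim 1 t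

/-- the base vertex of a box -/
def e0 (m : ℕ) : Option (Fin m) → ℤ := fun v => v.elim 1 fun _ => 0

/-- weight of the box `β`: scales `ω`, narrowing `σ`, centre `c` -/
def bw (G : GT ι) (T : AT ι) {m : ℕ} (ω : (Option (Fin m) →₀ ℕ) → ℝ) (σ : ℝ)
    (c : JI G.w (Option (Fin m)) → ℝ) (β : JI G.w (Option (Fin m)) → ℤ) : ℝ :=
  ww (jet G _ ω) (jat G T (e0 m) ω univ) σ c β

/-- expected total mass of the boxes -/
def bm (G : GT ι) (T : AT ι) {m : ℕ} (ω : (Option (Fin m) →₀ ℕ) → ℝ) : ℝ :=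
  (jet G _ ω).mn (fun x => T.sg x.1.1) univ

/-- Two point law: a function `F'` with small mean on all narrow windows of classes modulo
`|t' l - t l| ^ s` does not correlate. -/
def CUT : Prop := ∀ s : ℕ, ∃ c : ℕ, ∀ (ι : Type) [Fintype ι] [DecidableEq ι] (G : GT ι) (T : AT ι)
  (P Z δ ε σ : ℝ) (m : ℕ) (ω : (Option (Fin m) →₀ ℕ) → ℝ) (t t' : Fin m → ℤ) (l : Fin m)
  (F F' : (ι → ℤ) → ℝ), G.Ok s → G.AOk T P → T.U = univ → 2 ≤ P → 1 ≤ Z →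
    (Fintype.card ι : ℝ) * (m + 2) ^ s ≤ P →
    (∀ ν, 0 < ω ν ∧ ω ν ≤ Real.exp Z) → (∀ i, |(t i : ℝ)| ≤ Real.exp Z ∧ |(t' i : ℝ)| ≤ Real.exp Z) →
    t' l ≠ t l → 0 < δ → δ ≤ 1 / 2 → 0 ≤ ε → Real.exp (P ^ c * Z) ≤ δ * σ →
    ∀ Z', P ^ c * Z ≤ Z' → σ ≤ Real.exp Z' → Cnts G T (4 * m + 4) (δ ^ 4) Z' →
    (∀ z, |F z| ≤ 1) → (∀ z, |F' z| ≤ 1) →
    (∀ (r : ι → ℤ) (c : ι → ℝ),
      |∑' z : ι → ℤ, ww G T σ c (r + (((t' l - t l).natAbs ^ s : ℕ) : ℤ) • z) *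
        F' (r + (((t' l - t l).natAbs ^ s : ℕ) : ℤ) • z)| ≤
      ε * (G.mn T.sg univ * ((σ * ((t' l - t l).natAbs ^ s : ℕ)) ^ Fintype.card ι)⁻¹)) →
    |∑' β, bw G T ω 1 0 β * (F (ev (pt t) β) * F' (ev (pt t') β))| ≤ 20 * (ε + δ) * bm G T ω

open scoped BigOperators in
/-- From a dense family of boxes with large mean to a window with large mean. -/
def LIFT : Prop := ∀ s : ℕ, ∃ c : ℕ, ∀ (ι : Type) [Fintype ι] [DecidableEq ι] (G : GT ι) (T : AT ι)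
  (P Y Z B κ : ℝ) (m L r : ℕ) (ω : (Option (Fin m) →₀ ℕ) → ℝ) (F : (ι → ℤ) → ℝ)
  (Fam : Finset (JI G.w (Option (Fin m)) → ℤ)), 1 ≤ s → G.Ok s → G.AOk T P → T.U = univ → 2 ≤ P →
    1 ≤ Z → 0 ≤ Y → Y ≤ Z → (Fintype.card ι : ℝ) * (m + 2) ^ s ≤ P →
    (∀ ν, Real.exp (-Z) ≤ ω ν ∧ ω ν ≤ Real.exp Z) → (L : ℝ) ≤ Real.exp Z → 0 < κ → κ ≤ B →
    Real.exp (4 * Y + 20) * (B / κ) ^ 2 ≤ L → 3 ≤ r → 8 * s * r ≤ m → 64 * B ≤ κ * 2 ^ r →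
    Cnts G T (4 * m + 4) (Real.exp (-(P ^ c * Z))) (P ^ c * Z) → (∀ z, |F z| ≤ B) →
    Real.exp (-Y) * bm G T ω ≤ ∑ β ∈ Fam, bw G T ω 1 0 β →
    (∀ β ∈ Fam, κ ≤ 𝔼 t ∈ Fintype.piFinset (fun _ : Fin m => Finset.Ico (0 : ℤ) L),
      F (ev (pt t) β)) →
    ∃ (n : ℕ) (σ : ℝ) (y : ι → ℤ) (c' : ι → ℝ), 1 ≤ n ∧ (n : ℝ) ≤ Real.exp (Y + 3) ∧ 1 ≤ σ ∧
      σ ≤ Real.exp (P ^ c * Z) ∧
      κ / 4 * ∑' z : ι → ℤ, ww G T σ c' (y + (n : ℤ) • z) ≤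
        ∑' z : ι → ℤ, ww G T σ c' (y + (n : ℤ) • z) * F (y + (n : ℤ) • z)

end

end Vale.Agent.P057T.Cfg
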