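import Vale.Agent.P057T.Cfg.Lift0
import Vale.Agent.P057T.CutH64c
import Vale.Agent.P057T.LiftD

/-!
Windows as Gaussians, the narrow cell, shifts of the local averages.
-/

set_option linter.all false

open Finset Matrix
open scoped Real

namespace Vale.Agent.P057T.Cfg.Lf

open Vale.Agent.P057T.Eq Vale.Agent.P057T.Cut Vale.Agent.P057T.Poi Vale.Agent.P267.H775
open _root_.P057T.LiftC

noncomputable section

variable {ι : Type} [Fintype ι] [DecidableEq ι]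

theorem qf_diag (s x : ι → ℝ) (σ : ℝ) : qf (σ • diagonal s) x = ∑ a, (σ * s a * x a) ^ 2 := by
  rw [qf_smul]
  simp only [qf, mulVec_diagonal, Finset.mul_sum]
  exact Finset.sum_congr rfl fun a _ => by ring

theorem det_diag {s : ι → ℝ} (hs : ∀ a, 0 < s a) {σ : ℝ} (hσ : 0 < σ) :
    (σ • diagonal s).det ≠ 0 := by
  rw [det_smul, det_diagonal]
  exact mul_ne_zero (pow_ne_zero _ hσ.ne') (Finset.prod_ne_zero_iff.2 fun a _ => (hs a).ne')

theorem ww_gq (G : GT ι) (T : AT ι) (hU : T.U = univ) (σ : ℝ) (c : ι → ℝ) (z : ι → ℤ) :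
    ww G T σ (fun a => σ * c a) z = gq (σ • diagonal T.sg) (uv G T z - c) := by
  unfold ww gq
  rw [qf_diag, hU]
  congr 2
  exact Finset.sum_congr rfl fun a _ => by simp only [Pi.sub_apply]; ring

/-- counts of all windows of width `σ` on all classes modulo `n` -/
def GC (s : ι → ℝ) (u : (ι → ℤ) → ι → ℝ) (M δ : ℝ) (n : ℕ) (σ : ℝ) : Prop :=
  ∀ r : ι → ℤ, Mas (σ • diagonal s) (fun z : ι → ℤ => u (r + (n : ℤ) • z))
    (M * ((σ * n) ^ Fintype.card ι)⁻¹) δ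

theorem cnt_gc {G : GT ι} {T : AT ι} (hU : T.U = univ) {δ σ : ℝ} {n : ℕ} (h : Cnt G T δ n σ) :
    GC T.sg (uv G T) (G.mn T.sg univ) δ n σ := by
  intro r
  let E : Lat T.U ≃ (ι → ℤ) := Equiv.subtypeUnivEquiv fun z a ha => absurd (hU ▸ mem_univ a) ha
  have key : ∀ x : ι → ℝ, (fun z : Lat T.U => ww G T σ (fun a => σ * x a) (r + (n : ℤ) • z.1)) =
      fun z => (fun z : ι → ℤ => gq (σ • diagonal T.sg) (uv G T (r + (n : ℤ) • z) - x)) (E z) :=
    fun x => funext fun z => ww_gq G T hU σ x _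
  refine ⟨fun x => ?_, fun x => ?_⟩
  · have := (h r fun a => σ * x a).1
    rw [key] at this
    exact E.summable_iff.1 this
  · have := (h r fun a => σ * x a).2
    rw [key, E.tsum_eq (fun z : ι → ℤ => gq (σ • diagonal T.sg) (uv G T (r + (n : ℤ) • z) - x)),
      hU, card_univ] at this
    exact this

theorem GC.pos {s : ι → ℝ} {u : (ι → ℤ) → ι → ℝ} {M δ : ℝ} (h : GC s u M δ 1 1) (hδ : 0 ≤ δ) :
    0 < M := by
  have h1 := (h 0).ms 0
  have h2 := ((h 0).sm 0).tsum_pos (fun _ => (gq_pos _ _).le) 0 (gq_pos _ _)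
  simp only [Nat.cast_one, mul_one, one_pow, inv_one] at h1 h2
  by_contra hM
  push Not at hM
  have := (abs_le.1 h1).2
  nlinarith

theorem GC.one {s : ι → ℝ} {u : (ι → ℤ) → ι → ℝ} {M δ σ : ℝ} (h : GC s u M δ 1 σ) :
    Mas (σ • diagonal s) u (M * (σ ^ Fintype.card ι)⁻¹) δ := by
  simpa using h 0

open Classical in
theorem tsum_cls (f : (ι → ℤ) → ℝ) {h : ℕ} (hh : 0 < h) (c : ι → ℤ) :
    ∑' x, (if Cg h x c then f x else 0) = ∑' z : ι → ℤ, f (c + (h : ℤ) • z) := by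
  have hdz : (h : ℤ) ≠ 0 := by exact_mod_cast hh.ne'
  have hinj : Function.Injective (fun x : ι → ℤ => c + (h : ℤ) • x) := fun x x' e =>
    smul_right_injective _ hdz (add_left_cancel e)
  rw [← hinj.tsum_eq]
  · exact tsum_congr fun x => if_pos (cg_iff.2 ⟨x, rfl⟩)
  · intro x hx
    have h1 : Cg h x c := by
      by_contra h1
      exact hx (if_neg h1)
    obtain ⟨z, hz⟩ := cg_iff.1 h1
    exact ⟨z, hz.symm⟩

theorem gq_tail (C : Matrix ι ι ℝ) (x : ι → ℝ) {ρ : ℝ} (hρ : 0 ≤ ρ) (h : ρ ≤ qf C x) :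
    gq C x ≤ gq ((1 / 2 : ℝ) • C) x * Real.exp (-(2 * ρ)) := by
  unfold gq
  rw [qf_smul, ← Real.exp_add, Real.exp_le_exp]
  have := Real.pi_gt_three
  nlinarith

/-- the narrow cell -/
theorem cell {s : ι → ℝ} {u : (ι → ℤ) → ι → ℝ} {M δ ε σ ρ P θ : ℝ} {N : ℕ} (hM : 0 < M)
    (hP : 0 < P) (hs : ∀ a, P⁻¹ ≤ s a) (hδ0 : 0 ≤ δ) (hδ : δ ≤ 1 / 2) (hε : 0 < ε) (hσ : 1 ≤ σ)
    (hθ : 0 < θ) (hρ : 0 ≤ ρ) (hN : 1 ≤ N) (h1 : GC s u M δ 1 1) (h2 : GC s u M δ 1 (σ / 2))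
    (h3 : ∀ n, 1 ≤ n → n ≤ N → GC s u M δ n σ)
    (num1 : (2 * δ + (σ ^ 2)⁻¹ * 2 ^ Fintype.card ι) / θ + 4 * θ < ε / 2)
    (num2 : 2 * 2 ^ Fintype.card ι * Real.exp (-(2 * ρ)) ≤ ε / 16)
    (Fam : Finset (ι → ℤ)) (hF : ε * M ≤ ∑ β ∈ Fam, gq ((1 : ℝ) • diagonal s) (u β)) :
    ∃ (p : (ι → ℤ) → ℝ), ∃ Fam' ⊆ Fam, (∀ β, 0 ≤ p β) ∧ ε / 16 ≤ ∑ β ∈ Fam', p β ∧
      (∀ n, 1 ≤ n → n ≤ N → ∀ c, cm id p Fam' n c ≤ 2 / (n : ℝ) ^ Fintype.card ι) ∧
      ∀ β ∈ Fam', ∀ β' ∈ Fam', ∀ a, |u β a - u β' a| ≤ 2 * P * (ρ + 1) / σ := by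
  classical
  have hσ0 : 0 < σ := by linarith
  have hs0 : ∀ a, 0 < s a := fun a => (inv_pos.2 hP).trans_le (hs a)
  set K := Fintype.card ι with hK
  set N2 : ℝ := M * (σ ^ K)⁻¹ with hN2
  have hN2p : 0 < N2 := by positivity
  have m1 : Mas ((1 : ℝ) • diagonal s) u M δ := by simpa using h1.one
  have m3 := (h3 1 le_rfl hN).one
  have m2 := h2.one
  have hind : ∀ (f : (ι → ℤ) → ℝ), ∑' b, f b * (if b ∈ Fam then (1 : ℝ) else 0) = ∑ b ∈ Fam, f b := by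
    intro f
    rw [tsum_eq_sum (s := Fam) fun b hb => by rw [if_neg hb, mul_zero]]
    exact Finset.sum_congr rfl fun b hb => by rw [if_pos hb, mul_one]
  obtain ⟨c, hc⟩ : ∃ c, ε / 4 * ∑' b, gq (σ • diagonal s) (u b - c) <
      ∑ b ∈ Fam, gq (σ • diagonal s) (u b - c) := by
    by_contra hcon
    push Not at hcon
    have := mixt1 (det_diag hs0 one_pos) (det_diag hs0 hσ0) hM.le (by linarith) hδ0 hθ m1
      (η := (σ ^ 2)⁻¹) (e := ε / 4) (fun x => by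
        rw [qf_smul, qf_smul, ← mul_assoc, inv_mul_cancel₀ (by positivity)]; simp)
      (by positivity) (inv_le_one_of_one_le₀ (one_le_pow₀ hσ)) (by positivity)
      (H := fun b => if b ∈ Fam then (1 : ℝ) else 0) (fun b => by split_ifs <;> simp)
      (fun c => by rw [hind]; exact hcon c)
    rw [hind] at this
    have h5 : (2 * (ε / 4) + (2 * δ + (σ ^ 2)⁻¹ * 2 ^ K) / θ + 4 * θ) * M < ε * M :=
      mul_lt_mul_of_pos_right (by linarith) hM
    linarith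
  have hlow : ε / 8 * N2 ≤ ∑ b ∈ Fam, gq (σ • diagonal s) (u b - c) := by
    have := (abs_le.1 (m3.ms c)).1
    have h5 : N2 / 2 ≤ ∑' b, gq (σ • diagonal s) (u b - c) := by nlinarith
    nlinarith
  have htail : ∑ b ∈ Fam.filter (fun b => ¬ qf (σ • diagonal s) (u b - c) ≤ ρ),
      gq (σ • diagonal s) (u b - c) ≤ ε / 16 * N2 := by
    have e1 : (1 / 2 : ℝ) • σ • diagonal s = (σ / 2) • diagonal s := by
      rw [smul_smul]; congr 1; ring
    calc _ ≤ ∑ b ∈ Fam.filter (fun b => ¬ qf (σ • diagonal s) (u b - c) ≤ ρ),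
          gq ((σ / 2) • diagonal s) (u b - c) * Real.exp (-(2 * ρ)) := by
          refine Finset.sum_le_sum fun b hb => ?_
          rw [← e1]
          exact gq_tail _ _ hρ (not_le.1 (mem_filter.1 hb).2).le
      _ ≤ (∑' b, gq ((σ / 2) • diagonal s) (u b - c)) * Real.exp (-(2 * ρ)) := by
          rw [← Finset.sum_mul]
          exact mul_le_mul_of_nonneg_right ((m2.sm c).sum_le_tsum _ fun _ _ => (gq_pos _ _).le)
            (Real.exp_pos _).le
      _ ≤ (2 * (2 ^ K * N2)) * Real.exp (-(2 * ρ)) := by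
          refine mul_le_mul_of_nonneg_right ?_ (Real.exp_pos _).le
          have := (abs_le.1 (m2.ms c)).2
          have e2 : M * ((σ / 2) ^ K)⁻¹ = 2 ^ K * N2 := by
            rw [hN2, div_pow]; field_simp
          rw [e2] at this
          have : 0 < 2 ^ K * N2 := by positivity
          nlinarith
      _ = 2 * 2 ^ K * Real.exp (-(2 * ρ)) * N2 := by ring
      _ ≤ _ := mul_le_mul_of_nonneg_right num2 hN2p.le
  refine ⟨fun b => gq (σ • diagonal s) (u b - c) / N2,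
    Fam.filter fun b => qf (σ • diagonal s) (u b - c) ≤ ρ, filter_subset _ _,
    fun b => div_nonneg (gq_pos _ _).le hN2p.le, ?_, fun n hn hnN r => ?_, fun b hb b' hb' a => ?_⟩
  · rw [← Finset.sum_div, le_div_iff₀ hN2p]
    have := sum_filter_add_sum_filter_not Fam (fun b => qf (σ • diagonal s) (u b - c) ≤ ρ)
      (fun b => gq (σ • diagonal s) (u b - c))
    linarith
  · have hn' : (0 : ℝ) < n := by exact_mod_cast hn
    have sp : Summable fun b => gq (σ • diagonal s) (u b - c) / N2 := (m3.sm c).div_const _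
    have sf : Summable fun b => if Cg n b r then gq (σ • diagonal s) (u b - c) / N2 else 0 :=
      Summable.of_nonneg_of_le (fun b => by
          split_ifs
          · exact div_nonneg (gq_pos _ _).le hN2p.le
          · exact le_rfl)
        (fun b => by
          split_ifs
          · exact le_rfl
          · exact div_nonneg (gq_pos _ _).le hN2p.le) sp
    have h5 := sf.sum_le_tsum (Fam.filter fun b => qf (σ • diagonal s) (u b - c) ≤ ρ)
      (fun b _ => by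
        split_ifs
        · exact div_nonneg (gq_pos _ _).le hN2p.le
        · exact le_rfl)
    rw [tsum_cls (fun b => gq (σ • diagonal s) (u b - c) / N2) hn r, tsum_div_const] at h5
    have h6 := (abs_le.1 ((h3 n hn hnN r).ms c)).2
    have e2 : M * ((σ * n) ^ K)⁻¹ = N2 / (n : ℝ) ^ K := by
      rw [hN2, mul_pow]; field_simp
    rw [e2] at h6
    have h7 : 0 < N2 / (n : ℝ) ^ K := by positivity
    refine le_trans (le_of_eq ?_) (h5.trans ?_)
    · unfold cm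
      exact Finset.sum_congr rfl fun b _ => by simp only [id]
    · rw [div_le_iff₀ hN2p]
      have e3 : 2 / (n : ℝ) ^ K * N2 = 2 * (N2 / (n : ℝ) ^ K) := by ring
      rw [e3]
      nlinarith
  · have key : ∀ b, qf (σ • diagonal s) (u b - c) ≤ ρ → |u b a - c a| ≤ P * (ρ + 1) / σ := by
      intro b hb
      rw [qf_diag] at hb
      have h5 := (single_le_sum (f := fun a => (σ * s a * (u b - c) a) ^ 2)
        (fun _ _ => sq_nonneg _) (mem_univ a)).trans hb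
      have h6 : |σ * s a * (u b - c) a| ≤ ρ + 1 := abs_le_of_sq_le_sq (by nlinarith) (by linarith)
      rw [abs_mul, abs_of_pos (mul_pos hσ0 (hs0 a)), Pi.sub_apply] at h6
      have h7 : 1 ≤ P * s a := by
        have := mul_le_mul_of_nonneg_left (hs a) hP.le
        rwa [mul_inv_cancel₀ hP.ne'] at this
      rw [le_div_iff₀ hσ0]
      have h8 : 0 ≤ |u b a - c a| * σ := by positivity
      calc |u b a - c a| * σ ≤ (P * s a) * (|u b a - c a| * σ) := le_mul_of_one_le_left h8 h7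
        _ = P * (σ * s a * |u b a - c a|) := by ring
        _ ≤ _ := mul_le_mul_of_nonneg_left h6 hP.le
    have k1 := key b (mem_filter.1 hb).2
    have k2 := key b' (mem_filter.1 hb').2
    have : u b a - u b' a = (u b a - c a) - (u b' a - c a) := by ring
    rw [this]
    refine (abs_sub _ _).trans ?_
    have : 2 * P * (ρ + 1) / σ = P * (ρ + 1) / σ + P * (ρ + 1) / σ := by ring
    linarith

/-- the weighted function with centre `ζ` -/
def ps (s : ι → ℝ) (u : (ι → ℤ) → ι → ℝ) (M σ : ℝ) (F : (ι → ℤ) → ℝ) (ζ : ι → ℝ) (z : ι → ℤ) : ℝ :=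
  gq (σ • diagonal s) (u z - ζ) / (M * (σ ^ Fintype.card ι)⁻¹) * F z

section lip
variable {s : ι → ℝ} {u : (ι → ℤ) → ι → ℝ} {M δ σ B : ℝ} {F : (ι → ℤ) → ℝ}

theorem sm_F {β : Type} {g : β → ℝ} {F : β → ℝ} (hg : Summable g) (hF : ∀ z, |F z| ≤ B) :
    Summable fun z => g z * F z := by
  refine Summable.of_norm_bounded (hg.abs.mul_right B) fun z => ?_
  rw [Real.norm_eq_abs, abs_mul]
  exact mul_le_mul_of_nonneg_left (hF z) (abs_nonneg _)

theorem abs_tsum_F {β : Type} {g : β → ℝ} {F : β → ℝ} (hg : Summable g) (hF : ∀ z, |F z| ≤ B) :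
    |∑' z, g z * F z| ≤ (∑' z, |g z|) * B := by
  rw [← Real.norm_eq_abs]
  refine tsum_of_norm_bounded (hg.abs.hasSum.mul_right B) fun z => ?_
  rw [Real.norm_eq_abs, abs_mul]
  exact mul_le_mul_of_nonneg_left (hF z) (abs_nonneg _)

theorem ps_sm (h : GC s u M δ 1 σ) (hF : ∀ z, |F z| ≤ B) (ζ : ι → ℝ) :
    Summable (ps s u M σ F ζ) := sm_F ((h.one.sm ζ).div_const _) hF

theorem Pc_ps (hM : 0 < M) (hσ : 0 < σ) {n : ℕ} (hn : 1 ≤ n) (ζ : ι → ℝ) (y : ι → ℤ) :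
    Pc (ps s u M σ F ζ) n y = (∑' z : ι → ℤ, gq (σ • diagonal s) (u (y + (n : ℤ) • z) - ζ) *
      F (y + (n : ℤ) • z)) / (M * ((σ * n) ^ Fintype.card ι)⁻¹) := by
  have hn' : (0 : ℝ) < n := by exact_mod_cast hn
  unfold Pc ps
  rw [← tsum_div_const, ← tsum_mul_left]
  refine tsum_congr fun z => ?_
  rw [mul_pow]
  field_simp

theorem Pc_bd (hM : 0 < M) (hσ : 0 < σ) {n : ℕ} (hn : 1 ≤ n) (h : GC s u M δ n σ) (hδ : δ ≤ 1)
    (hF : ∀ z, |F z| ≤ B) (ζ : ι → ℝ) (y : ι → ℤ) : |Pc (ps s u M σ F ζ) n y| ≤ 2 * B := by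
  have hn' : (0 : ℝ) < n := by exact_mod_cast hn
  have hB : 0 ≤ B := (abs_nonneg _).trans (hF 0)
  have hm : 0 < M * ((σ * n) ^ Fintype.card ι)⁻¹ := by positivity
  rw [Pc_ps hM hσ hn, abs_div, abs_of_pos hm, div_le_iff₀ hm]
  refine (abs_tsum_F ((h y).sm ζ) fun z => hF _).trans ?_
  simp only [abs_of_pos (gq_pos _ _)]
  have := (abs_le.1 ((h y).ms ζ)).2
  have h2 : ∑' z : ι → ℤ, gq (σ • diagonal s) (u (y + (n : ℤ) • z) - ζ) ≤
      2 * (M * ((σ * n) ^ Fintype.card ι)⁻¹) := by nlinarith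
  nlinarith

theorem Pc_lip (hM : 0 < M) (hσ : 0 < σ) {n : ℕ} (hn : 1 ≤ n) (h : GC s u M δ n σ) (hδ : δ ≤ 1)
    (hδ0 : 0 ≤ δ) (hF : ∀ z, |F z| ≤ B) {θ : ℝ} (hθ : 0 < θ) (ζ ζ' : ι → ℝ) (y : ι → ℤ) :
    |Pc (ps s u M σ F ζ) n y - Pc (ps s u M σ F ζ') n y| ≤
      B * ((2 * δ + qf (σ • diagonal s) (ζ' - ζ)) / θ + 4 * θ) := by
  have hn' : (0 : ℝ) < n := by exact_mod_cast hn
  have hB : 0 ≤ B := (abs_nonneg _).trans (hF 0)
  have hm : 0 < M * ((σ * n) ^ Fintype.card ι)⁻¹ := by positivity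
  obtain ⟨-, h2⟩ := hell (h y) hm.le hδ hδ0 hθ ζ (ζ' - ζ)
  simp only [sub_sub, add_sub_cancel] at h2
  rw [Pc_ps hM hσ hn, Pc_ps hM hσ hn, ← sub_div, abs_div, abs_of_pos hm, div_le_iff₀ hm,
    ← (sm_F ((h y).sm ζ) fun z => hF _).tsum_sub (sm_F ((h y).sm ζ') fun z => hF _)]
  simp only [← sub_mul]
  refine (abs_tsum_F (((h y).sm ζ).sub ((h y).sm ζ')) fun z => hF _).trans ?_
  calc _ ≤ (M * ((σ * n) ^ Fintype.card ι)⁻¹ *
        ((2 * δ + qf (σ • diagonal s) (ζ' - ζ)) / θ + 4 * θ)) * B :=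
        mul_le_mul_of_nonneg_right h2 hB
    _ = _ := by ring

theorem Pc_out (hM : 0 < M) (hσ : 0 < σ) {n : ℕ} (hn : 1 ≤ n) (h : GC s u M δ n σ)
    (hδ : δ ≤ 1 / 4) {κ : ℝ} (hκ : 0 < κ) (ζ : ι → ℝ) (y : ι → ℤ)
    (hP : 5 * κ / 16 ≤ Pc (ps s u M σ F ζ) n y) :
    κ / 4 * ∑' z : ι → ℤ, gq (σ • diagonal s) (u (y + (n : ℤ) • z) - ζ) ≤
      ∑' z : ι → ℤ, gq (σ • diagonal s) (u (y + (n : ℤ) • z) - ζ) * F (y + (n : ℤ) • z) := by
  have hn' : (0 : ℝ) < n := by exact_mod_cast hn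
  have hm : 0 < M * ((σ * n) ^ Fintype.card ι)⁻¹ := by positivity
  rw [Pc_ps hM hσ hn, le_div_iff₀ hm] at hP
  have := (abs_le.1 ((h y).ms ζ)).2
  have h2 : ∑' z : ι → ℤ, gq (σ • diagonal s) (u (y + (n : ℤ) • z) - ζ) ≤
      5 / 4 * (M * ((σ * n) ^ Fintype.card ι)⁻¹) := by nlinarith
  nlinarith

end lip

theorem Pk_eq (G : GT ι) (T : AT ι) (hU : T.U = univ) (σ : ℝ) (F : (ι → ℤ) → ℝ) {h : ℕ}
    (hh : 1 ≤ h) (x : ι → ℤ) :
    H88.Pk (Kw G T σ) F h x = Pc (ps T.sg (uv G T) (G.mn T.sg univ) σ F (uv G T x)) h x := by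
  classical
  unfold H88.Pk Pc
  rw [← tsum_cls _ hh x]
  congr 1
  refine tsum_congr fun z => ?_
  unfold H88.cl Kw ps
  rw [ww_gq G T hU]
  by_cases h1 : Cg h z x
  · rw [if_pos h1, if_pos (show ∀ i, (h : ℤ) ∣ z i - x i from h1), one_mul]
  · rw [if_neg h1, if_neg (show ¬ ∀ i, (h : ℤ) ∣ z i - x i from h1), zero_mul]

end

end Vale.Agent.P057T.Cfg.Lf
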