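import Vale.Agent.P057T.Cfg.Lift1

/-!
Points of boxes: additivity, slots, closeness of the charts.
-/

set_option linter.all false

open MvPolynomial Finset
open scoped Real

namespace Vale.Agent.P057T.Cfg.Lf

open Vale.Agent.P057T.Eq

noncomputable section

variable {ι V : Type} [Fintype ι] [DecidableEq ι] [Fintype V] [DecidableEq V]

/-- the point at the parameter `t` as an additive map -/
def evH (w : ι → ℕ) (t : V → ℤ) : (JI w V → ℤ) →+ (ι → ℤ) := AddMonoidHom.mk' (ev t) (ev_add t)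

/-- one monomial for every variable -/
def sl (w : ι → ℕ) (f : ι → V →₀ ℕ) (y : ι → ℤ) : JI w V → ℤ :=
  fun x => coeff x.1.2 (monomial (f x.1.1) (y x.1.1))

theorem ev_sl {w : ι → ℕ} {f : ι → V →₀ ℕ} (hf : ∀ a, (f a).degree = w a) (y : ι → ℤ) (t : V → ℤ)
    (a : ι) : ev t (sl w f y) a = y a * (f a).prod fun v e => t v ^ e := by
  have := pl_coeff (w := w) (Q := fun a => monomial (f a) (y a))
    (fun a => isHomogeneous_monomial _ (hf a)) a
  unfold ev sl
  rw [this, eval_monomial]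

theorem sh_ev {w : ι → ℕ} (hw : ∀ a, 1 ≤ w a) {m : ℕ} (t t' : Fin m → ℤ) (y : ι → ℤ) :
    ∃ δ, evH w (pt t) δ = 0 ∧ evH w (pt t') δ = (_root_.P057T.LiftC.gg t t' : ℤ) • y := by
  have h0 : ∀ (t : Fin m → ℤ) (y : ι → ℤ),
      evH w (pt t) (sl w (fun a => Finsupp.single none (w a)) y) = y := by
    intro t y
    funext a
    have := ev_sl (w := w) (f := fun a => Finsupp.single (none : Option (Fin m)) (w a))
      (fun a => by simp) y (pt t) a
    refine this.trans ?_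
    rw [Finsupp.prod_single_index (by simp)]
    simp [pt]
  have h1 : ∀ (t : Fin m → ℤ) (l : Fin m) (y : ι → ℤ), evH w (pt t)
      (sl w (fun a => Finsupp.single none (w a - 1) + Finsupp.single (some l) 1) y) = t l • y := by
    intro t l y
    funext a
    have := ev_sl (w := w) (f := fun a => Finsupp.single (none : Option (Fin m)) (w a - 1) +
      Finsupp.single (some l) 1) (fun a => by
        have := hw a
        rw [map_add, Finsupp.degree_single, Finsupp.degree_single]; omega) y (pt t) a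
    refine this.trans ?_
    rw [Finsupp.prod_add_index' (by simp) (fun _ _ _ => pow_add _ _ _),
      Finsupp.prod_single_index (by simp), Finsupp.prod_single_index (by simp)]
    simp [pt, mul_comm]
  exact _root_.P057T.LiftC.sh_of (fun t => evH w (pt t)) t t' _ _ (h0 t) (h0 t') (h1 t) (h1 t') y

theorem ev_bd {w : ι → ℕ} {s : ℕ} (hw : ∀ a, w a ≤ s) {t : V → ℝ} {E η : ℝ} (hE : 1 ≤ E)
    (hη : 0 ≤ η) (ht : ∀ v, |t v| ≤ E) {z : JI w V → ℝ} (hz : ∀ x, |z x| ≤ η) (a : ι) :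
    |ev t z a| ≤ Fintype.card (JI w V) * (η * E ^ s) := by
  unfold ev pl
  rw [map_sum]
  refine (abs_sum_le_sum_abs _ _).trans ?_
  rw [← card_univ, ← nsmul_eq_mul]
  refine sum_le_card_nsmul _ _ _ fun x _ => ?_
  split_ifs with h
  · rw [eval_monomial, abs_mul]
    refine mul_le_mul (hz x) ?_ (abs_nonneg _) hη
    unfold Finsupp.prod
    rw [abs_prod]
    calc _ ≤ ∏ v ∈ x.1.2.support, E ^ x.1.2 v := prod_le_prod (fun _ _ => abs_nonneg _) fun v _ => by
          rw [abs_pow]; exact pow_le_pow_left₀ (abs_nonneg _) (ht v) _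
      _ = E ^ x.1.2.degree := by rw [prod_pow_eq_pow_sum]; rfl
      _ ≤ E ^ s := pow_le_pow_right₀ hE (by rw [JI_deg]; exact hw _)
  · rw [map_zero, abs_zero]; positivity

theorem near (hJ : JOK) {s : ℕ} {G : GT ι} (hG : G.Ok s) {T : AT ι} {P : ℝ} (hT : G.AOk T P)
    (hU : T.U = univ) {e t : V → ℤ} (he : ∑ v, e v * t v = 1) {ω : (V →₀ ℕ) → ℝ} {E η : ℝ}
    (hE : 1 ≤ E) (hη : 0 ≤ η) (hω : ∀ ν, E⁻¹ ≤ ω ν) (ht : ∀ v, |(t v : ℝ)| ≤ E)
    (U : Finset (JI G.w V)) (β β' : JI G.w V → ℤ)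
    (h : ∀ x, |uv (jet G V ω) (jat G T e ω U) β x - uv (jet G V ω) (jat G T e ω U) β' x| ≤ η)
    (a : ι) :
    |uv G T (ev t β) a - uv G T (ev t β') a| ≤ Fintype.card (JI G.w V) * (E * η * E ^ s) := by
  have hE0 : 0 < E := by linarith
  have hω0 : ∀ ν, 0 < ω ν := fun ν => (inv_pos.2 hE0).trans_le (hω ν)
  have hth := (hJ s ι V G ω hG hω0).2.1
  have hp := hT.pd a (hU ▸ mem_univ a)
  rw [uv_ev he hp, uv_ev he hp, ← map_sub]
  have h1 := pl_coeff (w := G.w) (Q := fun a => tp G T e (cz β) a - tp G T e (cz β') a)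
    (fun a => (tp_hom hG T e _ a).sub (tp_hom hG T e _ a)) a
  rw [← h1]
  refine ev_bd hG.ws hE (by positivity) ht (fun x => ?_) a
  have h2 := h x
  rw [uv_jet G T e ω U hth, uv_jet G T e ω U hth, ← mul_sub, ← coeff_sub, abs_mul,
    abs_of_pos (hω0 _)] at h2
  have h3 : 1 ≤ E * ω x.1.2 := by
    have := mul_le_mul_of_nonneg_left (hω x.1.2) hE0.le
    rwa [mul_inv_cancel₀ hE0.ne'] at this
  calc _ ≤ (E * ω x.1.2) * |coeff x.1.2 (tp G T e (cz β) x.1.1 - tp G T e (cz β') x.1.1)| :=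
        le_mul_of_one_le_left (abs_nonneg _) h3
    _ = E * (ω x.1.2 * |coeff x.1.2 (tp G T e (cz β) x.1.1 - tp G T e (cz β') x.1.1)|) := by ring
    _ ≤ E * η := mul_le_mul_of_nonneg_left h2 hE0.le

end

end Vale.Agent.P057T.Cfg.Lf
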