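import Vale.Agent.P057T.Cfg.Lift2

/-!
The lifting step for a clean family, with abstract numerical hypotheses.
-/

set_option linter.all false

open Finset Matrix
open scoped Real BigOperators

namespace Vale.Agent.P057T.Cfg.Lf

open Vale.Agent.P057T.Eq Vale.Agent.P057T.Cut Vale.Agent.P057T.Poi Vale.Agent.P267.H775
open _root_.P057T.LiftC

noncomputable section

variable {ι : Type} [Fintype ι] [DecidableEq ι]

theorem rem_cmp {τ : Type} (Pt : ℕ → τ → (ι → ℤ) → ℝ) (R : ℕ → ℝ) (f lip : ℝ) {n Q : ℕ} (t : τ)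
    (x : ι → ℤ) (hl : 0 ≤ lip) (h : ∀ d, 1 ≤ d → d ≤ Q → |R (n * d) - Pt (n * d) t x| ≤ lip) :
    f - H88.Rem R f n Q - (Q : ℝ) ^ 2 * lip ≤ ∑ n1 ∈ Icc 1 Q, Fm Pt n n1 t x := by
  unfold H88.Rem
  have h1 : ∀ n1 ∈ Icc 1 Q, LiftC.mt (fun d => R (n * d)) n1 - Q * lip ≤ Fm Pt n n1 t x := by
    intro n1 hn1
    rw [mem_Icc] at hn1
    have h2 := abs_Fm_le (fun h t y => R h - Pt h t y) (n := n) (n1 := n1) t x hl fun d hd =>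
      h d (Nat.pos_of_dvd_of_pos hd hn1.1) ((Nat.le_of_dvd hn1.1 hd).trans hn1.2)
    have h3 : Fm (fun h t y => R h - Pt h t y) n n1 t x =
        LiftC.mt (fun d => R (n * d)) n1 - Fm Pt n n1 t x := by
      rw [LiftC.mt_eq]
      unfold Fm
      rw [← sum_sub_distrib]
      exact sum_congr rfl fun _ _ => by ring
    rw [h3] at h2
    have h4 : lip * n1 ≤ Q * lip := by
      rw [mul_comm]
      exact mul_le_mul_of_nonneg_right (by exact_mod_cast hn1.2) hl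
    linarith [(abs_le.1 h2).2]
  have h5 := sum_le_sum h1
  rw [sum_sub_distrib, sum_const, Nat.card_Icc, nsmul_eq_mul] at h5
  simp only [Nat.add_sub_cancel] at h5
  nlinarith

theorem avg_low {τ : Type} (S : Finset τ) (f R g : τ → ℝ) {κ : ℝ}
    (key : ∀ t ∈ S, f t - R t - κ / 16 ≤ g t) (h2 : κ ≤ 𝔼 t ∈ S, f t)
    (h3 : |𝔼 t ∈ S, R t| ≤ κ / 8) : 13 * κ / 16 * S.card ≤ ∑ t ∈ S, g t := by
  have h1 := sum_le_sum key
  rw [sum_sub_distrib, sum_sub_distrib, sum_const, nsmul_eq_mul, ← card_mul_expect,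
    ← card_mul_expect] at h1
  have h4 : (0 : ℝ) ≤ S.card := Nat.cast_nonneg _
  have h5 := mul_le_mul_of_nonneg_left h2 h4
  have h6 := mul_le_mul_of_nonneg_left (abs_le.1 h3).2 h4
  linarith

theorem pt_low {G : GT ι} {T : AT ι} {P : ℝ} (hT : G.AOk T P) (hU : T.U = univ) (hP : 0 < P)
    {τ : Type} {F : (ι → ℤ) → ℝ} {B κ δ σ0 θ2 η : ℝ} {ns Q n : ℕ} (hF : ∀ z, |F z| ≤ B)
    (hδ0 : 0 ≤ δ) (hδ : δ ≤ 1 / 4) (hσ0 : 0 < σ0) (hθ2 : 0 < θ2) (hM : 0 < G.mn T.sg univ)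
    (gh : ∀ n, 1 ≤ n → n ≤ ns * Q → GC T.sg (uv G T) (G.mn T.sg univ) δ n σ0)
    (num3 : (Q : ℝ) ^ 2 * (B * ((2 * δ + Fintype.card ι * (σ0 * P * η) ^ 2) / θ2 + 4 * θ2)) ≤
      κ / 16) (hn1 : 1 ≤ n) (hn2 : n ≤ ns) (ζ : τ → ι → ℝ) (t : τ) (x : ι → ℤ)
    (hcl : ∀ a, |ζ t a - uv G T x a| ≤ η) :
    F x - H88.Rem (fun h => H88.Pk (Kw G T σ0) F h x) (F x) n Q - κ / 16 ≤
      ∑ n1 ∈ Icc 1 Q, Fm (fun h t => Pc (ps T.sg (uv G T) (G.mn T.sg univ) σ0 F (ζ t)) h)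
        n n1 t x := by
  have hB0 : 0 ≤ B := (abs_nonneg _).trans (hF 0)
  have hs0 : ∀ a, 0 < T.sg a := fun a => (inv_pos.2 hP).trans_le (hT.s1 a)
  have hq : qf (σ0 • diagonal T.sg) (ζ t - uv G T x) ≤ Fintype.card ι * (σ0 * P * η) ^ 2 := by
    rw [qf_diag, ← card_univ, ← nsmul_eq_mul]
    refine sum_le_card_nsmul _ _ _ fun a _ => ?_
    rw [← sq_abs, abs_mul, abs_of_pos (mul_pos hσ0 (hs0 a))]
    refine pow_le_pow_left₀ (mul_nonneg (mul_pos hσ0 (hs0 a)).le (abs_nonneg _)) ?_ 2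
    exact mul_le_mul (mul_le_mul_of_nonneg_left (hT.s2 a) hσ0.le) (hcl a) (abs_nonneg _)
      (by positivity)
  have h1 := rem_cmp (fun h t => Pc (ps T.sg (uv G T) (G.mn T.sg univ) σ0 F (ζ t)) h)
    (fun h => H88.Pk (Kw G T σ0) F h x) (F x)
    (B * ((2 * δ + Fintype.card ι * (σ0 * P * η) ^ 2) / θ2 + 4 * θ2))
    (n := n) (Q := Q) t x (by positivity) fun d hd1 hd2 => by
      have a1 : 1 ≤ n * d := Nat.mul_pos hn1 hd1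
      rw [Pk_eq G T hU σ0 F a1]
      refine (Pc_lip hM hσ0 a1 (gh _ a1 (Nat.mul_le_mul hn2 hd2)) (by linarith) hδ0 hF hθ2 _
        (ζ t) _).trans ?_
      refine mul_le_mul_of_nonneg_left ?_ hB0
      gcongr
  exact le_trans (by linarith) h1

theorem bw_gq (G : GT ι) (T : AT ι) {m : ℕ} (ω : (Option (Fin m) →₀ ℕ) → ℝ)
    (β : JI G.w (Option (Fin m)) → ℤ) :
    bw G T ω 1 0 β = gq ((1 : ℝ) • diagonal fun x : JI G.w (Option (Fin m)) =>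
      T.sg x.1.1) (uv (jet G _ ω) (jat G T (e0 m) ω univ) β) := by
  have := ww_gq (jet G _ ω) (jat G T (e0 m) ω univ) rfl 1 0 β
  simp only [Pi.zero_apply, mul_zero, sub_zero] at this
  exact this

theorem pt_bd {m L : ℕ} {E : ℝ} (hE : 1 ≤ E) (hLE : (L : ℝ) ≤ E) {t : Fin m → ℤ}
    (ht : t ∈ bx (Fin m) L) (v : Option (Fin m)) : |(pt t v : ℝ)| ≤ E := by
  cases v with
  | none => simpa [pt] using hE
  | some l =>
    have := mem_bx.1 ht l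
    have h1 : (0 : ℝ) ≤ t l := by exact_mod_cast this.1
    have h2 : (t l : ℝ) ≤ L := by exact_mod_cast this.2.le
    simp only [pt, Option.elim]
    rw [abs_of_nonneg h1]; linarith

theorem mid (hJ : JOK) {s : ℕ} {G : GT ι} {T : AT ι} {P : ℝ} (hG : G.Ok s) (hT : G.AOk T P)
    (hU : T.U = univ) (hP : 0 < P) {m L r ns : ℕ} {ω : (Option (Fin m) →₀ ℕ) → ℝ}
    {F : (ι → ℤ) → ℝ} {Fam : Finset (JI G.w (Option (Fin m)) → ℤ)}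
    {E B κ δ ε σ0 σ2 ρ θ1 θ2 : ℝ} (hs : 1 ≤ s) (hE : 1 ≤ E) (hω : ∀ ν, E⁻¹ ≤ ω ν) (hL : 3 ≤ L)
    (hLE : (L : ℝ) ≤ E) (hκ : 0 < κ) (hr : 3 ≤ r) (hm : 8 * s * r ≤ m) (hB : 64 * B ≤ κ * 2 ^ r)
    (hF : ∀ z, |F z| ≤ B) (hδ0 : 0 ≤ δ) (hδ : δ ≤ 1 / 4) (hε : 0 < ε) (hσ0 : 0 < σ0)
    (hσ2 : 1 ≤ σ2) (hρ : 0 ≤ ρ) (hθ1 : 0 < θ1) (hθ2 : 0 < θ2) (hns : 1 ≤ ns)
    (big : 2 < ε / 16 * (ns : ℝ) ^ r) (hM : 0 < G.mn T.sg univ)
    (gh : ∀ n, 1 ≤ n → n ≤ ns * L ^ s → GC T.sg (uv G T) (G.mn T.sg univ) δ n σ0)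
    (gj1 : GC (fun x => T.sg x.1.1) (uv (jet G _ ω) (jat G T (e0 m) ω univ)) (bm G T ω) δ 1 1)
    (gj2 : GC (fun x => T.sg x.1.1) (uv (jet G _ ω) (jat G T (e0 m) ω univ)) (bm G T ω) δ 1
      (σ2 / 2))
    (gj3 : ∀ n, 1 ≤ n → n ≤ ns * L ^ s →
      GC (fun x => T.sg x.1.1) (uv (jet G _ ω) (jat G T (e0 m) ω univ)) (bm G T ω) δ n σ2)
    (num1 : (2 * δ + (σ2 ^ 2)⁻¹ * 2 ^ Fintype.card (JI G.w (Option (Fin m)))) / θ1 + 4 * θ1 < ε / 2)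
    (num2 : 2 * 2 ^ Fintype.card (JI G.w (Option (Fin m))) * Real.exp (-(2 * ρ)) ≤ ε / 16)
    (num3 : ((L ^ s : ℕ) : ℝ) ^ 2 * (B * ((2 * δ + Fintype.card ι * (σ0 * P *
      (Fintype.card (JI G.w (Option (Fin m))) * (E * (2 * P * (ρ + 1) / σ2) * E ^ s))) ^ 2) / θ2 +
        4 * θ2)) ≤ κ / 16)
    (mass : ε * bm G T ω ≤ ∑ β ∈ Fam, bw G T ω 1 0 β)
    (mean : ∀ β ∈ Fam, κ ≤ 𝔼 t ∈ Fintype.piFinset (fun _ : Fin m => Finset.Ico (0 : ℤ) L),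
      F (ev (pt t) β))
    (rem : ∀ β ∈ Fam, ∀ n ∈ Finset.Icc 1 ns,
      |𝔼 t ∈ Fintype.piFinset (fun _ : Fin m => Finset.Ico (0 : ℤ) L),
        H88.Rem (fun h => H88.Pk (Kw G T σ0) F h (ev (pt t) β)) (F (ev (pt t) β)) n (L ^ s)| ≤
        κ / 8) :
    ∃ (n : ℕ) (y : ι → ℤ) (c' : ι → ℝ), 1 ≤ n ∧ n ≤ ns ∧
      κ / 4 * ∑' z : ι → ℤ, ww G T σ0 c' (y + (n : ℤ) • z) ≤
        ∑' z : ι → ℤ, ww G T σ0 c' (y + (n : ℤ) • z) * F (y + (n : ℤ) • z) := by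
  classical
  have hB0 : 0 ≤ B := (abs_nonneg _).trans (hF 0)
  have hQ : 1 ≤ L ^ s := Nat.one_le_pow _ _ (by omega)
  have hN : 1 ≤ ns * L ^ s := Nat.mul_pos hns hQ
  have h7 : 16 * (2 * B) / 2 ^ r ≤ κ / 2 := by
    rw [div_le_iff₀ (by positivity)]; linarith
  have a1 : δ ≤ 1 / 2 := hδ.trans (by norm_num)
  have a2 : δ ≤ 1 := hδ.trans (by norm_num)
  have a3 : 0 < ε / 16 := by positivity
  have a4 : 0 ≤ 2 * B := by positivity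
  have a5 : 2 * s * (4 * r) ≤ m := by rw [show 2 * s * (4 * r) = 8 * s * r by ring]; exact hm
  have a6 : 0 ≤ 2 * P * (ρ + 1) / σ2 := by positivity
  have a7 : ∀ x : ℝ, 13 * κ / 16 - 16 * (2 * B) / 2 ^ r ≤ x → 5 * κ / 16 ≤ x := fun x hx =>
    le_trans (by clear * - h7; linarith) hx
  have hne : (bx (Fin m) L).Nonempty := ⟨0, mem_bx.2 fun k => ⟨le_rfl, by
    simp only [Pi.zero_apply]; omega⟩⟩
  rw [sum_congr rfl fun β _ => bw_gq G T ω β] at mass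
  have hcell := cell (ι := JI G.w (Option (Fin m))) (s := fun x => T.sg x.1.1) (P := P)
    (gj1.pos hδ0) hP (fun x => hT.s1 x.1.1) hδ0
    a1 hε hσ2 hθ1 hρ hN gj1 gj2 gj3 num1 num2 Fam mass
  obtain ⟨p, Fam', hsub, hp, hmass, hcls, hnear⟩ := hcell
  obtain ⟨β0, hβ0⟩ : Fam'.Nonempty := nonempty_of_sum_ne_zero (a3.trans_le hmass).ne'
  have hcore := core (id : (JI G.w (Option (Fin m)) → ℤ) → _) p Fam'
    (bx (Fin m) L) hne (fun t => evH G.w (pt t)) gg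
    (fun h t => Pc (ps T.sg (uv G T) (G.mn T.sg univ) σ0 F (uv G T (ev (pt t) β0))) h)
    ns (L ^ s) (4 * r) r (2 * B) (ε / 16)
    (13 * κ / 16) hp a3 a4 hmass hns hQ big hr le_rfl hcls
    (fun h t => Pc_per _ h) (Pc_cons fun t => ps_sm (gh 1 le_rfl hN) hF _)
    (fun h h1 h2 t y => Pc_bd hM hσ0 h1 (gh h h1 h2) a2 hF _ y)
    (fun t _ t' _ y => sh_ev hG.w1 t t' y)
    (fun n1 h1 h2 => share_box hL hs a5 h1 h2)
    (fun β hβ n hn1 hn2 => avg_low (bx (Fin m) L) _ _ _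
      (fun t ht => pt_low hT hU hP hF hδ0 hδ hσ0 hθ2 hM gh num3 hn1 hn2
        (fun t => uv G T (ev (pt t) β0)) t (ev (pt t) β)
        (near hJ hG hT hU (e0_pt t) hE a6 hω (pt_bd hE hLE ht) univ β0 β (hnear β0 hβ0 β hβ)))
      (mean β (hsub hβ)) (rem β (hsub hβ) n (mem_Icc.2 ⟨hn1, hn2⟩)))
  obtain ⟨n, hn1, hn2, t, -, y, hy⟩ := hcore
  refine ⟨n, y, fun a => σ0 * uv G T (ev (pt t) β0) a, hn1, hn2, ?_⟩
  simp only [ww_gq G T hU]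
  exact Pc_out hM hσ0 hn1 (gh n hn1 (hn2.trans (Nat.le_mul_of_pos_right _ hQ))) hδ hκ _ y (a7 _ hy)

end

end Vale.Agent.P057T.Cfg.Lf
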